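import Crest.Agent.X212.Sf30.Ex

/-!
# Row 212, layer H (helper30): the level set of a monotone cocycle is a surface
-/

set_option autoImplicit false
set_option linter.unusedSectionVars false

open Finset Classical

noncomputable section

namespace Crest.Agent.X212.Sf30

open Crest.Agent.X212.Hp13

variable {P : Type} [PartialOrder P] [Fintype P] {A : Set P} {z : P → P → ℤ} [hz : IsCoc A z]

theorem z_self {c : Ch P} (hc : Dom A c) {x : P} (hx : x ∈ c.1) : z x x = 0 :=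
  let ⟨_, ha, h⟩ := hc; hz.coc.self ha (h x hx)

theorem lv_le {p q : Lv A z} :
    p ≤ q ↔ p.1.1 ≤ q.1.1 ∧ q.1.2 = p.1.2 + z q.1.1.bot p.1.1.bot := by
  constructor
  · rintro (rfl | ⟨h1, h2⟩)
    · exact ⟨le_rfl, by rw [z_self (z := z) p.2.1 p.1.1.bot_mem, add_zero]⟩
    · exact ⟨h1.le, h2⟩
  · rintro ⟨h1, h2⟩
    rcases h1.eq_or_lt with e | h
    · refine Or.inl (Subtype.ext (Prod.ext e ?_))
      rw [h2, e, z_self (z := z) q.2.1 q.1.1.bot_mem, add_zero]
    · exact Or.inr ⟨h, h2⟩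

theorem lv_ch_le {p q : Lv A z} (h : p ≤ q) : p.1.1 ≤ q.1.1 := (lv_le.1 h).1

theorem lv_eq_of_le {p q : Lv A z} (h : p ≤ q) (e : p.1.1 = q.1.1) : p = q :=
  h.elim id fun h => absurd e h.1.ne

theorem lv_ch_lt {p q : Lv A z} (h : p < q) : p.1.1 < q.1.1 :=
  (lv_ch_le h.le).lt_of_ne fun e => h.ne (lv_eq_of_le h.le e)

theorem lv_card_lt {p q : Lv A z} (h : p < q) : p.1.1.1.card < q.1.1.1.card :=
  Ch.card_lt (lv_ch_lt h)

theorem la_upper : IsUpperSet (LA A z) := fun _ _ h hp => Mt.mono hp (lv_ch_le h)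

theorem lv_bot_ne_top (p : Lv A z) : p.1.1.bot ≠ p.1.1.top := fun e => by
  have := p.2.2
  rw [← e, z_self (z := z) p.2.1 p.1.1.bot_mem] at this
  omega

theorem lv_two_le (p : Lv A z) : 2 ≤ p.1.1.1.card :=
  one_lt_card.2 ⟨_, p.1.1.bot_mem, _, p.1.1.top_mem, lv_bot_ne_top p⟩

/-- two cells above a cell -/
theorem lv_le_of_ge {p q r : Lv A z} (hq : p ≤ q) (hr : p ≤ r) (h : q.1.1 ≤ r.1.1) : q ≤ r := by
  refine lv_le.2 ⟨h, ?_⟩
  rw [(lv_le.1 hq).2, (lv_le.1 hr).2, hz.coc.add' r.2.1 r.1.1.bot_mem (h q.1.1.bot_mem)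
    (lv_ch_le hr p.1.1.bot_mem) (Ch.bot_anti h) (Ch.bot_anti (lv_ch_le hq))]
  ring

/-- two cells below a cell -/
theorem lv_le_of_le {p q r : Lv A z} (hq : q ≤ p) (hr : r ≤ p) (h : q.1.1 ≤ r.1.1) : q ≤ r := by
  refine lv_le.2 ⟨h, ?_⟩
  have h1 := (lv_le.1 hq).2
  have h2 := (lv_le.1 hr).2
  rw [hz.coc.add' p.2.1 p.1.1.bot_mem (lv_ch_le hr r.1.1.bot_mem)
    (lv_ch_le hq q.1.1.bot_mem) (Ch.bot_anti (lv_ch_le hr)) (Ch.bot_anti h)] at h1
  omega

theorem lv_eq_of_ge {p q r : Lv A z} (hq : p ≤ q) (hr : p ≤ r) (h : q.1.1 = r.1.1) : q = r :=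
  lv_eq_of_le (lv_le_of_ge hq hr h.le) h

theorem lv_eq_of_le' {p q r : Lv A z} (hq : q ≤ p) (hr : r ≤ p) (h : q.1.1 = r.1.1) : q = r :=
  lv_eq_of_le (lv_le_of_le hq hr h.le) h

/-- a cell extends over every larger chain -/
theorem exists_up (hm : Mono A z) (p : Lv A z) {c : Ch P} (h : p.1.1 ≤ c) (hc : Dom A c) :
    ∃ q : Lv A z, q.1.1 = c ∧ p ≤ q := by
  have b := h p.1.1.bot_mem
  have t := h p.1.1.top_mem
  have e1 := hz.coc.add' hc c.bot_mem b c.top_mem (Ch.bot_le b) (Ch.le_top b)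
  have e2 := hz.coc.add' hc b t c.top_mem p.1.1.bot_le_top (Ch.le_top t)
  have m1 := hm _ _ (hc.dp c.bot_mem b (Ch.bot_le b))
  have m2 := hm _ _ (hc.dp t c.top_mem (Ch.le_top t))
  have := p.2.2
  exact ⟨⟨(c, p.1.2 + z c.bot p.1.1.bot), hc, by simp only; omega, by simp only; omega⟩, rfl,
    lv_le.2 ⟨h, rfl⟩⟩

/-- the point `x` of the chain of `p` is below the level -/
def lo (p : Lv A z) (x : P) : Prop := z p.1.1.bot x ≤ p.1.2

theorem lo_bot (p : Lv A z) : lo p p.1.1.bot := by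
  rw [lo, z_self (z := z) p.2.1 p.1.1.bot_mem]; exact p.2.2.1

theorem not_lo_top (p : Lv A z) : ¬ lo p p.1.1.top := not_le.2 p.2.2.2

theorem lo_of_le (hm : Mono A z) {p : Lv A z} {x y : P} (hx : x ∈ p.1.1.1) (hy : y ∈ p.1.1.1)
    (h : x ≤ y) (hl : lo p y) : lo p x := by
  have e := hz.coc.add' p.2.1 p.1.1.bot_mem hx hy (Ch.bot_le hx) h
  have m := hm _ _ (p.2.1.dp hx hy h)
  unfold lo at *
  omega

theorem lt_of_lo (hm : Mono A z) {p : Lv A z} {x y : P} (hx : x ∈ p.1.1.1) (hy : y ∈ p.1.1.1)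
    (h1 : lo p x) (h2 : ¬ lo p y) : x < y := by
  rcases p.1.1.total hx hy with h | h
  · exact h.lt_of_ne fun e => h2 (e ▸ h1)
  · exact absurd (lo_of_le hm hy hx h h1) h2

theorem lo_iff {p q : Lv A z} (h : q ≤ p) {x : P} (hx : x ∈ q.1.1.1) : lo p x ↔ lo q x := by
  unfold lo
  rw [(lv_le.1 h).2, hz.coc.add' p.2.1 p.1.1.bot_mem (lv_ch_le h q.1.1.bot_mem) (lv_ch_le h hx)
    (Ch.bot_anti (lv_ch_le h)) (Ch.bot_le hx)]
  omega

/-- a cell restricts to every face that sees the level -/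
theorem exists_dn (hm : Mono A z) (p : Lv A z) {c : Ch P} (h : c ≤ p.1.1) {x y : P} (hx : x ∈ c.1)
    (hy : y ∈ c.1) (h1 : lo p x) (h2 : ¬ lo p y) : ∃ q : Lv A z, q.1.1 = c ∧ q ≤ p := by
  have b := lo_of_le hm (h c.bot_mem) (h hx) (Ch.bot_le hx) h1
  have t : ¬ lo p c.top := fun k => h2 (lo_of_le hm (h hy) (h c.top_mem) (Ch.le_top hy) k)
  have e := hz.coc.add' p.2.1 p.1.1.bot_mem (h c.bot_mem) (h c.top_mem) (Ch.bot_anti h)
    c.bot_le_top
  unfold lo at b t
  exact ⟨⟨(c, p.1.2 - z p.1.1.bot c.bot), p.2.1.mono h, by simp only; omega,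
    by simp only; omega⟩, rfl, lv_le.2 ⟨h, by simp⟩⟩

/-- the vertex of the cell `p` on the edge `x < y` -/
theorem exists_vx (hm : Mono A z) (p : Lv A z) {x y : P} (hx : x ∈ p.1.1.1) (hy : y ∈ p.1.1.1)
    (h1 : lo p x) (h2 : ¬ lo p y) :
    ∃ q : Lv A z, q.1.1 = Ch.pr x y (lt_of_lo hm hx hy h1 h2).le ∧ q ≤ p :=
  exists_dn hm p (insert_subset hx (singleton_subset_iff.2 hy)) (by simp) (by simp) h1 h2

theorem card_up (hm : Mono A z) {p : Lv A z} (hp : p ∈ LA A z) :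
    (univ.filter (p < ·)).card = (univ.filter (p.1.1 < ·)).card := by
  refine card_bij (fun q _ => q.1.1) (fun q hq => by simpa using lv_ch_lt (by simpa using hq))
    (fun q hq r hr e => lv_eq_of_ge (le_of_lt (by simpa using hq)) (le_of_lt (by simpa using hr)) e)
    fun c hc => ?_
  have hc : p.1.1 < c := by simpa using hc
  obtain ⟨q, e, h⟩ := exists_up hm p hc.le (Mt.mono hp hc.le).dom
  exact ⟨q, by simpa using h.lt_of_ne fun k => hc.ne (by rw [k, e]), e⟩

theorem sum_up (hm : Mono A z) {p : Lv A z} (hp : p ∈ LA A z) (F : Ch P → ℤ) :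
    ∑ q ∈ univ.filter (p ≤ ·), F q.1.1 = ∑ c ∈ univ.filter (p.1.1 ≤ ·), F c := by
  refine sum_bij (fun q _ => q.1.1) (fun q hq => by simpa using lv_ch_le (by simpa using hq))
    (fun q hq r hr e => lv_eq_of_ge (by simpa using hq) (by simpa using hr) e)
    (fun c hc => ?_) fun _ _ => rfl
  have hc : p.1.1 ≤ c := by simpa using hc
  obtain ⟨q, e, h⟩ := exists_up hm p hc (Mt.mono hp hc).dom
  exact ⟨q, by simpa using h, e⟩

theorem card_mid (hm : Mono A z) {p q : Lv A z} (h : p ≤ q) :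
    (univ.filter fun r => p < r ∧ r < q).card =
      (univ.filter fun c => p.1.1 < c ∧ c < q.1.1).card := by
  refine card_bij (fun r _ => r.1.1) (fun r hr => ?_) (fun r hr r' hr' e => ?_) fun c hc => ?_
  · exact mem_filter.2 ⟨mem_univ _, lv_ch_lt (mem_filter.1 hr).2.1, lv_ch_lt (mem_filter.1 hr).2.2⟩
  · exact lv_eq_of_ge (mem_filter.1 hr).2.1.le (mem_filter.1 hr').2.1.le e
  · obtain ⟨h1, h2⟩ := (mem_filter.1 hc).2
    obtain ⟨r, e, hr⟩ := exists_up hm p h1.le (q.2.1.mono h2.le)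
    exact ⟨r, mem_filter.2 ⟨mem_univ _, hr.lt_of_ne fun k => h1.ne (by rw [k, e]),
      (lv_le_of_ge hr h (e ▸ h2.le)).lt_of_ne fun k => h2.ne (by rw [← k, e])⟩, e⟩

theorem eq_pr {c : Ch P} (h : c.1.card ≤ 2) : c = Ch.pr c.bot c.top c.bot_le_top := by
  by_cases e : c.bot = c.top
  · refine Ch.ext (Subset.antisymm (fun x hx => ?_)
      (insert_subset c.bot_mem (singleton_subset_iff.2 c.top_mem)))
    simp [le_antisymm (Ch.le_top hx) (e ▸ Ch.bot_le hx)]
  · exact Ch.ext (eq_of_subset_of_card_le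
      (insert_subset c.bot_mem (singleton_subset_iff.2 c.top_mem))
      (by rw [card_pair e]; exact h)).symm

/-- an edge of the level set has two ends -/
theorem card_dn (hm : Mono A z) {p : Lv A z} (hp : p.1.1.1.card = 3) :
    (univ.filter (· < p)).card = 2 := by
  have h0 := card_filter_add_card_filter_not (s := p.1.1.1) (lo p)
  have h1 : 0 < (p.1.1.1.filter (lo p)).card :=
    card_pos.2 ⟨_, mem_filter.2 ⟨p.1.1.bot_mem, lo_bot p⟩⟩
  have h2 : 0 < (p.1.1.1.filter fun x => ¬ lo p x).card :=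
    card_pos.2 ⟨_, mem_filter.2 ⟨p.1.1.top_mem, not_lo_top p⟩⟩
  have h3 : (p.1.1.1.filter (lo p) ×ˢ p.1.1.1.filter fun x => ¬ lo p x).card = 2 := by
    rw [card_product]
    rcases (by omega : (p.1.1.1.filter (lo p)).card = 1 ∨ (p.1.1.1.filter (lo p)).card = 2)
      with e | e
    · rw [e]; omega
    · rw [e]; omega
  rw [← h3]
  refine card_bij (fun q _ => (q.1.1.bot, q.1.1.top)) (fun q hq => ?_) (fun q hq r hr e => ?_)
    fun ⟨x, y⟩ hxy => ?_
  · have h : q ≤ p := le_of_lt (by simpa using hq)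
    exact mem_product.2 ⟨mem_filter.2 ⟨lv_ch_le h q.1.1.bot_mem,
      (lo_iff h q.1.1.bot_mem).2 (lo_bot q)⟩, mem_filter.2 ⟨lv_ch_le h q.1.1.top_mem,
      fun k => not_lo_top q ((lo_iff h q.1.1.top_mem).1 k)⟩⟩
  · have h : q < p := by simpa using hq
    have h' : r < p := by simpa using hr
    have := lv_card_lt h
    have := lv_card_lt h'
    refine lv_eq_of_le' h.le h'.le ?_
    rw [eq_pr (c := q.1.1) (by omega), eq_pr (c := r.1.1) (by omega)]
    obtain ⟨e1, e2⟩ := Prod.mk.inj e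
    exact Ch.ext (by rw [Ch.pr_val, Ch.pr_val, e1, e2])
  · obtain ⟨a, b⟩ := mem_product.1 hxy
    obtain ⟨q, e, h⟩ := exists_vx hm p (mem_filter.1 a).1 (mem_filter.1 b).1 (mem_filter.1 a).2
      (mem_filter.1 b).2
    refine ⟨q, mem_filter.2 ⟨mem_univ _, h.lt_of_ne fun k => ?_⟩, by simp [e]⟩
    have : q.1.1.1.card ≤ 2 := by rw [e]; exact card_le_two
    rw [k] at this; omega

theorem exists_dn_lt (hm : Mono A z) {p : Lv A z} (hp : 2 < p.1.1.1.card) : ∃ q, q < p := by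
  obtain ⟨q, e, h⟩ := exists_vx hm p p.1.1.bot_mem p.1.1.top_mem (lo_bot p) (not_lo_top p)
  refine ⟨q, h.lt_of_ne fun k => ?_⟩
  have : q.1.1.1.card ≤ 2 := by rw [e]; exact card_le_two
  rw [k] at this; omega

/-- the boundary of a cell of dimension `≥ 2` is connected -/
theorem conn_dn (hm : Mono A z) {p : Lv A z} (hp : 3 < p.1.1.1.card) : Conn {q | q < p} := by
  have k : ∀ q r : Lv A z, q ≤ p → r ≤ p → q.1.1.1.card ≤ 3 → r.1.1.1.card ≤ 3 → q.1.1 ≤ r.1.1 →
      Rch {q | q < p} q r := fun q r hq hr a b h =>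
    Rch.of_cm (hq.lt_of_ne fun e => by rw [e] at a; omega)
      (hr.lt_of_ne fun e => by rw [e] at b; omega) (Or.inl (lv_le_of_le hq hr h))
  have v : ∀ q : Lv A z, q < p → ∃ x ∈ p.1.1.1, ∃ y ∈ p.1.1.1, lo p x ∧ ¬ lo p y ∧
      ∀ r : Lv A z, r ≤ p → r.1.1.1 = {x, y} → Rch {q | q < p} r q := fun q hq => by
    refine ⟨_, lv_ch_le hq.le q.1.1.bot_mem, _, lv_ch_le hq.le q.1.1.top_mem,
      (lo_iff hq.le q.1.1.bot_mem).2 (lo_bot q),
      fun k => not_lo_top q ((lo_iff hq.le q.1.1.top_mem).1 k), fun r hr e => ?_⟩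
    have : r ≤ q := lv_le_of_le hr hq.le (by
      rw [Ch.le_iff, e]; exact insert_subset q.1.1.bot_mem (singleton_subset_iff.2 q.1.1.top_mem))
    exact Rch.of_cm (this.trans_lt hq) hq (Or.inl this)
  have w : ∀ r r' : Lv A z, r ≤ p → r' ≤ p → r.1.1.1.card ≤ 2 → r'.1.1.1.card ≤ 2 →
      (r.1.1.1 ∪ r'.1.1.1).card ≤ 3 → Rch {q | q < p} r r' := fun r r' hr hr' a b c => by
    obtain ⟨s, e, hs⟩ := exists_dn hm p (c := p.1.1.sub (r.1.1.1 ∪ r'.1.1.1)
      (r.1.1.2.1.mono subset_union_left) (union_subset (lv_ch_le hr) (lv_ch_le hr')))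
      (p.1.1.sub_le _ _ _) (mem_union_left _ r.1.1.bot_mem) (mem_union_left _ r.1.1.top_mem)
      ((lo_iff hr r.1.1.bot_mem).2 (lo_bot r))
      fun k => not_lo_top r ((lo_iff hr r.1.1.top_mem).1 k)
    exact (k r s hr hs (by omega) (by rw [e]; exact c) (by rw [e]; exact subset_union_left)).trans
      (k r' s hr' hs (by omega) (by rw [e]; exact c) (by rw [e]; exact subset_union_right)).symm
  intro q hq q' hq'
  obtain ⟨x, hx, y, hy, a, b, H⟩ := v q hq
  obtain ⟨x', hx', y', hy', a', b', H'⟩ := v q' hq'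
  obtain ⟨r, e, h⟩ := exists_vx hm p hx hy a b
  obtain ⟨r', e', h'⟩ := exists_vx hm p hx' hy' a' b'
  obtain ⟨s, f, g⟩ := exists_vx hm p hx hy' a b'
  refine (H r h (by rw [e]; rfl)).symm.trans (Rch.trans (Rch.trans (w r s h g ?_ ?_ ?_)
    (w s r' g h' ?_ ?_ ?_)) (H' r' h' (by rw [e']; rfl)))
  · rw [e]; exact card_le_two
  · rw [f]; exact card_le_two
  · rw [e, f]
    exact (card_le_card (t := {x, y, y'}) (by intro t; simp)).trans card_le_three
  · rw [f]; exact card_le_two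
  · rw [e']; exact card_le_two
  · rw [e', f]
    exact (card_le_card (t := {x, x', y'}) (by intro t; simp; tauto)).trans card_le_three

theorem lv_card_le {d : ℕ} (h : Mf d A) (p : Lv A z) : p.1.1.1.card ≤ d + 1 :=
  let ⟨e, he, hm⟩ := dom_iff.1 p.2.1; (card_le_card he).trans (h.card_le e hm)

theorem exists_up_lt {d : ℕ} (h : Mf d A) (hm : Mono A z) {p : Lv A z} (hp : p ∈ LA A z)
    (hc : p.1.1.1.card ≤ d) : ∃ q, p < q := by
  obtain ⟨c, a, b⟩ := h.pure _ hp
  obtain ⟨q, e, k⟩ := exists_up hm p a (Mt.mono hp a).dom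
  exact ⟨q, k.lt_of_ne fun t => by rw [t, e] at hc; omega⟩

/-- **the level set of a monotone cocycle in a 3-manifold is a surface** -/
theorem mf_LA (h : Mf 3 A) (hm : Mono A z) : Mf 2 (LA A z) := by
  have b := fun p : Lv A z => And.intro (lv_two_le p) (lv_card_le h p)
  refine mf2_of (fun c _ => ?_) (fun c hc e => ?_) (fun p hp => ?_) fun p hp => ?_
  · refine (card_le_card_of_injOn (t := Icc 2 4) (fun p => p.1.1.1.card)
      (fun p _ => by simpa using b p) fun p hp q hq e => ?_).trans (by simp)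
    by_contra hn
    rcases c.total hp hq with k | k
    · exact (lv_card_lt (k.lt_of_ne hn)).ne e
    · exact (lv_card_lt (k.lt_of_ne (Ne.symm hn))).ne' e
  · have hne : c.bot ≠ c.top := fun k => by
      have := eq_pr e.le
      rw [this] at e
      simp [k] at e
    have hlt := c.bot_le_top.lt_of_ne hne
    have hq : c.top ∈ LA A z := let ⟨_, ha, h⟩ := hc; la_upper (Ch.le_top ha) h
    have hx : ∀ r, r ∈ xt c ↔ (r < c.bot ∨ c.bot < r) ∧ (r < c.top ∨ c.top < r) := fun r => by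
      rw [mem_xt, eq_pr e.le]
      simp only [Ch.pr_val, mem_insert, mem_singleton, not_or, forall_eq_or_imp, forall_eq,
        Ch.bot_pr, Ch.top_pr, Cm, lt_iff_le_and_ne, ne_eq, @eq_comm _ _ r]
      tauto
    generalize c.bot = p at *
    generalize c.top = q at *
    have := lv_card_lt hlt
    have := b p
    have := b q
    rcases (by omega : (p.1.1.1.card = 2 ∧ q.1.1.1.card = 3) ∨ (p.1.1.1.card = 2 ∧
      q.1.1.1.card = 4) ∨ (p.1.1.1.card = 3 ∧ q.1.1.1.card = 4)) with k | k | k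
    · rw [← Alg36.Mf.card_two h hq k.2, ← card_up hm hq]
      congr 1
      ext r
      simp only [hx, mem_filter, mem_univ, true_and]
      refine ⟨fun ⟨h1, h2⟩ => h2.resolve_left fun h2 => ?_,
        fun h => ⟨Or.inr (hlt.trans h), Or.inr h⟩⟩
      have := lv_card_lt h2
      have := b r
      rcases h1 with h1 | h1 <;> have := lv_card_lt h1 <;> omega
    · rw [← card_between (lv_ch_le hlt.le) (by omega), ← card_mid hm hlt.le]
      congr 1
      ext r
      simp only [hx, mem_filter, mem_univ, true_and]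
      have := b r
      exact ⟨fun ⟨h1, h2⟩ => ⟨h1.resolve_left fun h1 => by have := lv_card_lt h1; omega,
        h2.resolve_right fun h1 => by have := lv_card_lt h1; omega⟩,
        fun h => ⟨Or.inr h.1, Or.inl h.2⟩⟩
    · rw [← card_dn hm k.1]
      congr 1
      ext r
      simp only [hx, mem_filter, mem_univ, true_and]
      refine ⟨fun ⟨h1, h2⟩ => h1.resolve_right fun h1 => ?_,
        fun h => ⟨Or.inl h, Or.inl (h.trans hlt)⟩⟩
      have := lv_card_lt h1
      have := b r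
      rcases h2 with h2 | h2 <;> have := lv_card_lt h2 <;> omega
  · have := b p
    have hl : ∀ q, q ∈ lk p ↔ q < p ∨ p < q := fun q => by
      simp only [lk, Set.mem_ofPred_eq, Cm, lt_iff_le_and_ne, ne_eq, @eq_comm _ _ q]
      tauto
    rcases (by omega : p.1.1.1.card = 2 ∨ p.1.1.1.card = 3 ∨ p.1.1.1.card = 4) with k | k | k
    · have u : ∀ q ∈ lk p, p < q := fun q hq => ((hl q).1 hq).resolve_left fun h1 => by
        have := lv_card_lt h1; have := b q; omega
      choose f hf hf' using fun (c : Ch P) (hc : p.1.1 ≤ c) =>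
        exists_up hm p hc (Mt.mono hp hc).dom
      let g : Ch P → Lv A z := fun c => if hc : p.1.1 ≤ c then f c hc else p
      have hg : ∀ c, p.1.1 < c → (g c).1.1 = c ∧ p < g c := fun c hc => by
        have e : g c = f c hc.le := dif_pos hc.le
        rw [e]
        exact ⟨hf _ _, (hf' _ _).lt_of_ne fun t => hc.ne (by rw [t, hf])⟩
      intro q hq r hr
      have t : ∀ q ∈ lk p, g q.1.1 = q := fun q hq =>
        lv_eq_of_ge (hg _ (lv_ch_lt (u q hq))).2.le (u q hq).le (hg _ (lv_ch_lt (u q hq))).1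
      rw [← t q hq, ← t r hr]
      refine (h.conn _ hp (by omega) _ (lv_ch_lt (u q hq)) _ (lv_ch_lt (u r hr))).map
        fun c hc c' hc' hcc => ?_
      exact Rch.of_cm ((hl _).2 (Or.inr (hg c hc).2)) ((hl _).2 (Or.inr (hg c' hc').2))
        (Or.inl (lv_le_of_ge (hg c hc).2.le (hg c' hc').2.le (by rwa [(hg c hc).1, (hg c' hc').1])))
    · obtain ⟨u, hu⟩ := exists_up_lt h hm hp k.le
      obtain ⟨v, hv⟩ := exists_dn_lt hm (p := p) (by omega)
      have j : ∀ q r, q < p → p < r → Rch (lk p) q r := fun q r h1 h2 =>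
        Rch.of_cm ((hl _).2 (Or.inl h1)) ((hl _).2 (Or.inr h2)) (Or.inl (h1.trans h2).le)
      have t : ∀ q ∈ lk p, Rch (lk p) q u := fun q hq => ((hl q).1 hq).elim (fun h => j q u h hu)
        fun h => (j v q hv h).symm.trans (j v u hv hu)
      exact fun q hq r hr => (t q hq).trans (t r hr).symm
    · have : lk p = {q | q < p} := Set.ext fun q => (hl q).trans
        ⟨fun h1 => h1.resolve_right fun h1 => by have := lv_card_lt h1; have := b q; omega, Or.inl⟩
      rw [this]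
      exact conn_dn hm (by omega)
  · have := b p
    by_cases k : p.1.1.1.card ≤ 3
    · obtain ⟨u, hu⟩ := exists_up_lt h hm hp k
      exact ⟨u, hu.ne', Or.inr hu.le⟩
    · obtain ⟨v, hv⟩ := exists_dn_lt hm (p := p) (by omega)
      exact ⟨v, hv.ne, Or.inl hv.le⟩

theorem bet_lv (h : Mf 3 A) (hm : Mono A z) {p : Lv A z} (hp : p ∈ LA A z) :
    bet p = -p.1.1.sg :=
  bet_eq_of la_upper (fun p : Lv A z => -p.1.1.sg) (fun p hp => by
    rw [sum_neg_distrib, sum_up hm hp Ch.sg, h.eul _ hp]; norm_num) hp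

theorem eps_lv (h : Mf 3 A) (hm : Mono A z) {p : Lv A z} (hp : p ∈ LA A z) :
    eps p = p.1.1.sg := by
  have := (mf_LA h hm).bet_eq hp
  rw [bet_lv h hm hp] at this
  linear_combination this

/-- `chiC` is the Euler characteristic -/
theorem chiC_eq_eu (h : Mf 3 A) (hm : Mono A z) {C : Set (Lv A z)} (hC : C ⊆ LA A z)
    (hU : IsUpperSet C) : chiC C = eu C := by
  rw [eu_upper hU, chiC, ← sum_neg_distrib]
  exact sum_congr rfl fun p hp => by rw [bet_lv h hm (hC (mem_filter.1 hp).2), neg_neg]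

theorem chiC_eq_ee (h : Mf 3 A) (hm : Mono A z) {C : Set (Lv A z)} (hC : C ⊆ LA A z) :
    chiC C = ee C :=
  sum_congr rfl fun _ hp => (eps_lv h hm (hC (mem_filter.1 hp).2)).symm

/-- a sum over the cells of the level set -/
theorem sum_lv (hm : Mono A z) (F : Ch P → ℤ) :
    ∑ p ∈ univ.filter (· ∈ LA A z), F p.1.1 = ∑ c ∈ univ.filter (Mt A), F c * z c.bot c.top := by
  rw [← sum_fiberwise_of_maps_to (s := univ.filter (· ∈ LA A z)) (t := univ.filter (Mt A))
    (g := fun p : Lv A z => p.1.1) fun p hp => mem_filter.2 ⟨mem_univ _, (mem_filter.1 hp).2⟩]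
  refine sum_congr rfl fun c hc => ?_
  have hc : Mt A c := (mem_filter.1 hc).2
  rw [sum_congr rfl (g := fun _ => F c) fun p hp => by rw [(mem_filter.1 hp).2], sum_const,
    nsmul_eq_mul, mul_comm]
  congr 1
  have : ((Ico 0 (z c.bot c.top)).card : ℤ) = z c.bot c.top := by
    rw [Int.card_Ico, sub_zero, Int.toNat_of_nonneg (hm _ _ hc.bt)]
  rw [← this]
  congr 1
  refine card_bij (fun p _ => p.1.2) (fun p hp => ?_) (fun p hp q hq e => ?_) fun k hk => ?_
  · rw [← (mem_filter.1 hp).2]; exact mem_Ico.2 p.2.2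
  · exact Subtype.ext (Prod.ext ((mem_filter.1 hp).2.trans (mem_filter.1 hq).2.symm) e)
  · exact ⟨⟨(c, k), hc.dom, mem_Ico.1 hk⟩, mem_filter.2 ⟨mem_filter.2 ⟨mem_univ _, hc⟩, rfl⟩, rfl⟩

theorem chi_eq_chiC (hm : Mono A z) : chi A z = chiC (LA A z) := (sum_lv hm Ch.sg).symm

end Crest.Agent.X212.Sf30
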