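import Crest.Agent.X212.Sf30.P2Defs
import Crest.Agent.X212.Alg36.Cut2a
import Crest.Agent.X212.Alg36.Sd3

/-!
# X212 / Sf30 (helper30): P2, the surface of mixed chains, stars of boundary sets
-/

set_option autoImplicit false
set_option linter.unusedSectionVars false

open Finset Classical

noncomputable section

namespace Crest.Agent.X212.Pt30

open Crest.Agent.X212.Hp13 Alg36 Cut21 Ind26
open Sf30 hiding Inn
open Sup43 (Inn)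
open Kh11 (WS sctr_min sctr_max)

variable {P : Type} [PartialOrder P] [Fintype P] {M V W S : Set P} {e : P → P → ℤ}

theorem dom_top {c : Ch P} (h : c.top ∈ M) : Dom M c := Mt.dom ⟨_, c.top_mem, h⟩

theorem mt_top (hM : IsUpperSet M) {c : Ch P} : Mt M c ↔ c.top ∈ M :=
  ⟨fun ⟨_, ha, h⟩ => hM (Ch.le_top ha) h, fun h => ⟨_, c.top_mem, h⟩⟩

theorem dom_up (hM : IsUpperSet M) {c : Ch P} : Dom M c ↔ ∃ u ∈ M, c.top ≤ u :=
  ⟨fun ⟨a, ha, h⟩ => (h _ c.top_mem).elim (fun k => ⟨_, hM k ha, le_rfl⟩) fun k => ⟨a, ha, k⟩,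
    fun ⟨u, hu, h⟩ => ⟨u, hu, fun _ hx => Or.inr ((Ch.le_top hx).trans h)⟩⟩

namespace Z1

theorem nn (h : Z1 M e) {x y u : P} (hu : u ∈ M) (h1 : x ≤ y) (h2 : y ≤ u) : 0 ≤ e x y :=
  h.mono _ _ (dp_hi hu h1 h2)

theorem le1 (h : Z1 M e) {x y u : P} (hu : u ∈ M) (h1 : x ≤ y) (h2 : y ≤ u) : e x y ≤ 1 :=
  h.le _ _ (dp_hi hu h1 h2)

theorem add (h : Z1 M e) {x y w u : P} (hu : u ∈ M) (h1 : x ≤ y) (h2 : y ≤ w) (h3 : w ≤ u) :
    e x w = e x y + e y w := (tri_hi hu h1 h2 h3).add h.coc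

theorem self (h : Z1 M e) {x u : P} (hu : u ∈ M) (h1 : x ≤ u) : e x x = 0 :=
  h.coc.self hu (Or.inr h1)

theorem sub (h : Z1 M e) (hV : V ⊆ M) : Z1 V e :=
  ⟨h.coc.mono hV, h.mono.mono hV, fun x y hp => h.le x y (hp.mono hV)⟩

theorem congr {e' : P → P → ℤ} (h : Z1 M e) (k : EqD M e' e) : Z1 M e' :=
  ⟨h.coc.congr k, h.mono.congr k, fun x y hp => k x y hp ▸ h.le x y hp⟩

theorem pb {Q : Type} [PartialOrder Q] {f : Q → P} (hf : Monotone f) (h : Z1 M e) :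
    Z1 (f ⁻¹' M) (pb f e) := ⟨h.coc.pb hf, h.mono.pb hf, fun _ _ hp => h.le _ _ (hp.map hf)⟩

theorem rev (h : Z1 M e) : Z1 (Ch.top ⁻¹' M) (rev e) :=
  ⟨h.coc.rev, h.mono.rev, fun c d hp =>
    h.le _ _ (hp.dom_top.dp d.bot_mem (hp.1 c.bot_mem) (Ch.bot_anti hp.1))⟩

/-- a chain with a jump is mixed -/
theorem pos (h : Z1 M e) {c : Ch P} (hc : Dom M c) {x y : P} (hx : x ∈ c.1) (hy : y ∈ c.1)
    (hxy : x ≤ y) (k : 0 < e x y) : 0 < e c.bot c.top :=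
  k.trans_le (h.mono.le_range h.coc hc hx hy hxy)

theorem up (h : Z1 M e) {c d : Ch P} (hd : Dom M d) (k : c ≤ d) (hc : 0 < e c.bot c.top) :
    0 < e d.bot d.top := h.pos hd (k c.bot_mem) (k c.top_mem) c.bot_le_top hc

theorem bot_ne_top (h : Z1 M e) {c : Ch P} (hd : Dom M c) (hc : 0 < e c.bot c.top) :
    c.bot ≠ c.top := fun k => by
  obtain ⟨a, ha, l⟩ := hd
  rw [k, h.coc.self ha (l _ c.top_mem)] at hc
  exact lt_irrefl _ hc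

/-- the bottoms of two comparable mixed chains are on the same level -/
theorem bot_bot (h : Z1 M e) {c d : Ch P} (hd : Dom M d) (k : c ≤ d) (hc : 0 < e c.bot c.top) :
    e d.bot c.bot = 0 := by
  have a := h.coc.add' hd d.bot_mem (k c.bot_mem) (k c.top_mem) (Ch.bot_anti k) c.bot_le_top
  have b := h.le _ _ (hd.dp d.bot_mem (k c.top_mem) (Ch.bot_le (k c.top_mem)))
  have := h.mono _ _ (hd.dp d.bot_mem (k c.bot_mem) (Ch.bot_anti k))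
  omega

theorem top_top (h : Z1 M e) {c d : Ch P} (hd : Dom M d) (k : c ≤ d) (hc : 0 < e c.bot c.top) :
    e c.top d.top = 0 := by
  have a := h.coc.add' hd (k c.bot_mem) (k c.top_mem) d.top_mem c.bot_le_top (Ch.top_mono k)
  have b := h.le _ _ (hd.dp (k c.bot_mem) d.top_mem (Ch.le_top (k c.bot_mem)))
  have := h.mono _ _ (hd.dp (k c.top_mem) d.top_mem (Ch.top_mono k))
  omega

end Z1

theorem mx_upper (h : Z1 M e) (hV : IsUpperSet V) (k : V ⊆ M) : IsUpperSet (Mx V e) :=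
  fun _ _ l hc =>
    have := hV (Ch.top_mono l) hc.1
    ⟨this, h.up (dom_top (k this)) l hc.2⟩

theorem mx_mono (k : V ⊆ W) : Mx V e ⊆ Mx W e := fun _ h => ⟨k h.1, h.2⟩

/-- the boundary surface -/
theorem z1_ind (hM : IsUpperSet M) : Z1 V (cb (ind M)) :=
  ⟨coc_cb _, mono_ind fun _ _ hp hx => hM hp.1 hx, fun x y _ => cb_ind_le x y⟩

theorem mem_mx_ind {c : Ch P} : c ∈ Mx M (cb (ind M)) ↔ c.top ∈ M ∧ c.bot ∉ M :=
  ⟨fun h => ⟨h.1, (cb_ind_pos h.2).1⟩, fun h => ⟨h.1, by rw [cb_ind_one h.2 h.1]; exact one_pos⟩⟩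

/-! ### the mixed chains as cells of the level set -/

/-- all mixed chains in the star -/
def Qe (M : Set P) (e : P → P → ℤ) : Set (Ch P) := {c | Dom M c ∧ 0 < e c.bot c.top}

theorem mx_qe (k : V ⊆ M) : Mx V e ⊆ Qe M e := fun _ h => ⟨dom_top (k h.1), h.2⟩

/-- the chain of a cell -/
def ch (p : Lv M e) : Ch P := p.1.1

/-- the cell of a mixed chain -/
def cel {c : Ch P} (h : c ∈ Qe M e) : Lv M e := ⟨(c, 0), h.1, le_rfl, h.2⟩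

@[simp] theorem ch_cel {c : Ch P} (h : c ∈ Qe M e) : ch (cel h) = c := rfl

theorem ch_mem (p : Lv M e) : ch p ∈ Qe M e := ⟨p.2.1, p.2.2.1.trans_lt p.2.2.2⟩

theorem la_eq (hM : IsUpperSet M) : LA M e = ch ⁻¹' Mx M e :=
  Set.ext fun p => ⟨fun k => ⟨(mt_top hM).1 k, (ch_mem p).2⟩, fun k => (mt_top hM).2 k.1⟩

section lv

variable [IsCoc M e] {S T C : Set (Ch P)}

theorem Z1.lv0 (h : Z1 M e) (p : Lv M e) : p.1.2 = 0 := by
  have := h.le _ _ p.2.1.bt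
  have := p.2.2
  omega

theorem Z1.ch_le (h : Z1 M e) {p q : Lv M e} : ch p ≤ ch q ↔ p ≤ q :=
  ⟨fun k => lv_le.2 ⟨k, by rw [h.lv0, h.lv0, zero_add]; exact (h.bot_bot q.2.1 k (ch_mem p).2).symm⟩,
    lv_ch_le⟩

theorem Z1.ch_cm (h : Z1 M e) {p q : Lv M e} : Cm (ch p) (ch q) ↔ Cm p q :=
  or_congr h.ch_le h.ch_le

theorem Z1.ch_inj (h : Z1 M e) {p q : Lv M e} (k : ch p = ch q) : p = q :=
  le_antisymm (h.ch_le.1 k.le) (h.ch_le.1 k.ge)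

theorem Z1.ws (h : Z1 M e) (hS : S ⊆ Qe M e) : WS (ch ⁻¹' S : Set (Lv M e)) S ch :=
  WS.of_iso (fun _ k => k) (fun _ k => ⟨cel (hS k), k, rfl⟩) fun _ _ _ _ => h.ch_le

theorem Z1.eu_pre (h : Z1 M e) (hS : S ⊆ Qe M e) : eu (ch ⁻¹' S : Set (Lv M e)) = eu S :=
  (h.ws hS).eu_eq

theorem Z1.conn_pre (h : Z1 M e) (hS : S ⊆ Qe M e) : Conn (ch ⁻¹' S : Set (Lv M e)) ↔ Conn S :=
  (h.ws hS).conn_iff

theorem Z1.cmp_pre (h : Z1 M e) (hS : S ⊆ Qe M e) (hC : IsCmp S C) :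
    IsCmp (ch ⁻¹' S : Set (Lv M e)) (ch ⁻¹' C) := by
  convert (h.ws hS).isCmp_pre hC using 1
  exact Set.ext fun p => ⟨fun k => ⟨hC.sub k, k⟩, fun k => k.2⟩

theorem Z1.cmp_ex (h : Z1 M e) (hS : S ⊆ Qe M e) {D : Set (Lv M e)} (hD : IsCmp (ch ⁻¹' S) D) :
    ∃ C, IsCmp S C ∧ D = ch ⁻¹' C :=
  let ⟨C, k, l⟩ := (h.ws hS).isCmp_ex hD
  ⟨C, k, l.trans (Set.ext fun _ => ⟨fun a => a.2, fun a => ⟨k.sub a, a⟩⟩)⟩

theorem mf_mono {d : ℕ} {Q : Type} [PartialOrder Q] [Fintype Q] {A B : Set Q} (h : Mf d A)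
    (k : B ⊆ A) : Mf d B :=
  ⟨fun c a => h.card_le c (a.sub k), fun c a => h.eul c (a.sub k), fun c a => h.conn c (a.sub k),
    fun c a => h.pure c (a.sub k)⟩

/-- every set of interior cells is a surface -/
theorem Z1.mf (h : Z1 M e) (hM : Mf 3 M) (hS : S ⊆ Mx M e) : Mf 2 (ch ⁻¹' S : Set (Lv M e)) :=
  mf_mono (mf_LA hM h.mono) fun _ k => ⟨_, Ch.top_mem _, (hS k).1⟩

theorem Z1.chiC_pre (h : Z1 M e) (hS : S ⊆ Qe M e) :
    chiC (ch ⁻¹' S : Set (Lv M e)) = ∑ c ∈ univ.filter (· ∈ S), c.sg :=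
  sum_bij (fun p _ => ch p) (fun _ k => by simpa using k) (fun _ _ _ _ k => h.ch_inj k)
    (fun c k => ⟨cel (hS (by simpa using k)), by simpa using k, rfl⟩) fun _ _ => rfl

end lv

section surf

variable {S : Set (Ch P)}

/-- the Euler characteristic of an upper family of cells is the signed count -/
theorem Z1.eu_eq (h : Z1 M e) (hM : Mf 3 M) (hS : S ⊆ Mx M e) (hU : IsUpperSet S) :
    eu S = ∑ c ∈ univ.filter (· ∈ S), c.sg := by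
  have : IsCoc M e := ⟨h.coc⟩
  have q := hS.trans (mx_qe subset_rfl)
  rw [← h.eu_pre q, ← h.chiC_pre q]
  exact (Sf30.chiC_eq_eu hM h.mono (fun _ k => ⟨_, Ch.top_mem _, (hS k).1⟩)
    fun _ _ l k => hU (lv_ch_le l) k).symm

theorem Z1.eu_le_two (h : Z1 M e) (hM : Mf 3 M) (hS : S ⊆ Mx M e) (hc : Conn S) : eu S ≤ 2 := by
  have : IsCoc M e := ⟨h.coc⟩
  have q := hS.trans (mx_qe subset_rfl)
  rw [← h.eu_pre q]
  exact Mf.eu_le_two (h.mf hM hS) subset_rfl ((h.conn_pre q).2 hc)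

theorem Z1.eu_le_one (h : Z1 M e) (hM : Mf 3 M) (hS : S ⊆ Mx M e) (hc : Conn S) {c q : Ch P}
    (h1 : c ∈ S) (h2 : q ∈ Qe M e) (h3 : q ∉ S) (k : Cm c q) : eu S ≤ 1 := by
  have : IsCoc M e := ⟨h.coc⟩
  have Q := hS.trans (mx_qe subset_rfl)
  rw [← h.eu_pre Q]
  exact eu_le_one' (h.mf hM hS) ((h.conn_pre Q).2 hc)
    ⟨_, pr_mix (a := cel (Q h1)) (x := cel h2) h1 h3 (h.ch_cm.1 k)⟩

theorem Z1.ctr (h : Z1 M e) (hM : Mf 3 M) (hS : S ⊆ Mx M e) (hc : Conn S) {c q : Ch P}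
    (h1 : c ∈ S) (h2 : q ∈ Qe M e) (h3 : q ∉ S) (k : Cm c q) (he : 1 ≤ eu S) : Ctr S := by
  have : IsCoc M e := ⟨h.coc⟩
  have Q := hS.trans (mx_qe subset_rfl)
  have cn := (h.conn_pre Q).2 hc
  exact (h.ws Q).ctr_iff.1 (Mf.ctr_of_eu (h.mf hM hS) subset_rfl cn
    (esc_of (a := cel (Q h1)) (x := cel h2) subset_rfl cn h1 h3 (h.ch_cm.1 k)) (h.eu_pre Q ▸ he))

/-- `eu ≤ 2 - b` for an upper family; `β q c` is the class of the rim cell `q < c` -/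
theorem Z1.eu_add_le (h : Z1 M e) (hM : Mf 3 M) (hS : S ⊆ Mx M e) (hU : IsUpperSet S)
    (hc : Conn S) {ι : Type} (β : Ch P → Ch P → ι)
    (h1 : ∀ q ∈ Qe M e, q ∉ S → ∀ c ∈ S, ∀ c', q ≤ c → c ≤ c' → β q c = β q c')
    (h2 : ∀ q ∈ Qe M e, q ∉ S → ∀ c ∈ S, ∀ q' ∈ Qe M e, q' ≤ q → q ≤ c → β q c = β q' c)
    (J : Finset ι) (hJ : ∀ i ∈ J, ∃ q ∈ Qe M e, q ∉ S ∧ ∃ c ∈ S, q ≤ c ∧ β q c = i) :
    eu S + J.card ≤ 2 := by
  have : IsCoc M e := ⟨h.coc⟩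
  have Q := hS.trans (mx_qe subset_rfl)
  have k : ∀ c ∈ mix (ch ⁻¹' S : Set (Lv M e)), ch c.bot ∉ S ∧ ch c.top ∈ S :=
    fun c ⟨⟨a, ha, l⟩, b, hb, l'⟩ =>
      ⟨fun m => l' (hU (lv_ch_le (Ch.bot_le hb)) m), hU (lv_ch_le (Ch.le_top ha)) l⟩
  rw [← h.eu_pre Q]
  refine Sf30.eu_add_le (h.mf hM hS) ((h.conn_pre Q).2 hc) (fun c => β (ch c.bot) (ch c.top))
    (fun c hc d l => ?_) J fun i hi => ?_
  · have a := k c hc
    have b : ch c.bot ≤ ch c.top := lv_ch_le c.bot_le_top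
    have t : ch c.top ≤ ch d.top := lv_ch_le (Ch.top_mono l)
    rw [h1 _ (ch_mem _) a.1 _ a.2 _ b t]
    exact h2 _ (ch_mem _) a.1 _ (hU t a.2) _ (ch_mem _) (lv_ch_le (Ch.bot_anti l)) (b.trans t)
  · obtain ⟨q, a, b, c, d, l, rfl⟩ := hJ i hi
    have l' : cel a ≤ cel (Q d) := h.ch_le.1 l
    refine ⟨Ch.pr _ _ l', ⟨⟨cel (Q d), by simp, d⟩, cel a, by simp, b⟩, ?_⟩
    simp

/-- the rim of a disc is connected -/
theorem Z1.rim (h : Z1 M e) (hM : Mf 3 M) (hS : S ⊆ Mx M e) (hU : IsUpperSet S)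
    (hc : Conn S) (he : 1 ≤ eu S) {ι : Type} (β : Ch P → Ch P → ι)
    (h1 : ∀ q ∈ Qe M e, q ∉ S → ∀ c ∈ S, ∀ c', q ≤ c → c ≤ c' → β q c = β q c')
    (h2 : ∀ q ∈ Qe M e, q ∉ S → ∀ c ∈ S, ∀ q' ∈ Qe M e, q' ≤ q → q ≤ c → β q c = β q' c)
    {q c q' c' : Ch P} (a1 : q ∈ Qe M e) (a2 : q ∉ S) (a3 : c ∈ S) (a4 : q ≤ c)
    (b1 : q' ∈ Qe M e) (b2 : q' ∉ S) (b3 : c' ∈ S) (b4 : q' ≤ c') : β q c = β q' c' := by
  by_contra k
  have := h.eu_add_le hM hS hU hc β h1 h2 {β q c, β q' c'} fun i hi => by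
    rcases mem_insert.1 hi with rfl | hi
    exacts [⟨q, a1, a2, c, a3, a4, rfl⟩, mem_singleton.1 hi ▸ ⟨q', b1, b2, c', b3, b4, rfl⟩]
  rw [card_pair k] at this
  omega

end surf

/-! ### stars -/

theorem ctr_over {d : Ch P} (p : P → Prop) (hp : p d.bot) (h : Ctr {i | i ∈ V ∧ d.top ≤ i}) :
    Ctr {c | d ≤ c ∧ c.top ∈ V ∧ p c.bot} := by
  refine (WS.of_le (f := Ch.top) (B := {i | i ∈ V ∧ d.top ≤ i})
    (fun c k => ⟨k.2.1, Ch.top_mono k.1⟩)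
    (fun _ _ _ _ k => Ch.top_mono k) fun i hi => ?_).ctr_iff.2 h
  refine (WS.of_clo' (D := {c | (d ≤ c ∧ c.top ∈ V ∧ p c.bot) ∧ c.top = i})
    (A := {c | (d ≤ c ∧ c.top ∈ V ∧ p c.bot) ∧ c.top ≤ i})
    (fun c k => ⟨k.1, k.2.le⟩) fun c k => ⟨tp c i k.2, ⟨⟨k.1.1.trans (le_tp _ _ _), by simpa using hi.1,
      by simpa using k.1.2.2⟩, by simp⟩, le_tp _ _ _, fun b hb l =>
        tp_le l (hb.2 ▸ b.top_mem)⟩).ctr_iff.1
    (sctr_min (m := tp d i hi.2) ⟨⟨le_tp _ _ _, by simpa using hi.1, by simpa using hp⟩, by simp⟩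
      fun b hb => tp_le hb.1.1 (hb.2 ▸ b.top_mem))

/-- the part of a chain in `W` -/
def rs (W : Set P) (c : Ch P) : Ch P :=
  if h : Mt W c then c.sub (c.1.filter (· ∈ W))
    (let ⟨a, h1, h2⟩ := h; ⟨a, mem_filter.2 ⟨h1, h2⟩⟩) (filter_subset _ _) else c

theorem mem_rs {c : Ch P} (h : Mt W c) {x : P} : x ∈ (rs W c).1 ↔ x ∈ c.1 ∧ x ∈ W := by
  simp [rs, h]

theorem rs_le {c : Ch P} (h : Mt W c) : rs W c ≤ c := fun _ k => ((mem_rs h).1 k).1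

theorem rs_mono {c d : Ch P} (h : Mt W c) (k : c ≤ d) : rs W c ≤ rs W d := fun _ l =>
  (mem_rs (h.mono k)).2 ⟨k ((mem_rs h).1 l).1, ((mem_rs h).1 l).2⟩

/-- the last point of a chain in `W` -/
def tw (W : Set P) (c : Ch P) : P := (rs W c).top

theorem tw_mem {c : Ch P} (h : Mt W c) : tw W c ∈ c.1 ∧ tw W c ∈ W := (mem_rs h).1 (Ch.top_mem _)

theorem le_tw {c : Ch P} {x : P} (h1 : x ∈ c.1) (h2 : x ∈ W) : x ≤ tw W c :=
  Ch.le_top ((mem_rs ⟨x, h1, h2⟩).2 ⟨h1, h2⟩)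

/-- STAR: the points of `V` over the points of `W` form contractible sets -/
theorem ws_star (h : ∀ x ∈ W, Ctr {i | i ∈ V ∧ x ≤ i}) : WS (Sr V W) W (tw W) := by
  refine WS.comp (f := rs W) (WS.of_ge (B := Kh11.In W Set.univ)
    (fun c k => ⟨fun _ l => ((mem_rs k.2).1 l).2, trivial⟩) (fun _ k _ _ l => rs_mono k.2 l)
    fun d hd => ?_) (Kh11.ws_top W)
  convert ctr_over (fun _ => True) trivial (h _ (hd.1 _ d.top_mem)) using 1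
  ext c
  exact ⟨fun k => ⟨k.2.trans (rs_le k.1.2), k.1.1, trivial⟩, fun k =>
    have m : Mt W c := ⟨_, k.1 d.top_mem, hd.1 _ d.top_mem⟩
    ⟨⟨k.2.1, m⟩, fun x l => (mem_rs m).2 ⟨k.1 l, hd.1 x l⟩⟩⟩

theorem ws_sr (hM : IsUpperSet M) (hN : Nice M) (hW : W ⊆ Om M) : WS (Sr M W) W (tw W) :=
  ws_star fun _ k => Nice.ctr_ge hM.ordConnected hN (hW k)

theorem sr_upper (hM : IsUpperSet M) : IsUpperSet (Sr M W) :=
  fun _ _ l k => ⟨hM (Ch.top_mono l) k.1, k.2.mono l⟩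

theorem sr_sub (hM : IsUpperSet M) (hW : W ⊆ Om M) : Sr M W ⊆ Mx M (cb (ind M)) :=
  fun _ ⟨k, _, ha, l⟩ => mem_mx_ind.2 ⟨k, fun m => (hW l).1 (hM (Ch.bot_le ha) m)⟩

/-- the cofaces of a chain of the star are connected -/
theorem conn_over (hM : IsUpperSet M) (hN : Nice M) (d : Ch P) :
    Conn {c | d ≤ c ∧ c.top ∈ M} := by
  by_cases k : d.top ∈ M
  · exact conn_cone (m := d) ⟨le_rfl, k⟩ fun _ l => Or.inr l.1
  by_cases l : ∃ u ∈ M, d.top ≤ u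
  · have := (ctr_over (fun _ => True) trivial (Nice.ctr_ge hM.ordConnected hN ⟨k, l⟩)).conn
    simpa using this
  · exact fun c m => absurd ⟨_, m.2, Ch.top_mono m.1⟩ l

/-- the cofaces of a mixed chain lie in one component -/
theorem Z1.cmp_over (h : Z1 M e) (hM : IsUpperSet M) (hN : Nice M) {F : Set (Ch P)}
    (hF : IsCmp (Mx M e) F) {q c c' : Ch P} (hq : 0 < e q.bot q.top) (h1 : c ∈ F) (h2 : q ≤ c)
    (h3 : q ≤ c') (h4 : c'.top ∈ M) : c' ∈ F := by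
  have r := (conn_over hM hN q c ⟨h2, (hF.sub h1).1⟩ c' ⟨h3, h4⟩).mono
    (F := Mx M e) fun a k => ⟨k.2, h.up (dom_top k.2) k.1 hq⟩
  rw [hF.eq h1]
  exact ⟨r.mem (hF.sub h1), r⟩

section fib

variable {Q : Type} [PartialOrder Q] [Fintype Q] {A : Set P} {B : Set Q} {f : P → Q}

theorem eu_fib (hm : ∀ x ∈ A, f x ∈ B) (hf : ∀ x ∈ A, ∀ y ∈ A, x ≤ y → f x ≤ f y)
    (h : ∀ y ∈ B, eu {x | x ∈ A ∧ y ≤ f x} = 1) : eu A = eu B := by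
  have := Kh11.chi_fib' (A := Kh11.fs A) (B := Kh11.fs B) (C := Kh11.fs B) (f := f)
    (by simpa using hm) (fun x a y b => hf x (Kh11.mem_fs.1 a) y (Kh11.mem_fs.1 b))
    (fun y k => by rw [Kh11.fs_filter, Kh11.chi_fs]; exact h y (Kh11.mem_fs.1 k))
    (Kh11.clo_self B).upp
  rwa [filter_true_of_mem fun x k => Kh11.mem_fs.2 (hm x (Kh11.mem_fs.1 k)), Kh11.chi_fs,
    Kh11.chi_fs] at this

theorem rch_fib (h : ∀ y ∈ B, {x | x ∈ A ∧ y ≤ f x}.Nonempty ∧ Conn {x | x ∈ A ∧ y ≤ f x})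
    {y y' : Q} (r : Rch B y y') (hy : y ∈ B) {x : P} (hx : x ∈ A) (k : y ≤ f x) :
    ∀ x' ∈ A, y' ≤ f x' → Rch A x x' := by
  refine r.ind (p := fun t => ∀ x' ∈ A, t ≤ f x' → Rch A x x') (fun x' a b =>
    ((h y hy).2 x ⟨hx, k⟩ x' ⟨a, b⟩).mono fun _ l => l.1) fun a ha b hb l =>
      ⟨fun m x' c d => m x' c (l.trans d), fun m x' c d => ?_⟩
  obtain ⟨t, t1, t2⟩ := (h b hb).1
  exact (m t t1 t2).trans (((h a ha).2 t ⟨t1, l.trans t2⟩ x' ⟨c, d⟩).mono fun _ l => l.1)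

theorem conn_fib (hm : ∀ x ∈ A, f x ∈ B)
    (h : ∀ y ∈ B, {x | x ∈ A ∧ y ≤ f x}.Nonempty ∧ Conn {x | x ∈ A ∧ y ≤ f x}) (hc : Conn B) :
    Conn A := fun x a y b => rch_fib h (hc _ (hm x a) _ (hm y b)) (hm x a) a le_rfl y b le_rfl

end fib

/-- an inclusion with connected fibres of Euler characteristic one -/
theorem weak_incl {Y : Set P} (hV : V ⊆ Y)
    (h : ∀ y ∈ Y, y ∉ V → {v | v ∈ V ∧ y ≤ v}.Nonempty ∧ Conn {v | v ∈ V ∧ y ≤ v} ∧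
      eu {v | v ∈ V ∧ y ≤ v} = 1) : eu V = eu Y ∧ (Conn Y → Conn V) := by
  have k : ∀ y ∈ Y, {v | v ∈ V ∧ y ≤ v}.Nonempty ∧ Conn {v | v ∈ V ∧ y ≤ v} ∧
      eu {v | v ∈ V ∧ y ≤ v} = 1 := fun y hy => by
    by_cases l : y ∈ V
    · have := sctr_min (E := {v | v ∈ V ∧ y ≤ v}) ⟨l, le_rfl⟩ fun _ m => m.2
      exact ⟨this.ne, this.conn, this.eu⟩
    · exact h y hy l
  exact ⟨eu_fib (f := id) hV (fun _ _ _ _ l => l) fun y l => (k y l).2.2,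
    conn_fib (f := id) hV fun y l => ⟨(k y l).1, (k y l).2.1⟩⟩

end Crest.Agent.X212.Pt30
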