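import Crest.Agent.X212.Sf30.P2Pk

/-!
# X212 / Sf30 (helper30): P2, the reversed system one level up
-/

set_option autoImplicit false
set_option linter.unusedSectionVars false

open Finset Classical

noncomputable section

namespace Crest.Agent.X212.Pt30

open Crest.Agent.X212.Hp13 Alg36 Cut21 Ind26
open Sf30 hiding Inn
open Sup43 (Inn inn_sub inn_up good_inn)
open Kh11 (WS sctr_min sctr_max)

variable {P : Type} [PartialOrder P] [Fintype P] {A M V : Set P} {e : P → P → ℤ}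

theorem top_ins {c : Ch P} {x : P} {h : ∀ y ∈ c.1, Cm x y} (k : x ≤ c.top) :
    (c.ins x h).top = c.top :=
  Ch.top_eq (mem_insert_of_mem c.top_mem) fun _ l =>
    (mem_insert.1 l).elim (fun m => m ▸ k) Ch.le_top

theorem bot_ins {c : Ch P} {x : P} {h : ∀ y ∈ c.1, Cm x y} (k : c.bot ≤ x) :
    (c.ins x h).bot = c.bot :=
  Ch.bot_eq (mem_insert_of_mem c.bot_mem) fun _ l =>
    (mem_insert.1 l).elim (fun m => m ▸ k) Ch.bot_le

theorem mem_rev {C : Ch (Ch P)} :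
    C ∈ Mx (Ch.top ⁻¹' V) (rev e) ↔ C.top.top ∈ V ∧ 0 < e C.top.bot C.bot.bot := Iff.rfl

theorem ctr_rev (h : Z1 M e) {d : Ch P} (hd : d ∈ Qe M e) :
    Ctr {C : Ch (Ch P) | C.top = d ∧ 0 < e d.bot C.bot.bot} := by
  have m : Mt {x | 0 < e d.bot x} d := ⟨_, d.top_mem, hd.2⟩
  have k : ∀ C : Ch (Ch P), C.top = d → 0 < e d.bot C.bot.bot → C.bot ≤ rs {x | 0 < e d.bot x} d :=
    fun C a b x hx => by
      have l : C.bot ≤ d := a ▸ C.bot_le_top
      have := h.coc.add' hd.1 d.bot_mem (l C.bot.bot_mem) (l hx) (Ch.bot_anti l) (Ch.bot_le hx)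
      have := h.mono _ _ (hd.1.dp (l C.bot.bot_mem) (l hx) (Ch.bot_le hx))
      exact (mem_rs m).2 ⟨l hx, show 0 < e d.bot x by omega⟩
  refine (force (rs {x | 0 < e d.bot x} d) (fun C hC => ?_) fun C hC l => ?_).ctr_iff.1
    (sctr_min (m := Ch.pr _ d (rs_le m)) ⟨⟨by simp, by simpa using ((mem_rs m).1 (Ch.bot_mem _)).2⟩,
      by simp⟩ fun C hC => Cut21.pr_le hC.2 (hC.1.1 ▸ C.top_mem))
  · have a : C.bot ∈ C.1.filter (Cm (rs {x | 0 < e d.bot x} d)) :=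
      mem_filter.2 ⟨C.bot_mem, Or.inr (k C hC.1 hC.2)⟩
    refine ⟨C.sub _ ⟨_, a⟩ (filter_subset _ _), ⟨Ch.top_eq (mem_filter.2 ⟨hC.1 ▸ C.top_mem,
      Or.inl (rs_le m)⟩) fun x l => hC.1 ▸ Ch.le_top (mem_filter.1 l).1, ?_⟩, rfl⟩
    rw [Ch.bot_eq (c := C.sub _ ⟨_, a⟩ (filter_subset _ _)) a
      fun x l => Ch.bot_le (mem_filter.1 l).1]
    exact hC.2
  · exact ⟨(top_ins ((rs_le m).trans hC.1.ge)).trans hC.1, by rw [bot_ins (k C hC.1 hC.2)]; exact hC.2⟩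

/-- RV: the cells of the reversed system -/
theorem ws_rev (h : Z1 M e) (hV : V ⊆ M) : WS (Mx (Ch.top ⁻¹' V) (rev e)) (Mx V e) Ch.top := by
  refine WS.of_le (fun C k => ⟨k.1, h.pos (dom_top (hV k.1)) C.top.bot_mem
    (C.bot_le_top C.bot.bot_mem) (Ch.bot_anti C.bot_le_top) k.2⟩)
    (fun _ _ _ _ l => Ch.top_mono l) fun d hd => ?_
  refine (WS.of_clo' (D := {C : Ch (Ch P) | C.top = d ∧ 0 < e d.bot C.bot.bot})
    (A := {C | C ∈ Mx (Ch.top ⁻¹' V) (rev e) ∧ C.top ≤ d})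
    (fun C k => ⟨mem_rev.2 ⟨k.1 ▸ hd.1, k.1 ▸ k.2⟩, k.1.le⟩) fun C k => ⟨tp C d k.2, ⟨by simp, ?_⟩,
      le_tp _ _ _, fun b hb l => tp_le l (hb.1 ▸ b.top_mem)⟩).ctr_iff.1 (ctr_rev h (mx_qe hV hd))
  have D := dom_top (hV hd.1)
  have := h.coc.add' D d.bot_mem (k.2 C.top.bot_mem) (k.2 (C.bot_le_top C.bot.bot_mem))
    (Ch.bot_anti k.2) (Ch.bot_anti C.bot_le_top)
  have := h.mono _ _ (D.dp d.bot_mem (k.2 C.top.bot_mem) (Ch.bot_anti k.2))
  have := (mem_rev.1 k.1).2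
  rw [bot_tp]
  omega

/-- the cells over a family of cells -/
def rv (M : Set P) (e : P → P → ℤ) (F : Set (Ch P)) : Set (Ch (Ch P)) :=
  {C | C ∈ Mx (Ch.top ⁻¹' M) (rev e) ∧ C.top ∈ F}

theorem rv_cmp (h : Z1 M e) (hV : V ⊆ M) {F : Set (Ch P)} (hF : IsCmp (Mx V e) F) :
    IsCmp (Mx (Ch.top ⁻¹' V) (rev e)) (rv V e F) := (ws_rev h hV).isCmp_pre hF

theorem rv_ex (h : Z1 M e) (hV : V ⊆ M) {G : Set (Ch (Ch P))}
    (hG : IsCmp (Mx (Ch.top ⁻¹' V) (rev e)) G) : ∃ F, IsCmp (Mx V e) F ∧ G = rv V e F :=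
  (ws_rev h hV).isCmp_ex hG

theorem rv_eu (h : Z1 M e) (hV : V ⊆ M) {F : Set (Ch P)} (hF : IsCmp (Mx V e) F) :
    eu (rv V e F) = eu F := ((ws_rev h hV).restr (Kh11.clo_cmp hF)).eu_eq

theorem rv_tc (h : Z1 M e) (hV : V ⊆ M) {F : Set (Ch P)} (hF : IsCmp (Mx V e) F)
    (ht : Tc M e F) : Tc (Ch.top ⁻¹' M) (rev e) (rv V e F) := by
  obtain ⟨c, hc, x, hx, y, hy, l, n, k⟩ := ht
  have a : Ch.pt y ≤ Ch.pr x y l := Ch.pt_le.2 (by simp)
  have b : Ch.pr x y l ≤ c := Cut21.pr_le hx hy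
  have D := dom_top (hV (hF.sub hc).1)
  refine ⟨tp (Ch.pr _ _ a) c (by simpa using b), ⟨mem_rev.2 ⟨by simpa using (hF.sub hc).1, ?_⟩,
    by simpa using hc⟩, Ch.pt y, by simp, Ch.pr x y l, by simp, a, by simpa using n,
    by simpa [rev] using k⟩
  have := h.coc.add' D c.bot_mem hx hy (Ch.bot_le hx) l
  have := h.mono _ _ (D.dp c.bot_mem hx (Ch.bot_le hx))
  simp only [top_tp, bot_tp, Ch.bot_pr, Ch.bot_pt]
  omega

theorem Dsc.rev (h : Dsc M e) : Dsc (Ch.top ⁻¹' M) (rev e) :=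
  ⟨h.toZ1.rev, fun _ k => by
    obtain ⟨F, a, rfl⟩ := rv_ex h.toZ1 subset_rfl k
    exact ⟨(rv_eu h.toZ1 subset_rfl a).trans (h.disc F a).1,
      rv_tc h.toZ1 subset_rfl a (h.disc F a).2⟩⟩

theorem Spn1.rev (hM : IsUpperSet M) (hN : Nice M) (h : Spn1 M e) :
    Spn1 (Ch.top ⁻¹' M) (rev e) := fun w' hw => by
  obtain ⟨w, g', h1, h2⟩ := Nice.exists_pb hM.ordConnected hN hw
  obtain ⟨g, hg⟩ := h w h1
  refine ⟨fun c => g c.bot + w c.bot c.top + g' c, fun c d hp k => ?_⟩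
  have D := hp.dom_top
  have := hg _ _ (D.dp d.bot_mem (hp.1 c.bot_mem) (Ch.bot_anti hp.1)) k
  have := h1.add' D d.bot_mem (hp.1 c.bot_mem) d.top_mem (Ch.bot_anti hp.1)
    (Ch.le_top (hp.1 c.bot_mem))
  have := h1.add' D (hp.1 c.bot_mem) (hp.1 c.top_mem) d.top_mem c.bot_le_top (Ch.top_mono hp.1)
  rw [h2 c d hp]
  simp only [Pi.add_apply, pb, cb]
  omega

theorem exOn_rev {m : P → P → ℤ} (hm : Coc M m) (hV : V ⊆ M) (h : ExOn V m) :
    ExOn (Ch.top ⁻¹' V) (rev m) := by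
  obtain ⟨g, hg⟩ := h
  refine ⟨fun c => m c.bot c.top - g c.top, fun c a d b l => ?_⟩
  have D := dom_top (hV b)
  have := hg _ a _ b (Ch.top_mono l)
  have := hm.add' D d.bot_mem (l c.bot_mem) d.top_mem (Ch.bot_anti l) (Ch.le_top (l c.bot_mem))
  have := hm.add' D (l c.bot_mem) (l c.top_mem) d.top_mem c.bot_le_top (Ch.top_mono l)
  simp only [rev]
  omega

theorem vt_rev (hN : Nice (Inn A)) (h : Coc (Inn A) e) : Vt (Ch.top ⁻¹' A) (rev e) where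
  vert n v hn hp k := by
    have l : v.bot ≤ n.bot := Ch.bot_anti hp.1
    refine ⟨bt n v.bot l, le_bt _ _ _, fun x hx => (mem_bt.1 hx).elim (fun m => m ▸ v.bot_mem)
      fun m => hp.1 m, by simpa [rev] using k, by simpa [mem_inn_sd] using hn, by simp,
      fun ⟨b, h1, h2⟩ => ⟨tp (bt n v.bot l) b.top (by simpa using Ch.top_mono h2),
        by simpa [mem_fr_sd] using h1, le_tp _ _ _⟩⟩
  l0 n hn := by
    rw [inn_sd] at hn ⊢
    have o := Hlf24.om_sd.1 hn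
    convert ctr_over (fun x => e x n.bot = 0)
      (let ⟨_, _, a, b⟩ := o; h.self a (Or.inr (n.bot_le_top.trans b)))
      (Nice.ctr_ge inn_up.ordConnected hN o) using 1
    exact Set.ext fun c => ⟨fun k => ⟨k.2.1, k.1, k.2.2⟩, fun k => ⟨k.2.1, k.1, k.2.2⟩⟩

/-- the shape of a crossing cell one level up -/
theorem pat_shape (hA : A.OrdConnected) (hM : Mf 3 A) (h : Z1 (Inn A) e) {C : Ch (Ch P)}
    (hC : C.top.top ∈ Inn A) (hp : Pat (Ch.top ⁻¹' A) (rev e) C) : Pat A e C.top ∧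
      ∀ Y, Y ∈ C.1 ↔ Y.1 = (C.top.1.filter (· ∉ A)).erase C.top.bot ∨
        Y.1 = C.top.1.filter (· ∉ A) ∨ Y.1 = C.top.1.erase C.top.top ∨ Y = C.top := by
  obtain ⟨X, hX, X', hX', B, hB, l, n, f, k⟩ := hp
  rw [mem_fr_sd] at f
  have n' : X'.top ∉ A := n
  have k' : 0 < e X'.bot X.bot := k
  have t' := Ch.le_top hX'
  have tB := Ch.le_top hB
  have off : ∀ x ∈ X'.1, x ∉ A := fun x m => not_dn hA hC.1 (Ch.top_mono t') n' (Ch.le_top m)
  have ne : X'.bot ≠ X.bot := fun m => by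
    rw [m, h.self hC (Ch.le_top (t' (l X.bot_mem)))] at k'; exact lt_irrefl _ k'
  have l1 : X < X' := l.lt_of_ne fun m => ne (m ▸ rfl)
  have l2 : X' < B := by
    rcases C.total hX' hB with m | m
    · exact m.lt_of_ne fun m => n' (m ▸ f.1)
    · exact absurd f.1 (off _ (m B.top_mem))
  have l3 : B < C.top := tB.lt_of_ne fun m => hC.2 (m ▸ f)
  have c0 := X.card_pos
  have c1 := Ch.card_lt l1
  have c2 := Ch.card_lt l2
  have c3 := Ch.card_lt l3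
  have c4 := hM.card_le _ ⟨_, C.top.top_mem, hC.1⟩
  have eB : B.1 = C.top.1.erase C.top.top := eq_of_subset_of_card_le
    (fun x m => mem_erase.2 ⟨fun o => hC.2 (fr_dn f hC.1 (o ▸ Ch.le_top m)), tB m⟩)
    (by rw [card_erase_of_mem C.top.top_mem]; omega)
  have eX' : X'.1 = C.top.1.filter (· ∉ A) := eq_of_subset_of_card_le
    (fun x m => mem_filter.2 ⟨t' m, off x m⟩) (by
      have : C.top.1.filter (· ∉ A) ⊆ B.1.erase B.top := fun x m => by
        have := mem_filter.1 m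
        rw [mem_erase, eB, mem_erase]
        exact ⟨fun o => this.2 (o ▸ f.1), fun o => this.2 (o ▸ hC.1), this.1⟩
      have := card_le_card this
      rw [card_erase_of_mem B.top_mem] at this
      omega)
  have bb : X'.bot = C.top.bot := le_antisymm (Ch.bot_le (eX' ▸ mem_filter.2 ⟨C.top.bot_mem,
    not_dn hA hC.1 (Ch.top_mono t') n' (Ch.bot_le (t' X'.top_mem))⟩)) (Ch.bot_anti t')
  have eX : X.1 = (C.top.1.filter (· ∉ A)).erase C.top.bot := by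
    rw [← eX', ← bb]
    exact eq_of_subset_of_card_le
      (fun x m => mem_erase.2 ⟨fun o => ne (le_antisymm (Ch.bot_anti l) (o ▸ Ch.bot_le m)), l m⟩)
      (by rw [card_erase_of_mem X'.bot_mem]; omega)
  refine ⟨⟨_, t' X'.bot_mem, _, t' (l X.bot_mem), _, tB B.top_mem, Ch.bot_anti l,
    off _ (l X.bot_mem), f, k'⟩, fun Y => ?_⟩
  rw [← eX, ← eX', ← eB]
  refine ⟨fun m => ?_, fun m => ?_⟩
  · have d : ∀ Z ∈ C.1, Y.1.card = Z.1.card → Y = Z := fun Z a b =>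
      (C.total m a).elim (fun o => Ch.eq_of_card o b.ge) fun o => (Ch.eq_of_card o b.le).symm
    have := Y.card_pos
    have := Ch.card_le (Ch.le_top m)
    rcases (by omega : Y.1.card = X.1.card ∨ Y.1.card = X'.1.card ∨ Y.1.card = B.1.card ∨
      Y.1.card = C.top.1.card) with o | o | o | o
    exacts [Or.inl (d _ hX o ▸ rfl), Or.inr (Or.inl (d _ hX' o ▸ rfl)),
      Or.inr (Or.inr (Or.inl (d _ hB o ▸ rfl))), Or.inr (Or.inr (Or.inr (d _ C.top_mem o)))]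
  · rcases m with m | m | m | m
    exacts [Ch.ext m ▸ hX, Ch.ext m ▸ hX', Ch.ext m ▸ hB, m ▸ C.top_mem]

theorem ep_rv (hA : A.OrdConnected) (hM : Mf 3 A) (h : Z1 (Inn A) e) (F : Set (Ch P)) :
    ep (Ch.top ⁻¹' A) (rev e) (rv (Inn A) e F) ≤ ep A e F :=
  card_le_card_of_injOn Ch.top (fun C k => by
    have := (mem_filter.1 k).2
    exact mem_filter.2 ⟨mem_univ _, this.1.2, (pat_shape hA hM h this.1.1.1 this.2).1⟩)
    fun C k D l m => by
      have a := (mem_filter.1 k).2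
      have b := (mem_filter.1 l).2
      refine Ch.ext (Finset.ext fun Y => ?_)
      rw [(pat_shape hA hM h a.1.1.1 a.2).2, (pat_shape hA hM h b.1.1.1 b.2).2, m]

end Crest.Agent.X212.Pt30
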