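import Crest.Agent.X212.Sf30.Du

/-!
# Row 212, layer H (helper30): two-coloured surfaces; innermost discs, outermost regions

`B` is a surface, `G ⊆ B` ANY subset.  The regions are the components of `G` and of `B \ G`, the
interface `If G H` consists of the chains that meet both colours.
-/

set_option autoImplicit false
set_option linter.unusedSectionVars false

open Finset Classical Module

noncomputable section

namespace Crest.Agent.X212.Sf30

open Crest.Agent.X212.Hp13 Alg36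

/-- a connected graph has at most one vertex more than edges -/
theorem card_le_of_conn {V K : Type} (SV : Finset V) (SK : Finset K) (s t : K → V)
    (hs : ∀ k ∈ SK, s k ∈ SV) (ht : ∀ k ∈ SK, t k ∈ SV)
    (hc : ∀ g : V → ZMod 2, (∀ k ∈ SK, g (s k) = g (t k)) → ∀ v ∈ SV, ∀ w ∈ SV, g v = g w) :
    SV.card ≤ SK.card + 1 := by
  let d : (SV → ZMod 2) →ₗ[ZMod 2] (SK → ZMod 2) :=
    { toFun := fun g k => g ⟨s k, hs k k.2⟩ - g ⟨t k, ht k k.2⟩
      map_add' := fun _ _ => by funext k; simp only [Pi.add_apply]; ring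
      map_smul' := fun _ _ => by funext k; simp [mul_sub] }
  have h1 := LinearMap.finrank_range_add_finrank_ker d
  have h2 : finrank (ZMod 2) (LinearMap.ker d) ≤ 1 := finrank_le_one_of_const _ fun g hg u v => by
    have := hc (Inc.ext0 g) (fun k hk => by
      have := congrFun (LinearMap.mem_ker.1 hg) ⟨k, hk⟩
      simpa [Inc.ext0, hs k hk, ht k hk] using sub_eq_zero.1 this) u u.2 v v.2
    simpa [Inc.ext0] using this
  have h3 := Submodule.finrank_le (LinearMap.range d)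
  simp only [finrank_fintype_fun_eq_card, Fintype.card_coe] at h1 h3
  omega

variable {P : Type} [PartialOrder P] [Fintype P] {B G H E X : Set P}

/-- the components -/
def cs (E : Set P) : Finset (Set P) := (fs E).image (cmp E)

theorem mem_cs : X ∈ cs E ↔ IsCmp E X := by
  simp only [cs, mem_image, mem_fs, IsCmp, eq_comm]

theorem cmp_uniq {Y : Set P} (h : IsCmp E X) (h' : IsCmp E Y) {c : Ch P} (h1 : Mt X c)
    (h2 : Mt Y c) : X = Y := by
  obtain ⟨a, ha, k⟩ := h1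
  obtain ⟨b, hb, k'⟩ := h2
  rw [h.eq (h.clopen k (h'.sub k') (c.cm ha hb)), h'.eq k']

theorem mt_cmp {c : Ch P} (h : Mt E c) : ∃ X, IsCmp E X ∧ Mt X c :=
  let ⟨a, ha, k⟩ := h; ⟨_, isCmp_cmp k, a, ha, mem_cmp_self k⟩

theorem mt_sub {c : Ch P} (h : Mt X c) (hE : X ⊆ E) : Mt E c :=
  let ⟨a, ha, k⟩ := h; ⟨a, ha, hE k⟩

theorem sum_cs (E : Set P) (F : P → ℤ) :
    ∑ X ∈ cs E, ∑ a ∈ univ.filter (· ∈ X), F a = ∑ a ∈ univ.filter (· ∈ E), F a := by
  rw [← sum_fiberwise_of_maps_to (s := univ.filter (· ∈ E)) (t := cs E) (g := cmp E)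
    fun a ha => mem_cs.2 (isCmp_cmp (mem_filter.1 ha).2)]
  refine sum_congr rfl fun X hX => sum_congr ?_ fun _ _ => rfl
  ext a
  simp only [mem_filter, mem_univ, true_and]
  exact ⟨fun h => ⟨(mem_cs.1 hX).sub h, ((mem_cs.1 hX).eq h).symm⟩,
    fun h => h.2 ▸ mem_cmp_self h.1⟩

theorem sum_eu_cs (E : Set P) : ∑ X ∈ cs E, eu X = eu E := by
  simp only [eu, sum_neg_distrib]
  rw [← sum_fiberwise_of_maps_to (s := univ.filter fun c : Ch P => ∀ x ∈ c.1, x ∈ E) (t := cs E)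
    (g := fun c => cmp E c.top)
    fun c hc => mem_cs.2 (isCmp_cmp ((mem_filter.1 hc).2 _ c.top_mem))]
  refine congrArg _ (sum_congr rfl fun X hX => sum_congr ?_ fun _ _ => rfl)
  ext c
  simp only [mem_filter, mem_univ, true_and]
  have k := mem_cs.1 hX
  exact ⟨fun h => ⟨fun x hx => k.sub (h x hx), (k.eq (h _ c.top_mem)).symm⟩,
    fun h x hx => k.clopen (h.2 ▸ mem_cmp_self (h.1 _ c.top_mem)) (h.1 x hx) (c.cm c.top_mem hx)⟩

/-- the interface -/
def If (G H : Set P) : Set (Ch P) := {c | Mt G c ∧ Mt H c}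

theorem if_upper : IsUpperSet (If G H) := fun _ _ h hc => ⟨hc.1.mono h, hc.2.mono h⟩

theorem if_comm : If G H = If H G := Set.ext fun _ => and_comm

/-- `B` is the disjoint union of `G` and `H` -/
structure Col (B G H : Set P) : Prop where
  un : G ∪ H = B
  dj : Disjoint G H

theorem Col.symm (h : Col B G H) : Col B H G := ⟨by rw [Set.union_comm, h.un], h.dj.symm⟩
theorem Col.l (h : Col B G H) : G ⊆ B := h.un ▸ Set.subset_union_left
theorem Col.r (h : Col B G H) : H ⊆ B := h.symm.l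
theorem Col.cases (h : Col B G H) {a : P} (ha : a ∈ B) : a ∈ G ∨ a ∈ H := by rwa [← h.un] at ha
theorem Col.not (h : Col B G H) {a : P} (ha : a ∈ G) : a ∉ H := Set.disjoint_left.1 h.dj ha
theorem col_diff (h : G ⊆ B) : Col B G (B \ G) :=
  ⟨Set.union_sdiff_cancel h, Set.disjoint_sdiff_right⟩

theorem Col.mt (h : Col B G H) {c : Ch P} : Mt B c ↔ Mt G c ∨ Mt H c :=
  ⟨fun ⟨a, ha, k⟩ => (h.cases k).imp (fun k => ⟨a, ha, k⟩) fun k => ⟨a, ha, k⟩,
    fun k => k.elim (mt_sub · h.l) (mt_sub · h.r)⟩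

theorem sum_faces_if (h : Col B G H) {c : Ch P} (hc : c ∈ If G H) :
    ∑ e ∈ univ.filter (· ≤ c), e.sg * (iMt G e * iMt H e) = 1 - iMt Bᶜ c := by
  have : ∀ e : Ch P, e.sg * (iMt G e * iMt H e) =
      e.sg - e.sg * iIn Gᶜ e - e.sg * iIn Hᶜ e + e.sg * iIn Bᶜ e := fun e => by
    rw [iMt_eq, iMt_eq, ← h.un, Set.compl_union, iIn_inter]; ring
  simp only [this, sum_add_distrib, sum_sub_distrib, sum_iIn, sum_faces]
  obtain ⟨⟨a, ha, k⟩, b, hb, k'⟩ := hc
  rw [iMt_of (S := Gᶜ) ⟨b, hb, h.symm.not k'⟩, iMt_of (S := Hᶜ) ⟨a, ha, h.not k⟩]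
  ring

/-- the number of ends of a set of interface cells -/
def en (B : Set P) (K : Set (Ch P)) : ℕ := (univ.filter fun c => c ∈ K ∧ Mt Bᶜ c).card

/-- the compactly supported Euler characteristic of the band around `K` -/
def wt (K : Set (Ch P)) : ℤ := -∑ c ∈ univ.filter (· ∈ K), c.sg

theorem card_end (hB : Mf 2 B) (h : Col B G H) {c : Ch P} (hc : c ∈ If G H) (he : Mt Bᶜ c) :
    c.1.card = 3 := by
  obtain ⟨⟨a, ha, k⟩, b, hb, k'⟩ := hc
  obtain ⟨x, hx, kx⟩ := he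
  refine le_antisymm (hB.card_le c ⟨a, ha, h.l k⟩) (two_lt_card.2 ⟨a, ha, b, hb, x, hx,
    fun e => h.not k (e ▸ k'), fun e => kx (e ▸ h.l k), fun e => kx (e ▸ h.r k')⟩)

theorem two_wt (hB : Mf 2 B) (h : Col B G H) {K : Set (Ch P)} (hK : K ⊆ If G H)
    (hcl : ∀ c ∈ K, ∀ e ∈ If G H, Cm c e → e ∈ K) : 2 * wt K = en B K := by
  have h1 := Mf.dual_sum hB (ind K) fun e he => ind_of_not fun k => he (mt_sub (hK k).1 h.l)
  have h2 : ∀ c : Ch P, c.sg * ∑ e ∈ univ.filter (· ≤ c), e.sg * ind K e =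
      c.sg * ind K c + if c ∈ K ∧ Mt Bᶜ c then 1 else 0 := fun c => by
    by_cases hc : c ∈ K
    · rw [sum_congr rfl (g := fun e => e.sg * (iMt G e * iMt H e)) fun e he => by
        by_cases k : e ∈ If G H
        · rw [ind_of_mem (hcl c hc e k (Or.inr (mem_filter.1 he).2)), iMt_of k.1, iMt_of k.2,
            one_mul]
        · rw [ind_of_not fun j => k (hK j)]
          rcases not_and_or.1 k with k | k <;> simp [iMt_not k], sum_faces_if h (hK hc),
        ind_of_mem hc]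
      by_cases k : Mt Bᶜ c
      · rw [iMt_of k, if_pos ⟨hc, k⟩, Ch.sg, card_end hB h (hK hc) k]; norm_num
      · rw [iMt_not k, if_neg fun j => k j.2]; ring
    · rw [sum_eq_zero fun e he => by
        rw [ind_of_not fun k => hc (hcl e k c (if_upper (mem_filter.1 he).2 (hK k))
          (Or.inl (mem_filter.1 he).2)), mul_zero], ind_of_not hc, if_neg fun j => hc j.1]
      ring
  have h3 : ∑ c : Ch P, c.sg * ind K c = -wt K := by
    rw [wt, neg_neg, sum_filter]
    exact sum_congr rfl fun c _ => by unfold ind; split_ifs <;> simp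
  simp only [h2, sum_add_distrib, h3, sum_boole] at h1
  rw [en]
  linear_combination -h1

/-- **additivity** -/
theorem eu_col (hB : Mf 2 B) (h : Col B G H) : eu B = eu G + eu H - wt (If G H) := by
  rw [eu_eq_mt hB, eu_eq_mt (hB.mono h.l), eu_eq_mt (hB.mono h.r), wt]
  simp only [sum_filter, ← sum_neg_distrib, ← sum_add_distrib, ← sum_sub_distrib]
  refine sum_congr rfl fun c _ => ?_
  by_cases a : Mt G c <;> by_cases b : Mt H c <;> simp [h.mt, If, a, b]

/-- a region -/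
def Reg (G H X : Set P) : Prop := IsCmp G X ∨ IsCmp H X

theorem Reg.symm (h : Reg G H X) : Reg H G X := Or.symm h
theorem Reg.conn (h : Reg G H X) : Conn X := h.elim IsCmp.conn IsCmp.conn
theorem Reg.ne (h : Reg G H X) : X.Nonempty := h.elim IsCmp.ne IsCmp.ne
theorem Reg.sub (h : Reg G H X) (hc : Col B G H) : X ⊆ B :=
  h.elim (fun k => k.sub.trans hc.l) fun k => k.sub.trans hc.r

theorem mem_reg : X ∈ cs G ∪ cs H ↔ Reg G H X := by rw [mem_union, mem_cs, mem_cs, Reg]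

theorem cs_disj (h : Col B G H) : Disjoint (cs G) (cs H) := disjoint_left.2 fun _ a b =>
  let ⟨_, hx⟩ := (mem_cs.1 a).ne; h.not ((mem_cs.1 a).sub hx) ((mem_cs.1 b).sub hx)

theorem sum_reg (hB : Mf 2 B) (h : Col B G H) :
    ∑ X ∈ cs G ∪ cs H, eu X = eu B + wt (If G H) := by
  rw [sum_union (cs_disj h), sum_eu_cs, sum_eu_cs, eu_col hB h]; ring

theorem cmp_if (h : Col B G H) (hc : Conn B) (hH : H.Nonempty) (hX : IsCmp G X) :
    ∃ c ∈ If G H, Mt X c := by
  by_contra k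
  push Not at k
  obtain ⟨a, ha⟩ := hX.ne
  obtain ⟨b, hb⟩ := hH
  have s : ∀ u ∈ X, ∀ v ∈ B, Cm u v → v ∈ X := fun u hu v hv huv =>
    (h.cases hv).elim (fun j => hX.clopen hu j huv) fun j => absurd
      ⟨u, (mem_pr huv).2 (Or.inl rfl), hu⟩ (k (pr huv) ⟨⟨u, (mem_pr huv).2 (Or.inl rfl), hX.sub hu⟩,
        ⟨v, (mem_pr huv).2 (Or.inr rfl), j⟩⟩)
  exact h.not (hX.sub ((hc a (h.l (hX.sub ha)) b (h.r hb)).ind ha fun u hu v hv huv =>
    ⟨fun j => s u j v hv (Or.inl huv), fun j => s v j u hu (Or.inr huv)⟩)) hb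

/-- every region touches the interface -/
theorem Reg.exists_if (hX : Reg G H X) (h : Col B G H) (hc : Conn B) (hG : G.Nonempty)
    (hH : H.Nonempty) : ∃ c ∈ If G H, Mt X c :=
  hX.elim (cmp_if h hc hH) fun k => if_comm (G := G) (H := H) ▸ cmp_if h.symm hc hG k

theorem Reg.mix (hX : Reg G H X) (h : Col B G H) {c : Ch P} (hc : c ∈ If G H) (hm : Mt X c) :
    c ∈ mix X :=
  ⟨hm, hX.elim (fun k => mt_sub hc.2 fun _ a b => h.not (k.sub b) a)
    fun k => mt_sub hc.1 fun _ a b => h.not a (k.sub b)⟩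

theorem Reg.eu_le (hX : Reg G H X) (hB : Mf 2 B) (h : Col B G H) (hc : Conn B) (hG : G.Nonempty)
    (hH : H.Nonempty) : eu X ≤ 1 :=
  let ⟨c, h1, h2⟩ := hX.exists_if h hc hG hH
  eu_le_one' (hB.mono (hX.sub h)) hX.conn ⟨c, hX.mix h h1 h2⟩

theorem wt_nonneg (hB : Mf 2 B) (h : Col B G H) : 0 ≤ wt (If G H) := by
  have := two_wt hB h subset_rfl fun _ _ _ k _ => k
  omega

theorem card_one (hB : Mf 2 B) (h : Col B G H) (hc : Conn B) (hG : G.Nonempty)
    (hH : H.Nonempty) : eu B ≤ ((cs G ∪ cs H).filter fun X => eu X = 1).card := by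
  have h1 := sum_reg hB h
  have h2 := wt_nonneg hB h
  have : ∑ X ∈ cs G ∪ cs H, eu X ≤ ∑ X ∈ cs G ∪ cs H, if eu X = 1 then (1 : ℤ) else 0 :=
    sum_le_sum fun X hX => by
      have := (mem_reg.1 hX).eu_le hB h hc hG hH
      split_ifs <;> omega
  rw [sum_boole] at this
  omega

/-- **sphere**: there are two regions that are discs -/
theorem inn_sph (hB : Mf 2 B) (h : Col B G H) (hc : Conn B) (hG : G.Nonempty) (hH : H.Nonempty)
    (h2 : 2 ≤ eu B) : ∃ X Y, X ≠ Y ∧ Reg G H X ∧ Reg G H Y ∧ eu X = 1 ∧ eu Y = 1 := by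
  have := card_one hB h hc hG hH
  obtain ⟨X, hX, Y, hY, hn⟩ := one_lt_card.1
    (show 1 < ((cs G ∪ cs H).filter fun X => eu X = 1).card by omega)
  exact ⟨X, Y, hn, mem_reg.1 (mem_filter.1 hX).1, mem_reg.1 (mem_filter.1 hY).1,
    (mem_filter.1 hX).2, (mem_filter.1 hY).2⟩

/-- the closed star of `X` lies in `B` -/
def Inn (B X : Set P) : Prop := ∀ a ∈ X, ∀ x, Cm a x → x ∈ B

/-- a mixed chain of a region is an interface cell or leaves `B` -/
theorem Reg.mix_cases (hX : Reg G H X) (h : Col B G H) {c : Ch P} (hc : c ∈ Alg36.mix X) :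
    c ∈ If G H ∨ Mt Bᶜ c := by
  obtain ⟨⟨a, ha, k⟩, x, hx, k'⟩ := hc
  by_cases j : x ∈ B
  · refine Or.inl ?_
    rcases hX with hX | hX
    · exact ⟨⟨a, ha, hX.sub k⟩, x, hx,
        (h.cases j).resolve_left fun i => k' (hX.clopen k i (c.cm ha hx))⟩
    · exact ⟨⟨x, hx, (h.cases j).resolve_right fun i => k' (hX.clopen k i (c.cm ha hx))⟩,
        a, ha, hX.sub k⟩
  · exact Or.inr ⟨x, hx, j⟩

theorem inn_circ (hB : Mf 2 B) (h : Col B G H) (hc : Conn B) (hG : G.Nonempty) (hH : H.Nonempty)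
    (h1 : 1 ≤ eu B) (hn : ∀ c ∈ If G H, ¬ Mt Bᶜ c) : ∃ X, Reg G H X ∧ eu X = 1 ∧ Inn B X := by
  have := card_one hB h hc hG hH
  obtain ⟨X, hX⟩ := card_pos.1 (show 0 < ((cs G ∪ cs H).filter fun X => eu X = 1).card by omega)
  have r := mem_reg.1 (mem_filter.1 hX).1
  have e := (mem_filter.1 hX).2
  refine ⟨X, r, e, fun a ha x hx => by_contra fun k => ?_⟩
  obtain ⟨c, c1, c2⟩ := r.exists_if h hc hG hH
  have := conn_mix2 (hB.mono (r.sub h)) r.conn e.ge _ (pr_mix ha (fun j => k (r.sub h j)) hx) c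
    (r.mix h c1 c2)
  refine hn c c1 (this.ind (p := Mt Bᶜ) ⟨x, (mem_pr hx).2 (Or.inr rfl), k⟩
    fun u hu v _ huv => ⟨fun j => j.mono huv, fun j => ?_⟩)
  exact (r.mix_cases h hu).resolve_left fun i => hn v (if_upper huv i) j

end Crest.Agent.X212.Sf30
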