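import Crest.Agent.X212.Sf30.P2Bas
import Crest.Agent.X212.Cut21.Pos

/-!
# X212 / Sf30 (helper30): P2, the facts about a cut
-/

set_option autoImplicit false
set_option linter.unusedSectionVars false

open Finset Classical

noncomputable section

namespace Crest.Agent.X212.Pt30

open Crest.Agent.X212.Hp13 Alg36 Cut21 Ind26
open Sf30 hiding Inn
open Sup43 (Inn inn_sub inn_up good_inn)
open Kh11 (WS sctr_min sctr_max)

section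
variable {P : Type} [PartialOrder P] [Fintype P] {A : Set P}

theorem eu_union_inter {D C E : Set P} (hC : C ⊆ D) (hE : E ⊆ D)
    (h1 : ∀ x ∈ C, ∀ y ∈ D, y ≤ x → y ∈ C) (h2 : ∀ x ∈ E, ∀ y ∈ D, y ≤ x → y ∈ E) :
    eu (C ∪ E) + eu (C ∩ E) = eu C + eu E := by
  have := Kh11.chi_union_inter (A := Kh11.fs D) (C := Kh11.fs C) (D := Kh11.fs E)
    ⟨fun _ k => Kh11.mem_fs.2 (hC (Kh11.mem_fs.1 k)), by simpa using h1⟩
    ⟨fun _ k => Kh11.mem_fs.2 (hE (Kh11.mem_fs.1 k)), by simpa using h2⟩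
  simp only [← Kh11.chi_fs]
  convert this using 3 <;> ext x <;> simp

theorem ex_inn (hT : Thick A) {a : P} (ha : a ∈ A) : ∃ i ∈ Inn A, a ≤ i := by
  by_cases k : a ∈ Fr A
  · obtain ⟨i, h1, h2, h3⟩ := (hT.inn a k).ne
    exact ⟨i, ⟨h1, h3⟩, h2⟩
  · exact ⟨a, ⟨ha, k⟩, le_rfl⟩

theorem fr_om (hT : Thick A) {a : P} (ha : a ∈ Fr A) : a ∈ Om (Inn A) :=
  ⟨fun k => k.2 ha, ex_inn hT ha.1⟩

theorem om_om (hT : Thick A) {a : P} (ha : a ∈ Om A) : a ∈ Om (Inn A) :=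
  let ⟨h1, _, h2, h3⟩ := ha
  let ⟨i, h4, h5⟩ := ex_inn hT h2
  ⟨fun k => h1 k.1, i, h4, h3.trans h5⟩

theorem fr_of {a : P} (ha : a ∈ A) (k : a ∉ Inn A) : a ∈ Fr A := by_contra fun l => k ⟨ha, l⟩

theorem om_of {a : P} (ha : a ∈ Om (Inn A)) (k : a ∉ A) : a ∈ Om A :=
  let ⟨_, i, h1, h2⟩ := ha; ⟨k, i, h1.1, h2⟩

theorem inn_sd : Inn (Ch.top ⁻¹' A : Set (Ch P)) = Ch.top ⁻¹' Inn A := by
  rw [Inn, fr_sd]; rfl

theorem mem_fr_sd {c : Ch P} : c ∈ Fr (Ch.top ⁻¹' A) ↔ c.top ∈ Fr A := by rw [fr_sd]; rfl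

theorem mem_inn_sd {c : Ch P} : c ∈ Inn (Ch.top ⁻¹' A) ↔ c.top ∈ Inn A := by rw [inn_sd]; rfl

theorem kz_sd {z : P → P → ℤ} : Kz (Ch.top ⁻¹' A) (pb Ch.top z) = Ch.top ⁻¹' Kz A z :=
  Set.ext fun c => ⟨fun ⟨h1, u, h2, h3, h4⟩ => ⟨h1, u.top, h2, Ch.top_mono h3, h4⟩,
    fun ⟨h1, u, h2, h3, h4⟩ => ⟨h1, tp c u h3, by simpa using h2, le_tp _ _ _,
      by simpa [pb] using h4⟩⟩

theorem uz_sd {z : P → P → ℤ} : Uz (Ch.top ⁻¹' A) (pb Ch.top z) = Ch.top ⁻¹' Uz A z := by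
  rw [Uz, inn_sd, kz_sd]; rfl

theorem mem_uz_sd {z : P → P → ℤ} {c : Ch P} :
    c ∈ Uz (Ch.top ⁻¹' A) (pb Ch.top z) ↔ c.top ∈ Uz A z := by rw [uz_sd]; rfl

theorem NT.sd {z : P → P → ℤ} (h : NT A z) : NT (Ch.top ⁻¹' A) (pb Ch.top z) := by
  intro x hx b hb l a ha m k
  obtain ⟨b', h1, h2, h3⟩ := h _ hx _ (mem_fr_sd.1 hb) (Ch.top_mono l) _ ha (Ch.top_mono m) k
  exact ⟨tp x b' h2, mem_fr_sd.2 (by simpa using h1), le_tp _ _ _, by simpa [pb] using h3⟩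

theorem uz_sub {z : P → P → ℤ} : Uz A z ⊆ Inn A := Set.sdiff_subset

end

namespace Pk

variable {s s' : St} {z : s.P → s.P → ℤ} {π : s'.P → s.P} (h : Pk s s' z π)
include h

theorem coc : Coc s.A z := h.adm.sf.coc
theorem mono : Mono s.A z := h.adm.sf.mono
theorem good : Good (s.at (Inn s.A)) := good_inn h.st.toGood h.st.thick
theorem good' : Good (s'.at (Inn s'.A)) := good_inn h.st'.toGood h.st'.thick
theorem mf : Mf 3 (Inn s.A) := h.good.mf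
theorem mf' : Mf 3 (Inn s'.A) := h.good'.mf
theorem nice : Nice (Inn s.A) := h.good.nice
theorem nice' : Nice (Inn s'.A) := h.good'.nice

theorem nn {x y a : s.P} (ha : a ∈ s.A) (h1 : x ≤ y) (h2 : y ≤ a) : 0 ≤ z x y :=
  h.mono _ _ (dp_hi ha h1 h2)

theorem le1 {x y a : s.P} (ha : a ∈ s.A) (h1 : x ≤ y) (h2 : y ≤ a) : z x y ≤ 1 :=
  h.jk x y ((Classical.em (y ∈ s.A)).imp id fun k => ⟨k, a, ha, h2⟩) h1

theorem add {x y w a : s.P} (ha : a ∈ s.A) (h1 : x ≤ y) (h2 : y ≤ w) (h3 : w ≤ a) :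
    z x w = z x y + z y w := (tri_hi ha h1 h2 h3).add h.coc

theorem z1 : Z1 (Inn s.A) z :=
  ⟨h.coc.mono inn_sub, h.mono.mono inn_sub, fun _ _ hp =>
    let ⟨_, hu, k⟩ := Sup43.dp_up inn_up hp; h.le1 hu.1 hp.1 k⟩

theorem kz_dn {a k : s.P} (hk : k ∈ Kz s.A z) (ha : a ∈ s.A) (l : a ≤ k) : a ∈ Kz s.A z := by
  obtain ⟨h1, u, h2, h3, h4⟩ := hk
  have := h.add h2 l h3 le_rfl
  have := h.nn h1 l le_rfl
  exact ⟨ha, u, h2, l.trans h3, by omega⟩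

theorem uz_up : IsUpperSet (Uz s.A z) := fun _ _ l k =>
  ⟨inn_up l k.1, fun m => k.2 (h.kz_dn m k.1.1 l)⟩

/-- no jump from a point of `U` -/
theorem z_uz {u v : s.P} (hu : u ∈ Uz s.A z) (l : u ≤ v) : z u v = 0 :=
  have hv := (inn_up l hu.1).1
  le_antisymm (not_lt.1 fun k => hu.2 ⟨hu.1.1, v, hv, l, k⟩) (h.nn hv l le_rfl)

/-- no jump into a point of `K` -/
theorem z_kz {x k : s.P} (hk : k ∈ Kz s.A z) (l : x ≤ k) : z x k = 0 := by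
  obtain ⟨h1, u, h2, h3, h4⟩ := hk
  have := h.add h2 l h3 le_rfl
  have := h.nn h1 l le_rfl
  have := h.le1 h2 (l.trans h3) le_rfl
  omega

omit h in
theorem kz_of {k : s.P} (hk : k ∈ Inn s.A \ Uz s.A z) : k ∈ Kz s.A z :=
  by_contra fun l => hk.2 ⟨hk.1, l⟩

theorem lz_up {n u v : s.P} {j : ℤ} (hu : u ∈ Lz s.A z n j) (l : u ≤ v) : v ∈ Lz s.A z n j :=
  have hv := h.uz_up l hu.1
  ⟨hv, hu.2.1.trans l, by rw [h.add hv.1.1 hu.2.1 l le_rfl, h.z_uz hu.1 l, add_zero, hu.2.2]⟩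

theorem lz_dn {n u v : s.P} {j : ℤ} (hv : v ∈ Lz s.A z n j) (hu : u ∈ Uz s.A z) (k : n ≤ u)
    (l : u ≤ v) : u ∈ Lz s.A z n j :=
  ⟨hu, k, by rw [← hv.2.2, h.add hv.1.1.1 k l le_rfl, h.z_uz hu l, add_zero]⟩

theorem lz_kz {n k u : s.P} {j : ℤ} (hk : k ∈ Kz s.A z) (l : n ≤ k) :
    u ∈ Lz s.A z k j ↔ u ∈ Lz s.A z n j ∧ k ≤ u :=
  ⟨fun a => ⟨⟨a.1, l.trans a.2.1, by rw [h.add a.1.1.1 l a.2.1 le_rfl, h.z_kz hk l, zero_add, a.2.2]⟩,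
    a.2.1⟩, fun a => ⟨a.1.1, a.2, by
      rw [← a.1.2.2, h.add a.1.1.1.1 l a.2 le_rfl, h.z_kz hk l, zero_add]⟩⟩

theorem lz_cases {n u : s.P} (hu : u ∈ Uz s.A z) (l : n ≤ u) :
    u ∈ Lz s.A z n 0 ∨ u ∈ Lz s.A z n 1 := by
  have := h.nn hu.1.1 l le_rfl
  have := h.le1 hu.1.1 l le_rfl
  by_cases k : z n u = 0
  exacts [Or.inl ⟨hu, l, k⟩, Or.inr ⟨hu, l, by omega⟩]

/-! ### lifts -/

theorem mon : Monotone π := h.cov.mon

theorem ex_dn {b : s'.P} (hb : b ∈ s'.A) {x : s.P} (l : x ≤ π b) : ∃ q, q ≤ b ∧ π q = x :=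
  let ⟨q, h1, h2⟩ := h.cov.ex hb (Or.inr l)
  ⟨q, h.cov.refl b hb q b h1 Cm.rfl (h2 ▸ l), h2⟩

theorem ex_up {b : s'.P} (hb : b ∈ s'.A) {x : s.P} (l : π b ≤ x) : ∃ q, b ≤ q ∧ π q = x :=
  let ⟨q, h1, h2⟩ := h.cov.ex hb (Or.inl l)
  ⟨q, h.cov.refl b hb b q Cm.rfl h1 (h2 ▸ l), h2⟩

theorem le_dn {b q r : s'.P} (hb : b ∈ s'.A) (h1 : q ≤ b) (h2 : r ≤ b) (l : π q ≤ π r) : q ≤ r :=
  h.cov.refl b hb q r (Or.inr h1) (Or.inr h2) l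

theorem eq_dn {b q r : s'.P} (hb : b ∈ s'.A) (h1 : q ≤ b) (h2 : r ≤ b) (l : π q = π r) : q = r :=
  h.cov.inj hb (Or.inr h1) (Or.inr h2) l

theorem eqA {b b' : s'.P} (hb : b ∈ s'.A) (hb' : b' ∈ s'.A) (l : π b = π b') : b = b' :=
  h.cov.bij.injOn hb hb' l

/-- F1 -/
theorem mem_inn {b : s'.P} : b ∈ Inn s'.A ↔ b ∈ s'.A ∧ π b ∈ Uz s.A z := by
  refine ⟨fun k => ⟨k.1, ⟨h.cov.mem k.1, fun ⟨_, o, h1, h2⟩ => ?_⟩, fun ⟨_, u, h1, h2, h3⟩ => ?_⟩,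
    fun ⟨h1, h2⟩ => ⟨h1, fun ⟨_, q, h3, h4⟩ => h3 ((h.cov.up b h1 q h4).2
      ⟨(inn_up (h.mon h4) h2.1).1, h.z_uz h2 (h.mon h4)⟩)⟩⟩
  · obtain ⟨q, l, rfl⟩ := h.ex_up k.1 h2
    exact h1 (h.cov.mem (inn_up l k).1)
  · obtain ⟨q, l, rfl⟩ := h.ex_up k.1 h2
    exact h3.ne' (h.cov.zero k.1 (inn_up l k).1 l)

theorem uz_of {b : s'.P} (hb : b ∈ Inn s'.A) : π b ∈ Uz s.A z := (h.mem_inn.1 hb).2

theorem ex_inn' {u : s.P} (hu : u ∈ Uz s.A z) : ∃ b ∈ Inn s'.A, π b = u :=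
  let ⟨b, h1, h2⟩ := h.cov.exA hu.1.1
  ⟨b, h.mem_inn.2 ⟨h1, h2 ▸ hu⟩, h2⟩

theorem mem_fr {b : s'.P} : b ∈ Fr s'.A ↔ b ∈ s'.A ∧ π b ∉ Uz s.A z :=
  ⟨fun k => ⟨k.1, fun l => (h.mem_inn.2 ⟨k.1, l⟩).2 k⟩,
    fun k => fr_of k.1 fun l => k.2 (h.uz_of l)⟩

theorem le_inn {b b' : s'.P} (hb : b ∈ Inn s'.A) (hb' : b' ∈ Inn s'.A) (l : π b ≤ π b') :
    b ≤ b' := (h.cov.le_iff hb.1 hb'.1).2 ⟨l, h.z_uz (h.uz_of hb) l⟩

/-- a boundary point of the cut does not lie over `U` -/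
theorem not_uz {q : s'.P} (hq : q ∈ Om (Inn s'.A)) : π q ∉ Uz s.A z := fun k =>
  let ⟨h1, b, h2, h3⟩ := hq
  h1 (h.mem_inn.2 ⟨(h.cov.dn b h2.1 q h3).2 ⟨k.1.1, h.z_uz k (h.mon h3)⟩, k⟩)

theorem z1_pb {e : s.P → s.P → ℤ} (he : Z1 (Inn s.A) e) : Z1 (Inn s'.A) (pb π e) :=
  (he.pb h.mon).sub fun _ k => (h.uz_of k).1

/-- F3: the level of a point of the star -/
theorem lev_eq {q b b' : s'.P} (hb : b ∈ s'.A) (hb' : b' ∈ s'.A) (h1 : q ≤ b) (h2 : q ≤ b') :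
    z (π q) (π b) = z (π q) (π b') := by
  by_cases k : q ∈ s'.A
  · rw [h.cov.zero k hb h1, h.cov.zero k hb' h2]
  exact ((Nice.ctr_ge h.st'.conv h.st'.nice ⟨k, b, hb, h1⟩).conn b ⟨hb, h1⟩ b' ⟨hb', h2⟩).eq
    (g := fun t => z (π q) (π t)) fun x hx y hy l => by
      rw [h.add (h.cov.mem hy.1) (h.mon hx.2) (h.mon l) le_rfl, h.cov.zero hx.1 hy.1 l, add_zero]

/-- a point of the right level lies over the given lift -/
theorem le_of_lev {q b b' : s'.P} (hb : b ∈ s'.A) (hb' : b' ∈ s'.A) (h1 : q ≤ b)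
    (h2 : π q ≤ π b') (e : z (π q) (π b') = z (π q) (π b)) : q ≤ b' := by
  obtain ⟨r, l, k⟩ := h.ex_dn hb' h2
  exact h.inj b' hb' b hb r q l h1 k (by rw [k, e]) ▸ l

theorem ws_lz {q b : s'.P} (hb : b ∈ s'.A) (l : q ≤ b) :
    WS {b' | b' ∈ Inn s'.A ∧ q ≤ b'} (Lz s.A z (π q) (z (π q) (π b))) π :=
  WS.of_iso (fun _ k => ⟨h.uz_of k.1, h.mon k.2, h.lev_eq k.1.1 hb k.2 l⟩)
    (fun _ k => let ⟨b', h1, h2⟩ := h.ex_inn' k.1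
      ⟨b', ⟨h1, h.le_of_lev hb h1.1 l (h2 ▸ k.2.1) (h2 ▸ k.2.2)⟩, h2⟩)
    fun _ k _ k' => ⟨h.le_inn k.1 k'.1, fun m => h.mon m⟩

/-- F4 -/
theorem ctr_lz {n : s.P} {j : ℤ} (hne : (Lz s.A z n j).Nonempty) : Ctr (Lz s.A z n j) := by
  obtain ⟨u, h1, h2, rfl⟩ := hne
  obtain ⟨b, hb, rfl⟩ := h.ex_inn' h1
  obtain ⟨q, l, rfl⟩ := h.ex_dn hb.1 h2
  refine (h.ws_lz hb.1 l).ctr_iff.1 ?_
  by_cases k : q ∈ Inn s'.A
  · exact sctr_min ⟨k, le_rfl⟩ fun _ m => m.2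
  · exact Nice.ctr_ge inn_up.ordConnected h.nice' ⟨k, b, hb, l⟩

theorem lz0_ne {a : s.P} (ha : a ∈ s.A) : (Lz s.A z a 0).Nonempty := by
  obtain ⟨b, hb, rfl⟩ := h.cov.exA ha
  obtain ⟨i, h1, h2⟩ := ex_inn h.st'.thick hb
  exact ⟨π i, h.uz_of h1, h.mon h2, h.cov.zero hb h1.1 h2⟩

/-- over a jump there is a point of `U` -/
theorem lz1_ne {x a : s.P} (ha : a ∈ s.A) (l : x ≤ a) (k : 0 < z x a) :
    (Lz s.A z x 1).Nonempty := by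
  obtain ⟨u, h1, h2, h3⟩ := h.lz0_ne ha
  have := h.add h1.1.1 l h2 le_rfl
  have := h.le1 ha l le_rfl
  exact ⟨u, h1, l.trans h2, by omega⟩

theorem lz1_kz {k : s.P} (hk : k ∈ Kz s.A z) : (Lz s.A z k 1).Nonempty :=
  let ⟨_, _, h2, h3, h4⟩ := hk; h.lz1_ne h2 h3 h4

theorem ctr_half {n : s.P} {j : ℤ} (hj : j = 0 ∨ j = 1) (hne : (Lz s.A z n j).Nonempty) :
    Ctr (Lz s.A z n j ∪ {k | k ∈ Inn s.A \ Uz s.A z ∧ n ≤ k}) := by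
  refine (WS.of_ge (f := id) (A := Lz s.A z n j) (fun _ k => Or.inl k) (fun _ _ _ _ l => l) fun y hy => ?_).ctr_iff.1
    (h.ctr_lz hne)
  rcases hy with k | k
  · exact sctr_min ⟨k, le_rfl⟩ fun _ m => m.2
  · have kz := kz_of k.1
    convert h.ctr_lz (n := y) (j := j)
      (by rcases hj with rfl | rfl; exacts [h.lz0_ne kz.1, h.lz1_kz kz]) using 1
    exact Set.ext fun u => (h.lz_kz kz k.2).symm

/-- F5: the trace of the cutting surface over a double point of the boundary -/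
theorem kc {n : s.P} (hn : n ∉ Inn s.A) (h0 : (Lz s.A z n 0).Nonempty)
    (h1 : (Lz s.A z n 1).Nonempty) : {k | k ∈ Inn s.A \ Uz s.A z ∧ n ≤ k}.Nonempty ∧
      Conn {k | k ∈ Inn s.A \ Uz s.A z ∧ n ≤ k} ∧ eu {k | k ∈ Inn s.A \ Uz s.A z ∧ n ≤ k} = 1 := by
  set K := {k | k ∈ Inn s.A \ Uz s.A z ∧ n ≤ k} with hK
  have cD : Ctr {a | a ∈ Inn s.A ∧ n ≤ a} :=
    let ⟨u, a, b, _⟩ := h0; Nice.ctr_ge inn_up.ordConnected h.nice ⟨hn, u, a.1, b⟩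
  have c0 := h.ctr_half (Or.inl rfl) h0
  have c1 := h.ctr_half (Or.inr rfl) h1
  have sub : ∀ j, Lz s.A z n j ∪ K ⊆ {a | a ∈ Inn s.A ∧ n ≤ a} := fun _ _ k =>
    k.elim (fun k => ⟨k.1.1, k.2.1⟩) fun k => ⟨k.1.1, k.2⟩
  have low : ∀ j, ∀ x ∈ Lz s.A z n j ∪ K, ∀ y ∈ {a | a ∈ Inn s.A ∧ n ≤ a}, y ≤ x →
      y ∈ Lz s.A z n j ∪ K := fun j x hx y hy l => by
    by_cases k : y ∈ Uz s.A z
    · exact Or.inl (hx.elim (fun m => h.lz_dn m k hy.2 l) fun m => absurd (h.uz_up l k) m.1.2)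
    · exact Or.inr ⟨⟨hy.1, k⟩, hy.2⟩
  have dj : ∀ u ∈ Lz s.A z n 0, u ∉ Lz s.A z n 1 := fun u a b => by
    have := a.2.2; have := b.2.2; omega
  have key : ∀ C : Set s.P, C ⊆ K → (∀ x ∈ C, ∀ y ∈ K, Cm x y → y ∈ C) → ∃ g : s.P → ℤ,
      (∀ x ∈ Lz s.A z n 0 ∪ K, ∀ y ∈ Lz s.A z n 0 ∪ K, g x = g y) ∧
      (∀ x ∈ Lz s.A z n 1, ∀ y ∈ Lz s.A z n 1, g x = g y) ∧
      ∀ x ∈ K, ∀ y ∈ Lz s.A z n 1, x ≤ y → g y - g x = ind C x := fun C hC cl => by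
    obtain ⟨g, hg⟩ := cD.ex ℤ (fun x y => ind C x * ind (Lz s.A z n 1) y) fun x hx y hy t ht l m => by
      by_cases a : t ∈ Lz s.A z n 1
      · by_cases b : y ∈ Uz s.A z
        · have : y ∉ C := fun k => (hC k).1.2 b
          simp [ind_of_mem a, ind_of_mem (h.lz_dn a b hy.2 m), ind_of_not this]
        · have c : y ∉ Lz s.A z n 1 := fun k => b k.1
          have d : x ∈ K := ⟨⟨hx.1, fun k => b (h.uz_up l k)⟩, hx.2⟩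
          have : x ∈ C ↔ y ∈ C := ⟨fun k => cl x k y ⟨⟨hy.1, b⟩, hy.2⟩ (Or.inl l),
            fun k => cl y k x d (Or.inr l)⟩
          beta_reduce; rw [ind_of_mem a, ind_of_not c]; simp [ind, this]
      · have : y ∉ Lz s.A z n 1 := fun k => a (h.lz_up k m)
        simp [ind_of_not a, ind_of_not this]
    beta_reduce at hg
    refine ⟨g, fun x a y b => (c0.conn x a y b).eq fun x a y b l => ?_,
      fun x a y b => ((h.ctr_lz h1).conn x a y b).eq fun x a y b l => ?_, fun x a y b l => ?_⟩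
    · have := hg x (sub _ a) y (sub _ b) l
      rw [ind_of_not (x := y) fun k => b.elim (fun m => dj y m k) fun m => m.1.2 k.1] at this
      omega
    · have := hg x (sub _ (Or.inl a)) y (sub _ (Or.inl b)) l
      rw [ind_of_not (x := x) fun k => (hC k).1.2 a.1] at this
      omega
    · rw [← hg x (sub 0 (Or.inr a)) y (sub _ (Or.inl b)) l, ind_of_mem b, mul_one]
  refine ⟨?_, fun x a y b => ?_, ?_⟩
  · by_contra k
    obtain ⟨u, hu⟩ := h0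
    obtain ⟨v, hv⟩ := h1
    have := (cD.conn u (sub _ (Or.inl hu)) v (sub _ (Or.inl hv))).eq (g := z n) fun x a y b l => by
      rw [h.add b.1.1 a.2 l le_rfl, h.z_uz (by_contra fun m => k ⟨x, ⟨a.1, m⟩, a.2⟩) l, add_zero]
    rw [hu.2.2, hv.2.2] at this
    exact zero_ne_one this
  · by_contra k
    obtain ⟨g, g0, g1, g2⟩ := key (cmp K x) cmp_sub fun _ c _ d m => (isCmp_cmp a).clopen c d m
    obtain ⟨u, hu⟩ := h.lz1_kz (kz_of a.1)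
    obtain ⟨v, hv⟩ := h.lz1_kz (kz_of b.1)
    have hu' := (h.lz_kz (kz_of a.1) a.2).1 hu
    have hv' := (h.lz_kz (kz_of b.1) b.2).1 hv
    have e1 := g2 x a u hu'.1 hu'.2
    have e2 := g2 y b v hv'.1 hv'.2
    rw [ind_of_mem (mem_cmp_self a)] at e1
    rw [ind_of_not fun m => k m.2] at e2
    have := g0 x (Or.inr a) y (Or.inr b)
    have := g1 u hu'.1 v hv'.1
    omega
  · have := eu_union_inter (sub 0) (sub 1) (low 0) (low 1)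
    rw [c0.eu, c1.eu, show Lz s.A z n 0 ∪ K ∪ (Lz s.A z n 1 ∪ K) = {a | a ∈ Inn s.A ∧ n ≤ a} from
      Set.Subset.antisymm (Set.union_subset (sub 0) (sub 1)) fun a k => (Classical.em (a ∈ Uz s.A z)).elim
        (fun m => (h.lz_cases m k.2).imp Or.inl Or.inl) fun m => Or.inl (Or.inr ⟨⟨k.1, m⟩, k.2⟩),
      cD.eu, show (Lz s.A z n 0 ∪ K) ∩ (Lz s.A z n 1 ∪ K) = K from Set.ext fun a =>
        ⟨fun k => k.1.elim (fun m => k.2.elim (fun m' => absurd m' (dj a m)) id) id,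
          fun k => ⟨Or.inr k, Or.inr k⟩⟩] at this
    omega

/-- the high lift of a point of `Fr ∩ K` lies under the new frontier -/
theorem pinch {a : s.P} (ha : a ∈ Fr s.A) (hk : a ∈ Kz s.A z) : ∃ b ∈ Fr s.A, a ≤ b ∧ z a b = 1 := by
  obtain ⟨h1, o, h2, h3⟩ := ha
  obtain ⟨-, u, h4, h5, h6⟩ := hk
  obtain ⟨a, hb, rfl⟩ := h.cov.exA h1
  obtain ⟨o, l, rfl⟩ := h.ex_up hb h3
  obtain ⟨u, m, rfl⟩ := h.ex_up hb h5
  by_contra k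
  have := (h.st'.thick.out a hb u ⟨fun t => h6.ne' (h.cov.zero hb t m), m⟩ o
    ⟨fun t => h2 (h.cov.mem t), l⟩).ind (p := fun t => π t ∈ s.A) h4 fun x hx y hy r =>
      ⟨fun t => by_contra fun t' => k ⟨π x, ⟨t, π y, t', h.mon r⟩, h.mon hx.2, ?_⟩,
        fun t => h.st.conv.out h1 t ⟨h.mon hx.2, h.mon r⟩⟩
  · exact h2 this
  · have := h.nn t (h.mon hx.2) le_rfl
    have := h.le1 t (h.mon hx.2) le_rfl
    have : z (π a) (π x) ≠ 0 := fun e => hx.1 ((h.cov.up a hb x hx.2).2 ⟨t, e⟩)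
    omega

theorem z0_cm {b b' : s'.P} (hb : b ∈ s'.A) (hb' : b' ∈ s'.A) (k : Z0 z (π b) (π b')) : Cm b b' :=
  k.imp (h.cov.le_iff hb hb').2 (h.cov.le_iff hb' hb).2

/-- F6, WALK: the old boundary leads to a suture of the cut -/
theorem walk {q : s'.P} (hq : q ∈ Om (Inn s'.A)) (hn : π q ∉ Inn s.A) :
    ∃ r, Rch {t | t ∈ Om (Inn s'.A) ∧ π t ∉ Inn s.A} q r ∧
      ∃ y, y ∉ s'.A ∧ ∃ b ∈ Fr s'.A, y ≤ b ∧ (r = y ∨ r = b) := by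
  have fr : ∀ b ∈ s'.A, π b ∉ Inn s.A → b ∈ Fr s'.A := fun b k l => h.mem_fr.2 ⟨k, fun m => l m.1⟩
  by_cases k : q ∈ s'.A
  · obtain ⟨h1, o, h2, h3⟩ := fr_of (h.cov.mem k) hn
    obtain ⟨p, r, x, h4, h5⟩ := h.adm.cu _ o ⟨h1, h2, h3⟩
    have mem : ∀ p : s.P × s.P, PU s.A p.1 p.2 → ∀ b ∈ s'.A, π b = p.1 →
        b ∈ {t | t ∈ Om (Inn s'.A) ∧ π t ∉ Inn s.A} := fun p a b c d =>
      have : π b ∉ Inn s.A := fun m => m.2 (d ▸ ⟨a.1, _, a.2⟩)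
      ⟨fr_om h.st'.thick (fr b c this), this⟩
    have : ∀ b ∈ s'.A, π b = p.1 → Rch {t | t ∈ Om (Inn s'.A) ∧ π t ∉ Inn s.A} q b := by
      clear h4 h5
      induction r with
      | refl => exact fun b c d => h.eqA c k d ▸ Rch.rfl
      | @tail p p' _ m ih =>
        intro b c d
        obtain ⟨b', c', d'⟩ := h.cov.exA m.1.1
        refine (ih b' c' d').trans (Rch.of_cm (mem _ m.1 _ c' d') (mem _ m.2.1 _ c d) ?_)
        rcases m.2.2 with m | m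
        · exact h.z0_cm c' c (d ▸ d' ▸ m.2)
        · exact h.eqA c' c (d'.trans (m.1.trans d.symm)) ▸ Cm.rfl
    have pu : p.1 ∈ s.A := by
      rcases r.cases_tail with e | ⟨_, -, m⟩
      exacts [e ▸ h1, m.2.1.1]
    obtain ⟨b, c, d⟩ := h.cov.exA pu
    obtain ⟨y, l, rfl⟩ := h.ex_dn c (d ▸ h4)
    have R := this b c d
    refine ⟨b, R, y, fun m => ?_, b, fr b c (R.mem ⟨hq, hn⟩).2, l, Or.inr rfl⟩
    have := (h.cov.dn b c y l).1 m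
    exact h5.elim (fun t => t this.1) fun t => (d ▸ t).ne' this.2
  obtain ⟨-, b₀, h0, l0⟩ := id hq
  by_cases a : π q ∈ s.A
  · have e : z (π q) (π b₀) ≠ 0 := fun e => k ((h.cov.dn b₀ h0.1 q l0).2 ⟨a, e⟩)
    have m0 := h.cov.mem h0.1
    have e1 := h.nn m0 (h.mon l0) le_rfl
    have e2 := h.le1 m0 (h.mon l0) le_rfl
    obtain ⟨b, h1, h2, h3⟩ := h.pinch (fr_of a hn) ⟨a, _, m0, h.mon l0, by omega⟩
    obtain ⟨b, c, rfl⟩ := h.cov.exA h1.1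
    exact ⟨q, Rch.rfl, q, k, b, fr b c fun m => m.2 h1, h.le_of_lev h0.1 c l0 h2 (by omega),
      Or.inl rfl⟩
  obtain ⟨p, r, x, h4, h5⟩ := h.adm.cd _ _ ⟨h.cov.mem h0.1, a, h.mon l0⟩
  have mem : ∀ b ∈ s'.A, ∀ t ≤ b, π t ∉ s.A → t ∈ {t | t ∈ Om (Inn s'.A) ∧ π t ∉ Inn s.A} :=
    fun b c t l m => ⟨om_om h.st'.thick ⟨fun n => m (h.cov.mem n), b, c, l⟩, fun n => m n.1⟩
  have : ∀ b ∈ s'.A, π b = p.1 → ∀ t ≤ b, π t = p.2 →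
      Rch {t | t ∈ Om (Inn s'.A) ∧ π t ∉ Inn s.A} q t := by
    clear h4 h5
    induction r with
    | refl => exact fun b c d t l e => h.eq_dn h0.1 (h.eqA c h0.1 d ▸ l) l0 e ▸ Rch.rfl
    | @tail p p' _ m ih =>
      intro b c d t l e
      obtain ⟨b', c', d'⟩ := h.cov.exA m.1.1
      obtain ⟨t', l', e'⟩ := h.ex_dn c' (d' ▸ m.1.2.2)
      refine (ih b' c' d' t' l' e').trans (Rch.of_cm (mem _ c' _ l' (e' ▸ m.1.2.1))
        (mem _ c _ l (e ▸ m.2.1.2.1)) ?_)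
      rcases m.2.2 with m | m
      · have ee := e'.trans (m.1.trans e.symm)
        rcases h.z0_cm c' c (d ▸ d' ▸ m.2) with n | n
        exacts [h.eq_dn c (l'.trans n) l ee ▸ Cm.rfl, h.eq_dn c' l' (l.trans n) ee ▸ Cm.rfl]
      · obtain rfl := h.eqA c' c (d'.trans (m.1.trans d.symm))
        exact (e ▸ e' ▸ m.2 : Cm (π t') (π t)).imp (h.le_dn c l' l) (h.le_dn c l l')
  have pd : PD s.A p.1 p.2 := by
    rcases r.cases_tail with e | ⟨_, -, m⟩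
    exacts [e ▸ ⟨h.cov.mem h0.1, a, h.mon l0⟩, m.2.1]
  obtain ⟨b, c, d⟩ := h.cov.exA pd.1
  obtain ⟨t, l, e⟩ := h.ex_dn c (d ▸ pd.2.2)
  refine ⟨t, this b c d t l e, t, fun m => pd.2.1 (e ▸ h.cov.mem m), b, h.mem_fr.2 ⟨c, fun m => ?_⟩,
    l, Or.inl rfl⟩
  rw [d] at m
  exact h5.elim (fun n => n (inn_up h4 m.1).1) fun n => n.ne' (h.z_uz m h4)

/-- F7: the cutting surface has no closed component -/
theorem out : Out (Inn s.A) (Inn s.A \ Uz s.A z) := fun n hn => by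
  obtain ⟨u, h1, h2, h3⟩ := h.lz1_kz (kz_of hn)
  have sf := Sup43.sf_inn h.adm.sf
  refine sf.nc.ind sf.coc sf.mono (k := 0) (G := fun x _ _ => x ∈ Inn s.A →
    ∃ n', Rch (Inn s.A \ Uz s.A z) x n' ∧ ∃ x, x ∉ Inn s.A ∧ x ≤ n') (fun _ _ _ _ a _ _ _ b => absurd b a)
    (fun _ _ _ _ _ _ _ => Iff.rfl) (fun x y w k t a b => ?_) (Dp.of_right h1.1 h2) le_rfl (by omega) hn.1
  have ky : y ∈ Inn s.A → y ∉ Uz s.A z := fun _ m => by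
    have := h.z_uz m t.2.1; omega
  have r : x ∈ Inn s.A → Rch (Inn s.A \ Uz s.A z) x y := fun c =>
    have d := inn_up t.1 c
    Rch.of_cm ⟨c, fun m => ky d (h.uz_up t.1 m)⟩ ⟨d, ky d⟩ (Or.inl t.1)
  refine ⟨fun m c => ?_, fun m c => ?_⟩
  · obtain ⟨n', r', e⟩ := m (inn_up t.1 c)
    exact ⟨n', (r c).trans r', e⟩
  · by_cases d : x ∈ Inn s.A
    · obtain ⟨n', r', e⟩ := m d
      exact ⟨n', (r d).symm.trans r', e⟩
    · exact ⟨y, Rch.rfl, x, d, t.1⟩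

/-! ### chains -/

/-- the image of a chain -/
abbrev im : Ch s'.P → Ch s.P := h.cov.toLift.im

theorem top_im (d : Ch s'.P) : (h.im d).top = π d.top := h.cov.toLift.top_im d
theorem bot_im (d : Ch s'.P) : (h.im d).bot = π d.bot := h.cov.toLift.bot_im d
theorem mem_im {d : Ch s'.P} {x : s.P} : x ∈ (h.im d).1 ↔ ∃ q ∈ d.1, π q = x := Ch.mem_img

/-- F2 -/
theorem ex_im {c : Ch s.P} (hc : c.top ∈ Uz s.A z) : ∃ d, d.top ∈ Inn s'.A ∧ h.im d = c := by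
  obtain ⟨b, h1, h2⟩ := h.ex_inn' hc
  obtain ⟨d, h3, h4⟩ := h.cov.toLift.ex_thr h1.1 (h2 ▸ c.top_mem)
  exact ⟨d, inn_up (Ch.le_top h4) h1, h3⟩

theorem im_le {d d' : Ch s'.P} (h1 : d.top ∈ Inn s'.A) (h2 : d'.top ∈ Inn s'.A) :
    h.im d ≤ h.im d' ↔ d ≤ d' :=
  ⟨fun k =>
    have : d.top ≤ d'.top := h.le_inn h1 h2 (by rw [← h.top_im, ← h.top_im]; exact Ch.top_mono k)
    h.cov.toLift.le_of_im h2.1 (fun _ l => Or.inr ((Ch.le_top l).trans this))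
      (fun _ l => Or.inr (Ch.le_top l)) k, fun k => h.cov.toLift.im_mono k⟩

theorem im_inj {d d' : Ch s'.P} (h1 : d.top ∈ Inn s'.A) (h2 : d'.top ∈ Inn s'.A)
    (e : h.im d = h.im d') : d = d' :=
  le_antisymm ((h.im_le h1 h2).1 e.le) ((h.im_le h2 h1).1 e.ge)

theorem ws_im {S : Set (Ch s.P)} (hS : ∀ c ∈ S, c.top ∈ Uz s.A z) :
    WS {d | d.top ∈ Inn s'.A ∧ h.im d ∈ S} S h.im :=
  WS.of_iso (fun _ k => k.2) (fun c k => let ⟨d, a, b⟩ := h.ex_im (hS c k); ⟨d, ⟨a, b ▸ k⟩, b⟩)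
    fun _ a _ b => h.im_le a.1 b.1

theorem mem_mx {e : s.P → s.P → ℤ} {d : Ch s'.P} :
    d ∈ Mx (Inn s'.A) (pb π e) ↔ d.top ∈ Inn s'.A ∧ h.im d ∈ Mx (Uz s.A z) e := by
  simp only [Mx, Set.mem_ofPred_eq, h.top_im, h.bot_im, pb]
  exact ⟨fun k => ⟨k.1, h.uz_of k.1, k.2⟩, fun k => ⟨k.1, k.2.2⟩⟩

theorem ws_mx (e : s.P → s.P → ℤ) : WS (Mx (Inn s'.A) (pb π e)) (Mx (Uz s.A z) e) h.im := by
  convert h.ws_im (S := Mx (Uz s.A z) e) fun _ k => k.1 using 1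
  exact Set.ext fun _ => h.mem_mx

theorem inj_sd (b : Ch s'.P) (hb : b.top ∈ s'.A) (b' : Ch s'.P) (hb' : b'.top ∈ s'.A)
    (q q' : Ch s'.P) (l : q ≤ b) (l' : q' ≤ b') (e : h.im q = h.im q')
    (k : z (h.im q).top (h.im b).top = z (h.im q').top (h.im b').top) : q = q' := by
  have t : q.top = q'.top := h.inj _ hb _ hb' _ _ (Ch.top_mono l) (Ch.top_mono l')
    (by rw [← h.top_im, ← h.top_im, e]) (by simpa only [h.top_im] using k)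
  have a : ∀ x ∈ q.1, Cm b.top x := fun _ m => Or.inr (Ch.le_top (l m))
  have a' : ∀ x ∈ q'.1, Cm b.top x := fun _ m =>
    Or.inr ((Ch.le_top m).trans (t ▸ Ch.top_mono l))
  exact le_antisymm (h.cov.toLift.le_of_im hb a a' e.le) (h.cov.toLift.le_of_im hb a' a e.ge)

/-- subdivision -/
theorem sd : Pk s.sd s'.sd (pb Ch.top z) h.im where
  st := stt_sd h.st
  st' := stt_sd h.st'
  cov := h.cov.sd
  adm := h.adm.sd
  jk _ _ k l := h.jk _ _ (k.imp id Hlf24.om_sd.1) (Ch.top_mono l)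
  nt := h.nt.sd
  inj := h.inj_sd

end Pk

/-- the package of a cut in position `PosB NT0` -/
theorem pk_of {s s' : St} {z : s.P → s.P → ℤ} {π : s'.P → s.P} (hs : Stt s) (hs' : Stt s')
    (hc : Cov s s' z π) (ha : Adm s z) (hp : PosB (fun s z => NT0 s.A z) s z) : Pk s s' z π where
  st := hs
  st' := hs'
  cov := hc
  adm := ha
  jk := hp.nf.jk
  nt x hx b hb l a ha' m k := by
    obtain ⟨y, h1, h2, h3, h4⟩ := hp.vm a ha' x hx m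
    have := (tri3 ha' (h4 x hx m) h2).add ha.sf.coc
    obtain ⟨y', a1, b', a2, a3, a4, a5⟩ := hp.ext x ⟨hx, a, ha', m⟩ b hb l y ⟨h1, a, ha', h2⟩
      (h4 x hx m) (by omega)
    have := (tri3 a2.1 a3 a4).add ha.sf.coc
    have := ha.sf.mono _ _ (Dp.of_right a2.1 a4)
    exact ⟨b', a2, a3.trans a4, by omega⟩
  inj b hb b' hb' q q' l l' e k := by
    by_cases m : π q ∈ s.A ∧ z (π q) (π b) = 0
    · exact hc.bij.injOn ((hc.dn b hb q l).2 m) ((hc.dn b' hb' q' l').2 ⟨e ▸ m.1, k ▸ m.2⟩) e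
    have n0 := ha.sf.mono _ _ (Dp.of_right (hc.mem hb) (hc.mon l))
    have cn := (hp.lc (π q) (z (π q) (π b)) ((Classical.em _).symm.imp id fun t =>
      lt_of_le_of_ne n0 fun t' => m ⟨t, t'.symm⟩) ⟨_, hc.mem hb, hc.mon l, rfl⟩).conn
    refine (cn _ ⟨hc.mem hb, hc.mon l, rfl⟩ _ ⟨hc.mem hb', e ▸ hc.mon l', by rw [k, e]⟩).ind
      (p := fun a => ∀ c ∈ s'.A, π c = a → ∀ r ≤ c, π r = π q → q = r)
      (fun c a1 a2 r a3 a4 => hc.inj hb (Or.inr l) (Or.inr (hc.bij.injOn a1 hb a2 ▸ a3)) a4.symm)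
      (fun x hx y hy t => ?_) b' hb' rfl q' l' e.symm
    obtain ⟨c, c1, rfl⟩ := hc.exA hx.1
    obtain ⟨d, d1, rfl⟩ := hc.exA hy.1
    have cd : c ≤ d := (hc.le_iff c1 d1).2 ⟨t, by
      have := (tri3 hy.1 hx.2.1 t).add ha.sf.coc
      have := hx.2.2; have := hy.2.2; omega⟩
    obtain ⟨r₀, r1, r2⟩ := hc.ex c1 (Or.inr hx.2.1)
    have r3 : r₀ ≤ c := hc.refl c c1 _ _ r1 Cm.rfl (r2 ▸ hx.2.1)
    refine ⟨fun w c' a1 a2 r a3 a4 => ?_, fun w c' a1 a2 r a3 a4 => ?_⟩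
    · obtain rfl := hc.bij.injOn a1 d1 a2
      exact (w c c1 rfl r₀ r3 r2).trans
        (hc.inj a1 (Or.inr (r3.trans cd)) (Or.inr a3) (r2.trans a4.symm))
    · obtain rfl := hc.bij.injOn a1 c1 a2
      exact w d d1 rfl r (a3.trans cd) a4

end Crest.Agent.X212.Pt30
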