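import Crest.Agent.X212.Sf30.Lv

/-!
# Row 212, layer H (helper30): `chiC ≤ 2`, `chiC ≤ 1`, discs are contractible
-/

set_option autoImplicit false
set_option linter.unusedSectionVars false

open Finset Classical

noncomputable section

namespace Crest.Agent.X212.Sf30

open Crest.Agent.X212.Hp13

variable {P : Type} [PartialOrder P] [Fintype P] {A : Set P} {z : P → P → ℤ}

theorem esc_of {B E : Set P} (hE : E ⊆ B) (hc : Conn E) {a x : P} (ha : a ∈ E) (hx : x ∉ E)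
    (h : Cm a x) : Alg36.Esc B E :=
  fun b hb => ⟨a, hE ha, (hc b hb a ha).mono hE, x, hx, h⟩

theorem cmp_upper {U C : Set P} (hU : IsUpperSet U) (h : IsCmp U C) : IsUpperSet C :=
  fun _ _ hab ha => h.clopen ha (hU hab (h.sub ha)) (Or.inl hab)

variable [hz : IsCoc A z] {C : Set (Lv A z)}

theorem chiC_le_two (h : Mf 3 A) (hm : Mono A z) (hC : C ⊆ LA A z) (hU : IsUpperSet C)
    (hc : Conn C) : chiC C ≤ 2 :=
  chiC_eq_eu h hm hC hU ▸ Alg36.Mf.eu_le_two (mf_LA h hm) hC hc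

/-- a connected upper set of cells that has a face outside -/
theorem chiC_le_one (h : Mf 3 A) (hm : Mono A z) (hC : C ⊆ LA A z) (hU : IsUpperSet C)
    (hc : Conn C) {p q : Lv A z} (hp : p ∈ C) (hq : q ∉ C) (hqp : q ≤ p) : chiC C ≤ 1 :=
  chiC_eq_eu h hm hC hU ▸
    Alg36.Mf.eu_le_one (mf_LA h hm) hC hc (esc_of hC hc hp hq (Or.inr hqp))

theorem ctr_of_chiC (h : Mf 3 A) (hm : Mono A z) (hC : C ⊆ LA A z) (hU : IsUpperSet C)
    (hc : Conn C) {p q : Lv A z} (hp : p ∈ C) (hq : q ∉ C) (hqp : q ≤ p) (h1 : 1 ≤ chiC C) :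
    Ctr C :=
  Alg36.Mf.ctr_of_eu (mf_LA h hm) hC hc (esc_of hC hc hp hq (Or.inr hqp))
    (chiC_eq_eu h hm hC hU ▸ h1)

theorem cmp_le_two (h : Mf 3 A) (hm : Mono A z) (hC : IsCmp (LA A z) C) : chiC C ≤ 2 :=
  chiC_le_two h hm hC.sub (cmp_upper la_upper hC) hC.conn

theorem cmp_le_one (h : Mf 3 A) (hm : Mono A z) (hC : IsCmp (LA A z) C) (ht : Tch A z C) :
    chiC C ≤ 1 :=
  let ⟨_, hp, _, hq, hqp⟩ := ht
  chiC_le_one h hm hC.sub (cmp_upper la_upper hC) hC.conn hp (fun k => hq (hC.sub k)) hqp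

theorem IsDisc.ctr (h : Mf 3 A) (hm : Mono A z) (hC : IsDisc A z C) : Ctr C :=
  let ⟨_, hp, _, hq, hqp⟩ := hC.2.1
  ctr_of_chiC h hm hC.1.sub (cmp_upper la_upper hC.1) hC.1.conn hp (fun k => hq (hC.1.sub k)) hqp
    hC.2.2.ge

end Crest.Agent.X212.Sf30
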