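import Crest.Agent.X212.Sf30.Cs

/-!
# Row 212, layer H (helper30): `chi ≤ 2 - b`, cycles bound on discs and spheres
-/

set_option autoImplicit false
set_option linter.unusedSectionVars false

open Finset Module Matrix

namespace Crest.Agent.X212.Sf30

/-- the range of the transpose is the annihilator of the kernel -/
theorem range_transpose {k : Type} [Field k] {V E : Type} [Fintype V] [Fintype E]
    (M : Matrix E V k) (a : V → k) (ha : ∀ g, M *ᵥ g = 0 → a ⬝ᵥ g = 0) : ∃ x, Mᵀ *ᵥ x = a := by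
  classical
  have h1 : LinearMap.range Mᵀ.mulVecLin ≤ ann (LinearMap.ker M.mulVecLin) := by
    rintro _ ⟨x, rfl⟩ g hg
    have hg' : M *ᵥ g = 0 := hg
    show (Mᵀ *ᵥ x) ⬝ᵥ g = 0
    rw [mulVec_transpose, ← dotProduct_mulVec, hg', dotProduct_zero]
  have h2 := finrank_ann (LinearMap.ker M.mulVecLin)
  have h3 := LinearMap.finrank_range_add_finrank_ker M.mulVecLin
  rw [Module.finrank_fintype_fun_eq_card] at h3
  have h4 : Mᵀ.rank = M.rank := rank_transpose M
  unfold Matrix.rank at h4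
  have h5 := Submodule.eq_of_le_of_finrank_le h1 (by omega)
  have : a ∈ LinearMap.range Mᵀ.mulVecLin := by
    rw [h5]; exact fun g hg => ha g hg
  exact this

theorem z2_cases (a : ZMod 2) : a = 0 ∨ a = 1 := by revert a; decide

theorem z2_add_eq_zero {a b : ZMod 2} : a + b = 0 ↔ a = b := by revert a b; decide

namespace Inc

variable {F E V : Type} [DecidableEq F] [DecidableEq E] [DecidableEq V] {C : Inc F E V}

theorem sum_b1 {e : E} (h2 : (C.b1 e).card = 2) (g : V → ZMod 2) :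
    ∑ v ∈ C.b1 e, g v = 0 ↔ ∀ u ∈ C.b1 e, ∀ v ∈ C.b1 e, g u = g v := by
  obtain ⟨a, b, hab, h⟩ := card_eq_two.1 h2
  rw [h, sum_pair hab, z2_add_eq_zero]
  constructor
  · intro hg u hu v hv
    simp only [mem_insert, mem_singleton] at hu hv
    rcases hu with rfl | rfl <;> rcases hv with rfl | rfl <;> simp [hg]
  · intro hg
    exact hg a (by simp) b (by simp)

/-- a function with equal values at the two ends of each edge of a connected graph is constant -/
theorem Con1.const {Z : Finset E} (hc : C.Con1 Z) {α : Type} (g : V → α)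
    (hg : ∀ e ∈ Z, ∀ u ∈ C.b1 e, ∀ v ∈ C.b1 e, g u = g v) :
    ∀ u ∈ C.vs Z, ∀ v ∈ C.vs Z, g u = g v := by
  intro u hu v hv
  obtain ⟨e, he, hue⟩ := mem_vs.1 hu
  obtain ⟨e', he', hve⟩ := mem_vs.1 hv
  exact hc (fun a => ∀ w ∈ C.b1 a, g u = g w)
    (fun a _ a' ha' w hw hw' hp x hx => (hp w hw).trans (hg a' ha' w hw' x hx)) e he e' he'
    (fun w hw => hg e he u hue w hw) v hve

/-- the incidence matrix of a set of edges -/
def M1 (C : Inc F E V) (Z : Finset E) : Matrix Z (C.vs Z) (ZMod 2) :=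
  fun e v => if (v : V) ∈ C.b1 e then 1 else 0

theorem M1_mulVec (Z : Finset E) (g : V → ZMod 2) (e : Z) :
    (C.M1 Z *ᵥ fun v => g v) e = ∑ v ∈ C.b1 e, g v := by
  simp only [mulVec, dotProduct, M1, ite_mul, one_mul, zero_mul]
  rw [sum_coe_sort (C.vs Z) (fun v => if v ∈ C.b1 e then g v else 0), ← sum_filter]
  congr 1
  ext v
  simp only [mem_filter, and_iff_right_iff_imp]
  exact fun hv => mem_vs.2 ⟨e, e.2, hv⟩

theorem M1T_mulVec (Z : Finset E) (a : E → ZMod 2) (v : C.vs Z) :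
    ((C.M1 Z)ᵀ *ᵥ fun e => a e) v = ∑ e ∈ C.st Z v, a e := by
  simp only [mulVec, dotProduct, M1, transpose_apply, ite_mul, one_mul, zero_mul]
  rw [sum_coe_sort Z (fun e => if (v : V) ∈ C.b1 e then a e else 0), ← sum_filter]
  rfl

/-- extension by zero -/
def ext0 {α : Type} [DecidableEq α] {Z : Finset α} (g : Z → ZMod 2) (a : α) : ZMod 2 :=
  if h : a ∈ Z then g ⟨a, h⟩ else 0

theorem ext0_coe {α : Type} [DecidableEq α] {Z : Finset α} (g : Z → ZMod 2) :
    (fun a : Z => ext0 g a) = g := by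
  funext a; simp [ext0]

theorem ker_M1 {Z : Finset E} (h2 : ∀ e ∈ Z, (C.b1 e).card = 2) (hc : C.Con1 Z)
    (g : C.vs Z → ZMod 2) (hg : C.M1 Z *ᵥ g = 0) (u v : C.vs Z) : g u = g v := by
  have h := hc.const (ext0 g) (fun e he => (sum_b1 (h2 e he) _).1 (by
    rw [← M1_mulVec Z (ext0 g) ⟨e, he⟩, ext0_coe, hg]; rfl)) u u.2 v v.2
  simpa [ext0] using h

theorem sum_ind {α : Type} (S : Finset α) (p : α → Prop) [DecidablePred p] :
    (∑ a ∈ S, if p a then (1 : ZMod 2) else 0) = ((S.filter p).card : ZMod 2) := by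
  rw [card_filter]; push_cast; rfl

/-- **joins**: in a connected graph every even set of vertices is the odd set of a subgraph -/
theorem exists_join {Z : Finset E} (h2 : ∀ e ∈ Z, (C.b1 e).card = 2) (hc : C.Con1 Z)
    (a : V → ZMod 2) (ha : ∑ v ∈ C.vs Z, a v = 0) :
    ∃ B ⊆ Z, ∀ v ∈ C.vs Z, ((C.st B v).card : ZMod 2) = a v := by
  obtain ⟨x, hx⟩ := range_transpose (C.M1 Z) (fun v => a v) (by
    intro g hg
    rcases isEmpty_or_nonempty (C.vs Z) with h | ⟨⟨v⟩⟩
    · simp [dotProduct]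
    · have : g = fun _ => g v := funext fun u => ker_M1 h2 hc g hg u v
      rw [this]
      simp only [dotProduct]
      rw [← sum_mul, sum_coe_sort (C.vs Z) a, ha, zero_mul])
  refine ⟨Z.filter fun e => ext0 x e = 1, filter_subset _ _, fun v hv => ?_⟩
  have h := congrFun hx ⟨v, hv⟩
  rw [← ext0_coe x, M1T_mulVec] at h
  rw [← h]
  have : C.st (Z.filter fun e => ext0 x e = 1) v = (C.st Z v).filter fun e => ext0 x e = 1 := by
    ext e; simp only [mem_st, mem_filter]; tauto
  rw [this, ← sum_ind]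
  refine sum_congr rfl fun e _ => ?_
  rcases z2_cases (ext0 x e) with h | h <;> simp [h]

/-- a connected graph has Euler characteristic at most one -/
theorem chi1_le {Z : Finset E} (h2 : ∀ e ∈ Z, (C.b1 e).card = 2) (hc : C.Con1 Z) :
    C.chi1 Z ≤ 1 := by
  have h1 := LinearMap.finrank_range_add_finrank_ker (C.M1 Z).mulVecLin
  have h3 : finrank (ZMod 2) (LinearMap.ker (C.M1 Z).mulVecLin) ≤ 1 :=
    finrank_le_one_of_const _ fun g hg => ker_M1 h2 hc g hg
  have h4 := Submodule.finrank_le (LinearMap.range (C.M1 Z).mulVecLin)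
  rw [Module.finrank_fintype_fun_eq_card, Fintype.card_coe] at h1 h4
  unfold chi1
  omega

section Main

variable {ι : Type} [DecidableEq ι] {J : Finset ι}

/-- the boundary edges are sorted into classes without common vertices -/
structure Cls (C : Inc F E V) (U : Finset F) (β : E → ι) (J : Finset ι) : Prop where
  eq : ∀ e ∈ C.bd U, ∀ e' ∈ C.bd U, ∀ v ∈ C.b1 e, v ∈ C.b1 e' → β e = β e'
  mem : ∀ e ∈ C.bd U, β e ∈ J
  sur : ∀ i ∈ J, ∃ e ∈ C.bd U, β e = i

/-- the second incidence matrix, boundary classes capped off -/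
def M2 (C : Inc F E V) (U : Finset F) (β : E → ι) (J : Finset ι) :
    Matrix (C.ed U) (U ⊕ J) (ZMod 2) :=
  fun e x => Sum.elim (fun f : U => if (e : E) ∈ C.b2 f then 1 else 0)
    (fun i : J => if (e : E) ∈ C.bd U ∧ β e = i then 1 else 0) x

theorem M2_mulVec (U : Finset F) (β : E → ι) (x : U ⊕ J → ZMod 2) (e : C.ed U) :
    (C.M2 U β J *ᵥ x) e = (∑ f ∈ C.co U e, ext0 (fun f => x (Sum.inl f)) f) +
      if (e : E) ∈ C.bd U then ext0 (fun i => x (Sum.inr i)) (β e) else 0 := by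
  simp only [mulVec, dotProduct, M2, Fintype.sum_sum_type, Sum.elim_inl, Sum.elim_inr, ite_mul,
    one_mul, zero_mul]
  congr 1
  · rw [co, sum_filter, ← sum_coe_sort U]
    refine sum_congr rfl fun f _ => ?_
    simp [ext0]
  · by_cases h : (e : E) ∈ C.bd U
    · simp only [h, true_and, if_true]
      by_cases hJ : β e ∈ J
      · rw [sum_eq_single ⟨β e, hJ⟩]
        · simp [ext0, hJ]
        · intro i _ hi
          exact if_neg fun h : β e = i => hi (Subtype.ext h.symm)
        · simp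
      · simp only [ext0, hJ, dite_false]
        exact sum_eq_zero fun i _ => if_neg fun h : β e = i => hJ (h ▸ i.2)
    · simp [h]

theorem cyc_cls {U : Finset F} (h : C.Srf U) {β : E → ι} (hβ : C.Cls U β J) (i : ι) :
    C.Cyc ((C.bd U).filter fun e => β e = i) := by
  intro v
  by_cases hv : ∃ e ∈ C.bd U, v ∈ C.b1 e ∧ β e = i
  · obtain ⟨e, he, hve, hi⟩ := hv
    have : C.st ((C.bd U).filter fun e => β e = i) v = C.st (C.bd U) v := by
      ext e'
      simp only [mem_st, mem_filter]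
      exact ⟨fun h => ⟨h.1.1, h.2⟩, fun h => ⟨⟨h.1, (hβ.eq e' h.1 e he v h.2 hve).trans hi⟩, h.2⟩⟩
    rw [this]; exact h.bd_cyc v
  · have : C.st ((C.bd U).filter fun e => β e = i) v = ∅ := by
      rw [eq_empty_iff_forall_notMem]
      intro e he
      simp only [mem_st, mem_filter] at he
      exact hv ⟨e, he.1.1, he.2, he.1.2⟩
    rw [this]; simp

theorem M1T_ind {Y Z : Finset E} (hZ : Z ⊆ Y) (v : C.vs Y) :
    ((C.M1 Y)ᵀ *ᵥ fun e : Y => if (e : E) ∈ Z then (1 : ZMod 2) else 0) v = (C.st Z v).card := by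
  rw [M1T_mulVec Y (fun e => if e ∈ Z then (1 : ZMod 2) else 0), sum_ind]
  congr 2
  ext e
  simp only [mem_st, mem_filter]
  exact ⟨fun h => ⟨h.2, h.1.2⟩, fun h => ⟨⟨hZ h.1, h.2⟩, h.1⟩⟩

theorem M1_M2 {U : Finset F} (h : C.Srf U) {β : E → ι} (hβ : C.Cls U β J) :
    (C.M1 (C.ed U))ᵀ * C.M2 U β J = 0 := by
  ext v x
  rcases x with f | i
  · have := M1T_ind (C := C) (Y := C.ed U) (Z := C.b2 f)
      (fun e he => mem_ed.2 ⟨f, f.2, he⟩) v
    rw [cyc_iff.1 (h.cyc f f.2)] at this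
    exact this
  · have := M1T_ind (C := C) (Y := C.ed U) (Z := (C.bd U).filter fun e => β e = i)
      ((filter_subset _ _).trans (bd_subset U)) v
    rw [cyc_iff.1 (cyc_cls h hβ i)] at this
    simp only [mem_filter] at this
    exact this

theorem ker_M2 {U : Finset F} (h : C.Srf U) (hc : C.Con U) {β : E → ι} (hβ : C.Cls U β J)
    (x : U ⊕ J → ZMod 2) (hx : C.M2 U β J *ᵥ x = 0) (a b : U ⊕ J) : x a = x b := by
  set y := ext0 (fun f : U => x (Sum.inl f)) with hy
  have hxy : ∀ f : U, x (Sum.inl f) = y f := fun f => by simp [hy, ext0]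
  have h1 : ∀ f ∈ U, ∀ f' ∈ U, y f = y f' := by
    intro f hf f' hf'
    refine hc (fun g => y f = y g) ?_ f hf f' hf' rfl
    intro g hg g' hg' e he he' hp
    by_cases hgg : g = g'
    · rw [← hgg]; exact hp
    have hs : C.co U e = {g, g'} := by
      symm
      apply eq_of_subset_of_card_le
      · intro a ha
        simp only [mem_insert, mem_singleton] at ha
        rcases ha with rfl | rfl
        · exact mem_co.2 ⟨hg, he⟩
        · exact mem_co.2 ⟨hg', he'⟩
      · rw [card_pair hgg]; exact h.le2 e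
    have := congrFun hx ⟨e, mem_ed.2 ⟨g, hg, he⟩⟩
    rw [M2_mulVec, if_neg (by rw [mem_bd, hs, card_pair hgg]; omega), add_zero, hs,
      sum_pair hgg] at this
    exact hp.trans (z2_add_eq_zero.1 this)
  have h2 : ∀ a : U ⊕ J, ∃ f ∈ U, x a = y f := by
    rintro (f | i)
    · exact ⟨f, f.2, hxy f⟩
    · obtain ⟨e, he, hi⟩ := hβ.sur i i.2
      obtain ⟨f, hf⟩ := card_eq_one.1 (mem_bd.1 he)
      have := congrFun hx ⟨e, bd_subset U he⟩
      rw [M2_mulVec, if_pos he, hf, sum_singleton] at this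
      refine ⟨f, (mem_co.1 (hf ▸ mem_singleton_self f)).1, ?_⟩
      rw [hi] at this
      have h5 : ext0 (fun i => x (Sum.inr i)) (i : ι) = x (Sum.inr i) := by simp [ext0]
      rw [h5] at this
      exact (z2_add_eq_zero.1 this).symm
  obtain ⟨f, hf, e1⟩ := h2 a
  obtain ⟨f', hf', e2⟩ := h2 b
  rw [e1, e2, h1 f hf f' hf']

theorem orth {U : Finset F} (h : C.Srf U) {β : E → ι} (hβ : C.Cls U β J) (g : C.vs (C.ed U) → ZMod 2)
    (x : U ⊕ J → ZMod 2) : (C.M1 (C.ed U)).mulVecLin g ⬝ᵥ (C.M2 U β J).mulVecLin x = 0 := by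
  show (C.M1 (C.ed U) *ᵥ g) ⬝ᵥ (C.M2 U β J *ᵥ x) = 0
  rw [← vecMul_transpose, ← dotProduct_mulVec, mulVec_mulVec, M1_M2 h hβ, zero_mulVec,
    dotProduct_zero]

/-- **`chi ≤ 2 - b`** -/
theorem chi_le {U : Finset F} (h : C.Srf U) (hc : C.Con U) {β : E → ι} (hβ : C.Cls U β J) :
    C.chi U + J.card ≤ 2 := by
  have h0 := euler_le _ _ (orth h hβ)
  have h1 : finrank (ZMod 2) (LinearMap.ker (C.M1 (C.ed U)).mulVecLin) ≤ 1 :=
    finrank_le_one_of_const _ fun g hg => ker_M1 h.two (h.con1 hc) g hg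
  have h2 : finrank (ZMod 2) (LinearMap.ker (C.M2 U β J).mulVecLin) ≤ 1 :=
    finrank_le_one_of_const _ fun x hx => ker_M2 h hc hβ x hx
  simp only [Fintype.card_sum, Fintype.card_coe] at h0
  unfold chi chi1
  omega

/-- in the case of equality every cycle bounds -/
theorem bounds_cls {U : Finset F} (h : C.Srf U) (hc : C.Con U) {β : E → ι} (hβ : C.Cls U β J)
    (he : 2 ≤ C.chi U + J.card) {Z : Finset E} (hZ : Z ⊆ C.ed U) (hz : C.Cyc Z) :
    ∃ W ⊆ U, ∃ j : ι → ZMod 2, ∀ e ∈ C.ed U, ((C.co W e).card : ZMod 2) +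
      (if e ∈ C.bd U then j (β e) else 0) = if e ∈ Z then 1 else 0 := by
  have h1 : finrank (ZMod 2) (LinearMap.ker (C.M1 (C.ed U)).mulVecLin) ≤ 1 :=
    finrank_le_one_of_const _ fun g hg => ker_M1 h.two (h.con1 hc) g hg
  have h2 : finrank (ZMod 2) (LinearMap.ker (C.M2 U β J).mulVecLin) ≤ 1 :=
    finrank_le_one_of_const _ fun x hx => ker_M2 h hc hβ x hx
  obtain ⟨x, hx⟩ := exact_of_euler (C.M2 U β J).mulVecLin (C.M1 (C.ed U)).mulVecLin
    (fun x g => by rw [dotProduct_comm]; exact orth h hβ g x)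
    (by simp only [Fintype.card_sum, Fintype.card_coe]; unfold chi chi1 at he; omega)
    (fun e => if (e : E) ∈ Z then 1 else 0) (by
      intro g
      show _ ⬝ᵥ (C.M1 (C.ed U) *ᵥ g) = 0
      rw [dotProduct_mulVec, ← mulVec_transpose]
      have : ((C.M1 (C.ed U))ᵀ *ᵥ fun e : C.ed U => if (e : E) ∈ Z then (1 : ZMod 2) else 0) = 0 := by
        funext v
        rw [M1T_ind hZ, cyc_iff.1 hz]; rfl
      rw [this, zero_dotProduct])
  set y := ext0 (fun f : U => x (Sum.inl f)) with hy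
  refine ⟨U.filter fun f => y f = 1, filter_subset _ _, ext0 fun i => x (Sum.inr i),
    fun e he => ?_⟩
  have := congrFun hx ⟨e, he⟩
  change (C.M2 U β J *ᵥ x) _ = _ at this
  rw [M2_mulVec] at this
  rw [← this]
  congr 1
  have h3 : C.co (U.filter fun f => y f = 1) e = (C.co U e).filter fun f => y f = 1 := by
    ext f; simp only [mem_co, mem_filter]; tauto
  rw [h3, ← sum_ind]
  refine sum_congr rfl fun f _ => ?_
  rw [← hy]
  rcases z2_cases (y f) with h | h <;> simp [h]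

/-- in the case of equality every cocycle is a coboundary -/
theorem cobounds_cls {U : Finset F} (h : C.Srf U) (hc : C.Con U) {β : E → ι} (hβ : C.Cls U β J)
    (he : 2 ≤ C.chi U + J.card) (a : E → ZMod 2) (ha : ∀ f ∈ U, ∑ e ∈ C.b2 f, a e = 0)
    (hb : ∀ i ∈ J, ∑ e ∈ (C.bd U).filter (fun e => β e = i), a e = 0) :
    ∃ g : V → ZMod 2, ∀ e ∈ C.ed U, a e = ∑ v ∈ C.b1 e, g v := by
  have h1 : finrank (ZMod 2) (LinearMap.ker (C.M1 (C.ed U)).mulVecLin) ≤ 1 :=
    finrank_le_one_of_const _ fun g hg => ker_M1 h.two (h.con1 hc) g hg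
  have h2 : finrank (ZMod 2) (LinearMap.ker (C.M2 U β J).mulVecLin) ≤ 1 :=
    finrank_le_one_of_const _ fun x hx => ker_M2 h hc hβ x hx
  have key : ∀ Z ⊆ C.ed U, (∑ e : C.ed U, a e * if (e : E) ∈ Z then 1 else 0) = ∑ e ∈ Z, a e := by
    intro Z hZ
    rw [sum_coe_sort (C.ed U) (fun e => a e * if e ∈ Z then 1 else 0)]
    simp only [mul_ite, mul_one, mul_zero]
    rw [← sum_filter, filter_mem_eq_inter, inter_eq_right.2 hZ]
  obtain ⟨g, hg⟩ := exact_of_euler (C.M1 (C.ed U)).mulVecLin (C.M2 U β J).mulVecLin (orth h hβ)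
    (by simp only [Fintype.card_sum, Fintype.card_coe]; unfold chi chi1 at he; omega)
    (fun e => a e) (by
      intro x
      show _ ⬝ᵥ (C.M2 U β J *ᵥ x) = 0
      rw [dotProduct_mulVec]
      have : ((fun e : C.ed U => a e) ᵥ* C.M2 U β J) = 0 := by
        funext y
        rcases y with f | i
        · have := key (C.b2 f) (fun e he => mem_ed.2 ⟨f, f.2, he⟩)
          rw [ha f f.2] at this
          exact this
        · have := key ((C.bd U).filter fun e => β e = i) ((filter_subset _ _).trans (bd_subset U))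
          rw [hb i i.2] at this
          simp only [mem_filter] at this
          exact this
      rw [this, zero_dotProduct])
  refine ⟨ext0 g, fun e he => ?_⟩
  have := congrFun hg ⟨e, he⟩
  change (C.M1 (C.ed U) *ᵥ g) _ = _ at this
  rw [← ext0_coe g, M1_mulVec] at this
  exact this.symm

end Main

end Inc

end Crest.Agent.X212.Sf30
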