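import Crest.Agent.X212.Sf30.Le
import Crest.Agent.X212.Sf30.Eul
import Crest.Agent.X212.Alg36.Hp4

/-!
# Row 212, layer H (helper30): the dual cell structure; `eu ≤ 2 - b`, closed curves in a disc bound
-/

set_option autoImplicit false
set_option linter.unusedSectionVars false

open Finset Classical

noncomputable section

namespace Crest.Agent.X212.Sf30

open Crest.Agent.X212.Hp13 Alg36

variable {P : Type} [PartialOrder P] [Fintype P] {X : Set P}

/-- the dual cells -/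
def du (P : Type) [PartialOrder P] [Fintype P] : Inc P (Ch P) (Ch P) :=
  ⟨fun a => univ.filter fun e => a ∈ e.1 ∧ e.1.card = 2, fun e => univ.filter (e < ·)⟩

theorem mem_b2 {a : P} {e : Ch P} : e ∈ (du P).b2 a ↔ a ∈ e.1 ∧ e.1.card = 2 := by simp [du]

theorem mem_b1 {e t : Ch P} : t ∈ (du P).b1 e ↔ e < t := by simp [du]

theorem mem_ed_du {e : Ch P} : e ∈ (du P).ed (fs X) ↔ Mt X e ∧ e.1.card = 2 := by
  simp only [Inc.mem_ed, mem_fs, mem_b2, Mt]
  exact ⟨fun ⟨a, h1, h2, h3⟩ => ⟨⟨a, h2, h1⟩, h3⟩, fun ⟨⟨a, h2, h1⟩, h3⟩ => ⟨a, h1, h2, h3⟩⟩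

theorem card_pr {a x : P} (h : Cm a x) (hn : a ≠ x) : (pr h).1.card = 2 := card_pair hn

theorem exists_ne {c : Ch P} (h : 2 ≤ c.1.card) (a : P) : ∃ x ∈ c.1, x ≠ a :=
  exists_mem_ne h a

theorem mem_vs_du (h : Mf 2 X) {t : Ch P} :
    t ∈ (du P).vs ((du P).ed (fs X)) ↔ Mt X t ∧ t.1.card = 3 := by
  simp only [Inc.mem_vs, mem_ed_du, mem_b1]
  constructor
  · rintro ⟨e, ⟨h1, h2⟩, h3⟩
    have := h.card_le t (h1.mono h3.le)
    have := Ch.card_lt h3
    exact ⟨h1.mono h3.le, by omega⟩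
  · rintro ⟨⟨a, ha, haX⟩, h3⟩
    obtain ⟨x, hx, hn⟩ := exists_ne (c := t) (by omega) a
    have k := card_pr (t.cm ha hx) hn.symm
    exact ⟨pr (t.cm ha hx), ⟨⟨a, (mem_pr _).2 (Or.inl rfl), haX⟩, k⟩,
      (pr_le _ ha hx).lt_of_ne fun e => by rw [e] at k; omega⟩

theorem co_du {W : Finset P} {e : Ch P} (he : e.1.card = 2) :
    (du P).co W e = e.1.filter (· ∈ W) := by
  ext a
  simp only [Inc.mem_co, mem_b2, mem_filter, he, and_true]
  exact and_comm

theorem mem_bd_du {e : Ch P} : e ∈ (du P).bd (fs X) ↔ e ∈ mix X ∧ e.1.card = 2 := by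
  constructor
  · intro h
    have h1 := mem_ed_du.1 (Inc.bd_subset _ h)
    refine ⟨⟨h1.1, ?_⟩, h1.2⟩
    rw [Inc.mem_bd, co_du h1.2] at h
    by_contra k
    rw [filter_true_of_mem fun x hx => mem_fs.2 (not_not.1 fun j => k ⟨x, hx, j⟩)] at h
    omega
  · rintro ⟨⟨⟨a, ha, h1⟩, x, hx, h2⟩, h3⟩
    rw [Inc.mem_bd, co_du h3]
    have k1 : 0 < (e.1.filter (· ∈ fs X)).card := card_pos.2 ⟨a, mem_filter.2 ⟨ha, mem_fs.2 h1⟩⟩
    have k2 : (e.1.filter (· ∈ fs X)).card < e.1.card :=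
      card_lt_card (filter_ssubset.2 ⟨x, hx, fun k => h2 (mem_fs.1 k)⟩)
    omega

theorem eq_pr' {e : Ch P} (he : e.1.card = 2) {a x : P} (ha : a ∈ e.1) (hx : x ∈ e.1) (hn : a ≠ x) :
    e = pr (e.cm ha hx) :=
  (Ch.ext (eq_of_subset_of_card_le (pr_le _ ha hx) (by rw [card_pr _ hn, he]))).symm

theorem srf_du (h : Mf 2 X) : (du P).Srf (fs X) := by
  refine ⟨fun e he => Mf.card_two h (mem_ed_du.1 he).1 (mem_ed_du.1 he).2, fun e => ?_,
    fun a ha t => ?_, fun a ha p hp e he e' he' => ?_, fun a ha => ?_⟩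
  · by_cases he : e.1.card = 2
    · rw [co_du he]; exact (card_filter_le _ _).trans he.le
    · rw [Inc.co_zero fun k => he (mem_ed_du.1 k).2]; norm_num
  · by_cases k : ((du P).st ((du P).b2 a) t).Nonempty
    · obtain ⟨e, he⟩ := k
      obtain ⟨h1, h2⟩ := Inc.mem_st.1 he
      rw [mem_b2] at h1
      rw [mem_b1] at h2
      have m := h.card_le t ⟨a, h2.le h1.1, mem_fs.1 ha⟩
      have := Ch.card_lt h2
      have k := card_between (c := Ch.pt a) (t := t) (Ch.pt_le.2 (h2.le h1.1)) (by simp; omega)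
      have : (du P).st ((du P).b2 a) t = univ.filter fun e => Ch.pt a < e ∧ e < t := by
        ext f
        simp only [Inc.mem_st, mem_b2, mem_b1, mem_filter, mem_univ, true_and]
        refine and_congr_left fun hf => ⟨fun k => (Ch.pt_le.2 k.1).lt_of_ne fun e => ?_, fun k => ?_⟩
        · have := k.2; rw [← e] at this; simp at this
        · have := Ch.card_lt k
          have := Ch.card_lt hf
          simp only [Ch.pt_val, card_singleton] at *
          exact ⟨Ch.pt_le.1 k.le, by omega⟩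
      rw [this, k]; exact even_two
    · rw [not_nonempty_iff_eq_empty.1 k]; simp
  · obtain ⟨h1, h2⟩ := mem_b2.1 he
    obtain ⟨h1', h2'⟩ := mem_b2.1 he'
    obtain ⟨x, hx, hn⟩ := exists_ne h2.ge a
    obtain ⟨y, hy, hn'⟩ := exists_ne h2'.ge a
    have s : ∀ u v (hu : u ∈ lk a) (hv : v ∈ lk a), Cm u v → p (pr hu.2.symm) → p (pr hv.2.symm) :=
      fun u v hu hv huv => by
        by_cases e : u = v
        · subst e; exact id
        have m := mem_tr hu.2.symm hv.2.symm huv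
        have c3 : (tr hu.2.symm hv.2.symm huv).1.card = 3 := by
          refine card_eq_three.2 ⟨a, u, v, hu.1.symm, hv.1.symm, e, rfl⟩
        refine hp _ (mem_b2.2 ⟨(mem_pr _).2 (Or.inl rfl), card_pr _ hu.1.symm⟩) _
          (mem_b2.2 ⟨(mem_pr _).2 (Or.inl rfl), card_pr _ hv.1.symm⟩) (tr hu.2.symm hv.2.symm huv)
          (mem_b1.2 ((pr_le _ m.1 m.2.1).lt_of_ne fun e => ?_))
          (mem_b1.2 ((pr_le _ m.1 m.2.2).lt_of_ne fun e => ?_))
        · have := card_pr hu.2.symm hu.1.symm; rw [e] at this; omega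
        · have := card_pr hv.2.symm hv.1.symm; rw [e] at this; omega
    have hx' : x ∈ lk a := ⟨hn, e.cm hx h1⟩
    have hy' : y ∈ lk a := ⟨hn', e'.cm hy h1'⟩
    rw [eq_pr' h2 h1 hx hn.symm, eq_pr' h2' h1' hy hn'.symm]
    intro h0
    exact (Mf.conn_lk h (by norm_num) (mem_fs.1 ha) x hx' y hy').ind
      (p := fun u => ∀ hu : u ∈ lk a, p (pr hu.2.symm)) (fun _ => h0)
      (fun u hu v hv huv => ⟨fun H _ => s u v hu hv (Or.inl huv) (H hu),
        fun H _ => s v u hv hu (Or.inr huv) (H hv)⟩) hy'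
  · obtain ⟨t, h1, h2⟩ := h.pure (Ch.pt a) (mt_pt.2 (mem_fs.1 ha))
    obtain ⟨x, hx, hn⟩ := exists_ne (c := t) (by omega) a
    exact ⟨_, mem_b2.2 ⟨(mem_pr (t.cm (Ch.pt_le.1 h1) hx)).2 (Or.inl rfl), card_pr _ hn.symm⟩⟩

theorem con_du (hc : Conn X) : (du P).Con (fs X) := by
  intro p hp a ha b hb h0
  have s : ∀ u ∈ X, ∀ v ∈ X, Cm u v → p u → p v := fun u hu v hv huv => by
    by_cases e : u = v
    · subst e; exact id
    exact hp u (mem_fs.2 hu) v (mem_fs.2 hv) (pr huv)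
      (mem_b2.2 ⟨(mem_pr _).2 (Or.inl rfl), card_pr _ e⟩)
      (mem_b2.2 ⟨(mem_pr _).2 (Or.inr rfl), card_pr _ e⟩)
  exact (hc a (mem_fs.1 ha) b (mem_fs.1 hb)).ind h0 fun u hu v hv huv =>
    ⟨s u hu v hv (Or.inl huv), s v hv u hu (Or.inr huv)⟩

/-- in a surface `eu` is the Euler characteristic of the open star -/
theorem eu_eq_mt (h : Mf 2 X) : eu X = -∑ c ∈ univ.filter (Mt X), c.sg := by
  have := Mf.sum_iMt h
  simp only [iMt, mul_ite, mul_one, mul_zero] at this
  rw [sum_filter, this]; ring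

theorem chi_du (h : Mf 2 X) : (du P).chi (fs X) = eu X := by
  have k : ∀ n : ℕ, ∑ c ∈ (univ.filter (Mt X)).filter (fun c : Ch P => c.1.card = n), c.sg =
      (-1) ^ n * ((univ.filter (Mt X)).filter (fun c : Ch P => c.1.card = n)).card := fun n => by
    rw [sum_congr rfl (g := fun _ => (-1) ^ n) fun c hc => by rw [Ch.sg, (mem_filter.1 hc).2],
      sum_const, nsmul_eq_mul, mul_comm]
  rw [eu_eq_mt h, ← sum_fiberwise_of_maps_to (t := {1, 2, 3}) (g := fun c : Ch P => c.1.card)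
    fun c hc => by
      have := h.card_le c (mem_filter.1 hc).2
      have := c.card_pos
      simp only [mem_insert, mem_singleton]; omega,
    sum_insert (by simp), sum_pair (by simp), k, k, k, Inc.chi, Inc.chi1]
  have e1 : (fs X).card = ((univ.filter (Mt X)).filter (fun c : Ch P => c.1.card = 1)).card := by
    refine card_bij (fun a _ => Ch.pt a) (fun a ha => by simpa [mt_pt] using ha)
      (fun a _ b _ e => by simpa using congrArg Ch.top e) fun c hc => ?_
    obtain ⟨h1, h2⟩ := mem_filter.1 hc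
    have := eq_pt h2.le
    exact ⟨c.top, mem_fs.2 (mt_pt.1 (this ▸ (mem_filter.1 h1).2)), this.symm⟩
  have e2 : (du P).ed (fs X) = (univ.filter (Mt X)).filter (fun c : Ch P => c.1.card = 2) := by
    ext e; simp [mem_ed_du]
  have e3 : (du P).vs ((du P).ed (fs X)) =
      (univ.filter (Mt X)).filter (fun c : Ch P => c.1.card = 3) := by
    ext e; simp [mem_vs_du h]
  rw [e3, e2, e1]; ring

theorem cls_du {ι : Type} [DecidableEq ι] (β : Ch P → ι) (hβ : ∀ c ∈ mix X, ∀ e, c ≤ e → β c = β e) :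
    (du P).Cls (fs X) β (((du P).bd (fs X)).image β) :=
  ⟨fun e he e' he' t h1 h2 => (hβ e (mem_bd_du.1 he).1 t (mem_b1.1 h1).le).trans
    (hβ e' (mem_bd_du.1 he').1 t (mem_b1.1 h2).le).symm, fun _ he => mem_image_of_mem _ he,
    fun _ hi => mem_image.1 hi⟩

theorem exists_bd {c : Ch P} (hc : c ∈ mix X) : ∃ e ∈ (du P).bd (fs X), e ≤ c :=
  let ⟨⟨_, ha, h1⟩, _, hx, h2⟩ := hc
  ⟨pr (c.cm ha hx), mem_bd_du.2 ⟨pr_mix h1 h2 _, card_pr _ fun e => h2 (e ▸ h1)⟩, pr_le _ ha hx⟩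

/-- **`eu ≤ 2 - b`** -/
theorem eu_add_le (h : Mf 2 X) (hc : Conn X) {ι : Type} (β : Ch P → ι)
    (hβ : ∀ c ∈ mix X, ∀ e, c ≤ e → β c = β e) (J : Finset ι)
    (hJ : ∀ i ∈ J, ∃ c ∈ mix X, β c = i) : eu X + J.card ≤ 2 := by
  have := Inc.chi_le (srf_du h) (con_du hc) (cls_du β hβ)
  have k : J.card ≤ (((du P).bd (fs X)).image β).card := card_le_card fun i hi => by
    obtain ⟨c, h1, rfl⟩ := hJ i hi
    obtain ⟨e, h2, h3⟩ := exists_bd h1
    exact mem_image.2 ⟨e, h2, hβ e (mem_bd_du.1 h2).1 c h3⟩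
  rw [chi_du h] at this
  omega

/-- the boundary of a disc is connected -/
theorem conn_mix2 (h : Mf 2 X) (hc : Conn X) (h1 : 1 ≤ eu X) : Conn (mix X) := by
  intro c k c' k'
  by_contra hn
  have := eu_add_le h hc (fun e => Rch (mix X) c e) (fun a ha e hae => propext
    ⟨fun r => r.trans (Rch.of_cm ha (mix_upper ha hae) (Or.inl hae)),
      fun r => r.trans (Rch.of_cm (mix_upper ha hae) ha (Or.inr hae))⟩) {True, False}
    fun i hi => by
      rcases (by simpa using hi : i = True ∨ i = False) with rfl | rfl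
      exacts [⟨c, k, eq_true Rch.rfl⟩, ⟨c', k', eq_false hn⟩]
  rw [card_pair (by simp)] at this
  omega

theorem eu_le_one' (h : Mf 2 X) (hc : Conn X) (hm : (mix X).Nonempty) : eu X ≤ 1 := by
  have := eu_add_le h hc (fun _ => ()) (fun _ _ _ _ => rfl) {()}
    fun _ _ => let ⟨c, k⟩ := hm; ⟨c, k, rfl⟩
  simp only [card_singleton] at this
  omega

/-- **closed curves in a disc or a sphere bound**: `Z` is a set of edges, even on triangles -/
theorem bounds (h : Mf 2 X) (hc : Conn X) (h1 : 1 ≤ eu X) (h2 : (mix X).Nonempty ∨ 2 ≤ eu X)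
    (Z : Finset (Ch P)) (hZ : ∀ e ∈ Z, Mt X e ∧ e.1.card = 2)
    (hz : ∀ t, Even (Z.filter (· < t)).card) :
    ∃ W ⊆ X, ∀ e : Ch P, Mt X e → e.1.card = 2 → (e ∈ Z ↔ e ∈ mix W) := by
  obtain ⟨W, hW, j, H⟩ := Inc.bounds_cls (srf_du h) (con_du hc)
    (cls_du (fun _ => ()) fun _ _ _ _ => rfl) (by
      rw [chi_du h]
      rcases h2 with ⟨c, k⟩ | k
      · obtain ⟨e, he, -⟩ := exists_bd k
        exact le_trans (by norm_num) (add_le_add h1 (Int.natCast_pos.2
          (card_pos.2 ⟨(), mem_image_of_mem _ he⟩)))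
      · omega) (Z := Z) (fun e he => mem_ed_du.2 (hZ e he)) fun t => by
        have : (du P).st Z t = Z.filter (· < t) := filter_congr fun e _ => mem_b1
        rw [this]; exact hz t
  have par : ∀ (V : Finset P) (e : Ch P), e.1.card = 2 →
      (((e.1.filter (· ∈ V)).card : ZMod 2) = if e ∈ mix (V : Set P) then 1 else 0) :=
    fun V e he => by
      have := @mem_bd_du P _ _ (V : Set P) e
      have e1 : fs (V : Set P) = V := by ext; simp
      rw [Inc.mem_bd, co_du he, e1, and_iff_left he] at this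
      have l : (e.1.filter (· ∈ V)).card ≤ 2 := (card_filter_le _ _).trans he.le
      split_ifs with k
      · rw [this.2 k]; rfl
      · rcases (by have := mt this.1 k; omega : (e.1.filter (· ∈ V)).card = 0 ∨
          (e.1.filter (· ∈ V)).card = 2) with e | e <;> rw [e] <;> rfl
  have fin : ∀ (p q : Prop) [Decidable p] [Decidable q], ((if p then 1 else 0 : ZMod 2) = if q then 1 else 0) → (q ↔ p) :=
    fun p q _ _ => by by_cases p <;> by_cases q <;> simp [*]
  rcases z2_cases (j ()) with e0 | e0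
  · refine ⟨W, fun a ha => mem_fs.1 (hW ha), fun e he hc => fin _ _ ?_⟩
    have := H e (mem_ed_du.2 ⟨he, hc⟩)
    rw [e0, ite_self, add_zero, co_du hc, par W e hc] at this
    exact this
  · refine ⟨(fs X \ W : Finset P), fun a ha => mem_fs.1 (mem_sdiff.1 ha).1, fun e he hc => fin _ _ ?_⟩
    have := H e (mem_ed_du.2 ⟨he, hc⟩)
    rw [e0, ← (srf_du h).co_cast, co_du hc, co_du hc] at this
    rw [← this, ← par _ e hc]
    have s : (e.1.filter (· ∈ fs X)).card =
        (e.1.filter (· ∈ W)).card + (e.1.filter (· ∈ fs X \ W)).card := by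
      rw [← card_union_of_disjoint (disjoint_filter.2 fun x _ a b => (mem_sdiff.1 b).2 a),
        ← filter_or]
      refine congrArg _ (filter_congr fun x _ => ?_)
      rw [mem_sdiff]
      have := @hW x
      tauto
    rw [s]; push_cast
    rw [← add_assoc, CharTwo.add_self_eq_zero, zero_add]

end Crest.Agent.X212.Sf30
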