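import Crest.Agent.X212.Sf30.P2Bas
import Crest.Agent.X212.Kh11.Lev

/-!
# X212 / Sf30 (helper30): a complete system of disjoint discs is a disc system
-/

set_option autoImplicit false
set_option linter.unusedSectionVars false

open Finset Classical

noncomputable section

namespace Crest.Agent.X212.Pt30

open Crest.Agent.X212.Hp13 Alg36 Cut21 Ind26
open Sup43 (Inn inn_sub inn_up good_inn)
open Hk (cl TD)

theorem dsc_sum {P : Type} [PartialOrder P] [Fintype P] {M : Set P} {k : ℕ}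
    {w : Fin k → P → P → ℤ} (hM : IsUpperSet M) (mf : Mf 3 M) (h : ∀ i, TD M (w i))
    (dj : ∀ i j, i ≠ j → ∀ x, ∀ y ∈ cl M, x ≤ y → w i x y = 0 ∨ w j x y = 0)
    (sp : ∀ ζ, CocOn (cl M) ζ → ∃ n : Fin k → ℤ, ExOn (cl M) (ζ - ∑ i, n i • w i)) :
    Dsc M (∑ i, w i) ∧ Spn1 M (∑ i, w i) := by
  have z : ∀ i, Z1 M (w i) := fun i => ⟨(Hk.coc_iff hM).2 (h i).coc,
    fun x y p => (h i).nn x y ((Hk.dp_iff hM).1 p).2 p.1,
    fun x y p => (h i).le1 x y ((Hk.dp_iff hM).1 p).2 p.1⟩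
  have v : ∀ x y, (∑ i, w i) x y = ∑ i, w i x y := fun x y => by simp only [Finset.sum_apply]
  have one : ∀ i x y, Dp M x y → 0 < w i x y → (∑ i, w i) x y = w i x y := fun i x y p a => by
    rw [v, sum_eq_single_of_mem i (mem_univ _) fun j _ n =>
      (dj j i n x y ((Hk.dp_iff hM).1 p).2 p.1).resolve_right a.ne']
  have ex : ∀ x y, 0 < (∑ i, w i) x y → ∃ i, 0 < w i x y := fun x y a => by
    by_contra n
    exact a.not_ge (v x y ▸ sum_nonpos fun i _ => not_lt.1 fun b => n ⟨i, b⟩)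
  have Z : Z1 M (∑ i, w i) := ⟨Coc.sum _ fun i _ => (z i).coc, Mono.sum _ fun i _ => (z i).mono,
    fun x y p => by_contra fun n =>
      let ⟨i, a⟩ := ex x y (by omega); n (one i x y p a ▸ (z i).le x y p)⟩
  refine ⟨⟨Z, fun C ⟨c, hc, e⟩ => ?_⟩, fun ζ hζ => ?_⟩
  · obtain ⟨i, a⟩ := ex _ _ hc.2
    have sub : Mx M (w i) ⊆ Mx M (∑ i, w i) := fun d b =>
      ⟨b.1, one i _ _ (dom_top b.1).bt b.2 ▸ b.2⟩
    have dn : ∀ p ∈ Mx M (w i), ∀ q ∈ Mx M (∑ i, w i), q ≤ p → 0 < w i q.bot q.top :=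
      fun p hp q hq l => by
        obtain ⟨j, b⟩ := ex _ _ hq.2
        by_cases o : j = i
        · exact o ▸ b
        · exact ((dj j i o _ _ (Hk.sub_cl hp.1) p.bot_le_top).elim
            ((z j).up (dom_top hp.1) l b).ne' hp.2.ne').elim
    obtain rfl : C = Mx M (w i) := e.trans (Set.ext fun d => ⟨fun b => (Rch.in_clopen
      (C := Mx M (w i)) (fun p hp q hq l => ⟨hq.1, l.elim
        (fun l => (z i).up (dom_top hq.1) l hp.2) (dn p hp q hq)⟩) ⟨hc.1, a⟩ b.2).mem ⟨hc.1, a⟩,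
      fun b => ⟨sub b, ((h i).conn c ⟨hc.1, a⟩ d b).mono sub⟩⟩)
    refine ⟨?_, ?_⟩
    · rw [(z i).eu_eq mf subset_rfl (mx_upper (z i) hM subset_rfl), ← (h i).chi, chi,
        sum_filter, sum_filter]
      refine sum_congr rfl fun d _ => ?_
      by_cases t : d.top ∈ M
      · have := (z i).nn t d.bot_le_top le_rfl
        have := (z i).le1 t d.bot_le_top le_rfl
        rw [if_pos ((mt_top hM).2 t)]
        by_cases b : 0 < w i d.bot d.top
        · rw [if_pos ⟨t, b⟩, show w i d.bot d.top = 1 by omega, mul_one]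
        · rw [if_neg fun o => b o.2, show w i d.bot d.top = 0 by omega, mul_zero]
      · rw [if_neg fun o => t o.1, if_neg fun o => t ((mt_top hM).1 o)]
    · obtain ⟨d, d1, d2⟩ := (h i).ne
      obtain ⟨n, u, hu, l⟩ := d1 _ d.top_mem
      exact ⟨tp d u l, ⟨by simpa using hu, (z i).up (dom_top (by simpa using hu)) (le_tp _ _ _) d2⟩,
        _, le_tp d u l d.bot_mem, _, le_tp d u l d.top_mem, d.bot_le_top, n,
        one i _ _ (dp_hi hu d.bot_le_top l) d2 ▸ d2⟩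
  · obtain ⟨n, g, hg⟩ := sp ζ ((Hk.coc_iff hM).1 hζ)
    refine ⟨g, fun x y p o => ?_⟩
    have q := ((Hk.dp_iff hM).1 p).2
    rw [← hg x (Hk.cl_low p.1 q) y q p.1]
    simp only [Pi.sub_apply, Finset.sum_apply, Pi.smul_apply, smul_eq_mul]
    rw [sum_eq_zero fun i _ => by
      rw [(sum_eq_zero_iff_of_nonneg fun j _ => (z j).mono x y p).1 (v x y ▸ o) i (mem_univ _),
        mul_zero], sub_zero]

/-- the seam between P1 and P2 -/
theorem hby {s : St} (hs : Stt s) (h : Hk.HBY (Hk.Yo s.A)) : ∃ c, HBo s c := by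
  obtain ⟨t, f, tw, k, w, td, dj, sp⟩ := h
  have d := tw.desc' (s := s)
  have st := stt_desc hs d
  have e : Inn (f ⁻¹' s.A) = f ⁻¹' Inn s.A := Sup43.inn_desc d
  rw [← tw.cl] at dj sp
  have := dsc_sum (tw.upper inn_up) (e ▸ (good_inn st.toGood st.thick).mf) td dj sp
  rw [← e] at this
  exact ⟨_, ⟨t.P, f ⁻¹' s.A⟩, f, ∑ i, w i, d, ⟨this.1, this.2⟩, le_rfl⟩

end Crest.Agent.X212.Pt30
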