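import Crest.Agent.X212.Sf30.Tree

/-!
# Row 212, layer H (helper30): separation by circles, innermost disc, the tree of regions
-/

set_option autoImplicit false
set_option linter.unusedSectionVars false

open Finset Classical

noncomputable section

namespace Crest.Agent.X212.Sf30

open Crest.Agent.X212.Hp13 Alg36

variable {P : Type} [PartialOrder P] [Fintype P] {B G H E X : Set P}

theorem pr_if {a b : P} (ha : a ∈ G) (hb : b ∈ H) (h : Cm a b) : pr h ∈ If G H :=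
  ⟨⟨a, (mem_pr h).2 (Or.inl rfl), ha⟩, b, (mem_pr h).2 (Or.inr rfl), hb⟩

theorem two_le_if (h : Col B G H) {c : Ch P} (hc : c ∈ If G H) : 2 ≤ c.1.card :=
  let ⟨⟨a, ha, k⟩, b, hb, k'⟩ := hc
  one_lt_card.2 ⟨a, ha, b, hb, fun e => h.not k (e ▸ k')⟩

theorem card_faces_if (h : Col B G H) {t : Ch P} (ht : t ∈ If G H) (h3 : t.1.card = 3)
    (hn : ¬ Mt Bᶜ t) : (univ.filter fun e => e < t ∧ e ∈ If G H).card = 2 := by
  have h1 := sum_faces_if h ht
  have e1 : univ.filter (· ≤ t) = insert t (univ.filter (· < t)) := by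
    ext c
    simp only [mem_filter, mem_univ, true_and, mem_insert]
    rw [le_iff_eq_or_lt]
  rw [e1, sum_insert (by simp), iMt_not hn, iMt_of ht.1, iMt_of ht.2, Ch.sg, h3,
    sum_congr rfl (g := fun e => if e ∈ If G H then 1 else 0) fun e he => by
      by_cases k : e ∈ If G H
      · have := two_le_if h k
        have := Ch.card_lt (mem_filter.1 he).2
        rw [iMt_of k.1, iMt_of k.2, if_pos k, Ch.sg, show e.1.card = 2 by omega]; norm_num
      · rw [if_neg k]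
        rcases not_and_or.1 k with k | k <;> simp [iMt_not k], sum_boole, filter_filter] at h1
  omega

/-- **separation**: a family of circles in a disc or a sphere is the interface of a colouring -/
theorem sep (hB : Mf 2 B) (h : Col B G H) (hc : Conn B) (h1 : 1 ≤ eu B)
    (h2 : (mix B).Nonempty ∨ 2 ≤ eu B) {K : Set (Ch P)} (hK : K ⊆ If G H)
    (hcl : ∀ c ∈ K, ∀ e ∈ If G H, Cm c e → e ∈ K) (hn : ∀ c ∈ K, ¬ Mt Bᶜ c) :
    ∃ W ⊆ B, Inn B W ∧ If W (B \ W) = K := by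
  obtain ⟨W, hW, H1⟩ := bounds hB hc h1 h2 (univ.filter fun e => e ∈ K ∧ e.1.card = 2)
    (fun e he => ⟨mt_sub (hK (mem_filter.1 he).2.1).1 h.l, (mem_filter.1 he).2.2⟩) fun t => by
      by_cases k : ((univ.filter fun e : Ch P => e ∈ K ∧ e.1.card = 2).filter (· < t)).Nonempty
      · obtain ⟨e, he⟩ := k
        obtain ⟨a, b⟩ := mem_filter.1 he
        obtain ⟨a1, a2⟩ := (mem_filter.1 a).2
        have ti := if_upper b.le (hK a1)
        have tk := hcl e a1 t ti (Or.inl b.le)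
        have := Ch.card_lt b
        have := hB.card_le t (mt_sub ti.1 h.l)
        have k := card_faces_if h ti (by omega) (hn t tk)
        rw [show (univ.filter fun e : Ch P => e ∈ K ∧ e.1.card = 2).filter (· < t) =
          univ.filter fun e => e < t ∧ e ∈ If G H from ?_, k]
        · exact even_two
        ext f
        simp only [mem_filter, mem_univ, true_and]
        exact ⟨fun j => ⟨j.2, hK j.1.1⟩, fun j => ⟨⟨hcl t tk f j.2 (Or.inr j.1.le), by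
          have := two_le_if h j.2; have := Ch.card_lt j.1; omega⟩, j.1⟩⟩
      · rw [not_nonempty_iff_eq_empty.1 k]; simp
  have key : ∀ a ∈ B, ∀ x (j : Cm a x), a ≠ x → (pr j ∈ K ↔ pr j ∈ mix W) := fun a ha x j hn => by
    rw [← H1 _ ⟨a, (mem_pr j).2 (Or.inl rfl), ha⟩ (card_pr j hn)]
    simp [card_pr j hn]
  refine ⟨W, hW, fun a ha x j => by_contra fun k => ?_, Set.ext fun c => ⟨?_, fun k => ?_⟩⟩
  · exact hn _ ((key a (hW ha) x j fun e => k (e ▸ hW ha)).2 (pr_mix ha (fun i => k (hW i)) j))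
      ⟨x, (mem_pr j).2 (Or.inr rfl), k⟩
  · rintro ⟨⟨a, ha, k⟩, b, hb, k'⟩
    have := (key a (hW k) b (c.cm ha hb) fun e => k'.2 (e ▸ k)).2 (pr_mix k k'.2 _)
    exact hcl _ this c (if_upper (pr_le _ ha hb) (hK this)) (Or.inl (pr_le _ ha hb))
  · obtain ⟨⟨a, ha, j⟩, b, hb, j'⟩ := hK k
    obtain ⟨m1, x, hx, m2⟩ := (key a (h.l j) b (c.cm ha hb) fun e => h.not j (e ▸ j')).1
      (hcl c k _ (pr_if j j' _) (Or.inr (pr_le _ ha hb)))
    refine ⟨m1.mono (pr_le _ ha hb), x, pr_le _ ha hb hx, ?_, m2⟩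
    rcases (mem_pr _).1 hx with rfl | rfl
    exacts [h.l j, h.r j']

/-- the cell `c` lies on a closed curve of the interface -/
def Circ (B G H : Set P) (c : Ch P) : Prop :=
  c ∈ If G H ∧ ∀ c', Rch (If G H) c c' → ¬ Mt Bᶜ c'

theorem Circ.cl {c e : Ch P} (h : Circ B G H c) (he : e ∈ If G H) (hc : Cm c e) : Circ B G H e :=
  ⟨he, fun c' r => h.2 c' ((Rch.of_cm h.1 he hc).trans r)⟩

theorem isCmp_of (hX : X ⊆ E) (hne : X.Nonempty) (hc : Conn X)
    (hcl : ∀ a ∈ X, ∀ b ∈ E, Cm a b → b ∈ X) : IsCmp E X := by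
  obtain ⟨a, ha⟩ := hne
  refine ⟨a, hX ha, Set.ext fun b => ⟨fun k => ⟨hX k, (hc a ha b k).mono hX⟩, fun k => ?_⟩⟩
  exact (Rch.in_clopen hcl ha k.2).mem ha

theorem Reg.same {W V : Set P} (hX : Reg W V X) (h : Col B W V) {c : Ch P} (hc : c ∉ If W V)
    {a b : P} (ha : a ∈ c.1) (hb : b ∈ c.1) (k : a ∈ X) (k' : b ∈ B) : b ∈ X := by
  rcases hX with hX | hX
  · exact hX.clopen k ((h.cases k').resolve_right fun j =>
      hc ⟨⟨a, ha, hX.sub k⟩, b, hb, j⟩) (c.cm ha hb)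
  · exact hX.clopen k ((h.cases k').resolve_left fun j =>
      hc ⟨⟨b, hb, j⟩, a, ha, hX.sub k⟩) (c.cm ha hb)

theorem Reg.not_if {W V : Set P} (hX : Reg W V X) (h : Col B W V) {c : Ch P}
    (hc : ∀ x ∈ c.1, x ∈ X) : c ∉ If W V := fun ⟨⟨a, ha, k⟩, b, hb, k'⟩ =>
  hX.elim (fun j => h.not (j.sub (hc b hb)) k') fun j => h.not k (j.sub (hc a ha))

/-- **innermost disc**: if a disc or sphere contains a closed interface curve, some region is a
disc in the interior -/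
theorem inn_disc (hB : Mf 2 B) (h : Col B G H) (hc : Conn B) (h1 : 1 ≤ eu B)
    (h2 : (mix B).Nonempty ∨ 2 ≤ eu B) {c₀ : Ch P} (h0 : Circ B G H c₀) :
    ∃ X, Reg G H X ∧ eu X = 1 ∧ Inn B X := by
  obtain ⟨W, hW, -, e⟩ := sep hB h hc h1 h2 (K := {c | Circ B G H c}) (fun _ k => k.1)
    (fun _ k _ j i => k.cl j i) fun c k => k.2 c Rch.rfl
  have cw := col_diff hW
  have m : ∀ c, c ∈ If W (B \ W) ↔ Circ B G H c := fun c => by rw [e]; rfl
  obtain ⟨⟨a0, -, a1⟩, b0, -, b1⟩ := (m c₀).2 h0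
  obtain ⟨X, r, k, i⟩ := inn_circ hB cw hc ⟨a0, a1⟩ ⟨b0, b1⟩ h1
    fun c j => ((m c).1 j).2 c Rch.rfl
  refine ⟨X, ?_, k, i⟩
  have mono : ∀ u ∈ X, ∀ v ∈ X, Cm u v → u ∈ G → v ∉ H := fun u hu v hv j g g' => by
    have n1 : ¬ Circ B G H (pr j) := fun t => r.not_if cw (fun x hx => by
      rcases (mem_pr j).1 hx with rfl | rfl <;> assumption) ((m _).2 t)
    refine n1 ⟨pr_if g g' j, fun c' rc ⟨x, hx, kx⟩ => ?_⟩
    have : Mt X c' ∧ ¬ Circ B G H c' := rc.ind (p := fun t => Mt X t ∧ ¬ Circ B G H t)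
      ⟨⟨u, (mem_pr j).2 (Or.inl rfl), hu⟩, n1⟩ fun s hs t ht hst =>
        ⟨fun z => ⟨z.1.mono hst, fun y => z.2 (y.cl hs (Or.inr hst))⟩, fun z => ⟨by
          obtain ⟨a, ha, ka⟩ := z.1
          obtain ⟨b, hb, kb⟩ := hs.1
          exact ⟨b, hb, r.same cw (fun y => z.2 ((m t).1 y)) ha (hst hb) ka (h.l kb)⟩,
          fun y => z.2 (y.cl ht (Or.inl hst))⟩⟩
    obtain ⟨a, ha, ka⟩ := this.1
    exact kx (i a ka x (c'.cm ha hx))
  have fin : ∀ {G' H' : Set P}, Col B G' H' → If G' H' = If G H → X ⊆ G' → IsCmp G' X :=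
    fun h' e' s => isCmp_of s r.ne r.conn fun a ha b hb j =>
      r.same cw (c := pr j) (fun y => by
        obtain ⟨x, hx, kx⟩ := (e' ▸ ((m _).1 y).1 : pr j ∈ If _ _).2
        rcases (mem_pr j).1 hx with rfl | rfl
        exacts [h'.not (s ha) kx, h'.not hb kx]) ((mem_pr j).2 (Or.inl rfl))
        ((mem_pr j).2 (Or.inr rfl)) ha (h'.l hb)
  obtain ⟨a, ha⟩ := r.ne
  have all : ∀ b ∈ X, (a ∈ G ↔ b ∈ G) := fun b hb => (r.conn a ha b hb).ind
    (p := fun t => a ∈ G ↔ t ∈ G) Iff.rfl fun u hu v hv huv => by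
      have : u ∈ G ↔ v ∈ G :=
        ⟨fun g => (h.cases (r.sub cw hv)).resolve_right (mono u hu v hv (Or.inl huv) g),
          fun g => (h.cases (r.sub cw hu)).resolve_right (mono v hv u hu (Or.inr huv) g)⟩
      rw [this]
  by_cases g : a ∈ G
  · exact Or.inl (fin h rfl fun b hb => (all b hb).1 g)
  · exact Or.inr (fin h.symm if_comm fun b hb =>
      (h.cases (r.sub cw hb)).resolve_left fun j => g ((all b hb).2 j))

/-- the boundary of an interior disc region is one interface curve -/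
theorem Reg.isCmp_mix (hX : Reg G H X) (hB : Mf 2 B) (h : Col B G H) (h1 : eu X = 1)
    (hi : Inn B X) (hne : (Alg36.mix X).Nonempty) : IsCmp (If G H) (Alg36.mix X) := by
  refine isCmp_of (fun c hc => (hX.mix_cases h hc).resolve_right fun ⟨x, hx, k⟩ => ?_) hne
    (conn_mix2 (hB.mono (hX.sub h)) hX.conn h1.ge) fun c hc e he j => hX.mix h he ?_
  · obtain ⟨a, ha, ka⟩ := hc.1
    exact k (hi a ka x (c.cm ha hx))
  · rcases j with j | j
    · exact hc.1.mono j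
    obtain ⟨a, ha, ka⟩ := hc.1
    rcases hX with hX | hX
    · obtain ⟨b, hb, kb⟩ := he.1
      exact ⟨b, hb, hX.clopen ka kb (c.cm ha (j hb))⟩
    · obtain ⟨b, hb, kb⟩ := he.2
      exact ⟨b, hb, hX.clopen ka kb (c.cm ha (j hb))⟩

theorem cmp_mt_rch (hX : IsCmp G X) {c c' : Ch P} (r : Rch (If G H) c c') (h : Mt X c) :
    Mt X c' :=
  r.ind h fun _ hs t _ hst => ⟨fun z => z.mono hst, fun ⟨_, ha, ka⟩ =>
    let ⟨b, hb, kb⟩ := hs.1; ⟨b, hb, hX.clopen ka kb (t.cm ha (hst hb))⟩⟩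

/-- a region meets all cells of an interface curve or none -/
theorem Reg.mt_rch (hX : Reg G H X) {c c' : Ch P} (r : Rch (If G H) c c') (h : Mt X c) :
    Mt X c' :=
  hX.elim (fun k => cmp_mt_rch k r h) fun k => cmp_mt_rch k (if_comm (G := G) (H := H) ▸ r) h

theorem exists_sd (G H : Set P) : ∃ s : Set (Ch P) → Set P, ∀ κ, IsCmp (If G H) κ →
    IsCmp G (s κ) ∧ ∀ c ∈ κ, Mt (s κ) c := by
  have : ∀ κ : Set (Ch P), ∃ X, IsCmp (If G H) κ → IsCmp G X ∧ ∀ c ∈ κ, Mt X c := fun κ => by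
    by_cases k : IsCmp (If G H) κ
    · obtain ⟨c, hc⟩ := k.ne
      obtain ⟨X, a, b⟩ := mt_cmp (k.sub hc).1
      exact ⟨X, fun _ => ⟨a, fun e he => cmp_mt_rch a ((k.conn c hc e he).mono k.sub) b⟩⟩
    · exact ⟨∅, fun j => absurd j k⟩
  exact ⟨fun κ => (this κ).choose, fun κ => (this κ).choose_spec⟩

theorem card_reg_le (h : Col B G H) (hc : Conn B) :
    (cs G ∪ cs H).card ≤ (cs (If G H)).card + 1 := by
  obtain ⟨s, hs⟩ := exists_sd G H
  obtain ⟨t, ht⟩ := exists_sd H G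
  rw [if_comm] at ht
  refine card_le_of_conn _ _ s t (fun κ k => mem_reg.2 (Or.inl (hs κ (mem_cs.1 k)).1))
    (fun κ k => mem_reg.2 (Or.inr (ht κ (mem_cs.1 k)).1)) fun g hg => ?_
  let f : P → ZMod 2 := fun a => if a ∈ G then g (cmp G a) else g (cmp H a)
  have f1 : ∀ a ∈ G, f a = g (cmp G a) := fun a ha => if_pos ha
  have f2 : ∀ a ∈ H, f a = g (cmp H a) := fun a ha => if_neg (h.symm.not ha)
  have x : ∀ a ∈ G, ∀ b ∈ H, Cm a b → f a = f b := fun a ha b hb j => by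
    have k := isCmp_cmp (pr_if ha hb j)
    have m := mem_cmp_self (pr_if ha hb j)
    rw [f1 a ha, f2 b hb, ← cmp_uniq (hs _ k).1 (isCmp_cmp ha) ((hs _ k).2 _ m)
      ⟨a, (mem_pr j).2 (Or.inl rfl), mem_cmp_self ha⟩, ← cmp_uniq (ht _ k).1 (isCmp_cmp hb)
      ((ht _ k).2 _ m) ⟨b, (mem_pr j).2 (Or.inr rfl), mem_cmp_self hb⟩]
    exact hg _ (mem_cs.2 k)
  have y : ∀ a ∈ B, ∀ b ∈ B, f a = f b := fun a ha b hb => (hc a ha b hb).eq fun u hu v hv j => by
    rcases h.cases hu with p | p <;> rcases h.cases hv with q | q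
    · rw [f1 u p, f1 v q, cmp_eq (Rch.of_cm p q (Or.inl j))]
    · exact x u p v q (Or.inl j)
    · exact (x v q u p (Or.inr j)).symm
    · rw [f2 u p, f2 v q, cmp_eq (Rch.of_cm p q (Or.inl j))]
  have w : ∀ X ∈ cs G ∪ cs H, ∃ a ∈ B, g X = f a := fun X hX => by
    rcases mem_reg.1 hX with ⟨a, ha, rfl⟩ | ⟨a, ha, rfl⟩
    exacts [⟨a, h.l ha, (f1 a ha).symm⟩, ⟨a, h.r ha, (f2 a ha).symm⟩]
  intro X hX Y hY
  obtain ⟨a, ha, e⟩ := w X hX
  obtain ⟨b, hb, e'⟩ := w Y hY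
  rw [e, e', y a ha b hb]

/-- no closed interface curve -/
def NoC (B G H : Set P) : Prop := ∀ c, ¬ Circ B G H c

theorem two_wt_cmp (hB : Mf 2 B) (h : Col B G H) {κ : Set (Ch P)} (k : IsCmp (If G H) κ) :
    2 * wt κ = en B κ := two_wt hB h k.sub fun _ a _ b j => k.clopen a b j

theorem NoC.wt_pos (hn : NoC B G H) (hB : Mf 2 B) (h : Col B G H) {κ : Set (Ch P)}
    (k : IsCmp (If G H) κ) : 1 ≤ wt κ := by
  have h1 := two_wt_cmp hB h k
  obtain ⟨c, hc⟩ := k.ne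
  have : 0 < en B κ := by
    by_contra j
    refine hn c ⟨k.sub hc, fun c' r m => j (card_pos.2 ⟨c', mem_filter.2 ⟨mem_univ _, ?_, m⟩⟩)⟩
    rw [k.eq hc]
    exact ⟨r.mem (k.sub hc), r⟩
  omega

theorem sum_wt (K : Set (Ch P)) : ∑ κ ∈ cs K, wt κ = wt K := by
  simp only [wt, sum_neg_distrib, sum_cs]

/-- **tree**: a disc cut along arcs -/
theorem tree (hB : Mf 2 B) (h : Col B G H) (hc : Conn B) (hG : G.Nonempty) (hH : H.Nonempty)
    (h1 : 1 ≤ eu B) (hn : NoC B G H) :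
    (∀ X, Reg G H X → eu X = 1) ∧ (cs G ∪ cs H).card = (cs (If G H)).card + 1 ∧
      ∀ κ, IsCmp (If G H) κ → wt κ = 1 ∧ en B κ = 2 := by
  have a1 := sum_reg hB h
  have a2 := card_reg_le h hc
  have a3 : ∑ κ ∈ cs (If G H), (wt κ - 1) = wt (If G H) - (cs (If G H)).card := by
    rw [sum_sub_distrib, sum_wt]; simp
  have a4 : ∑ X ∈ cs G ∪ cs H, (1 - eu X) = (cs G ∪ cs H).card - (eu B + wt (If G H)) := by
    rw [sum_sub_distrib, a1]; simp
  have p3 : ∀ κ ∈ cs (If G H), 0 ≤ wt κ - 1 := fun κ k => by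
    have := hn.wt_pos hB h (mem_cs.1 k); omega
  have p4 : ∀ X ∈ cs G ∪ cs H, 0 ≤ 1 - eu X := fun X k => by
    have := (mem_reg.1 k).eu_le hB h hc hG hH; omega
  have q3 := sum_nonneg p3
  have q4 := sum_nonneg p4
  refine ⟨fun X k => ?_, by omega, fun κ k => ?_⟩
  · have := (sum_eq_zero_iff_of_nonneg p4).1 (by omega) X (mem_reg.2 k); omega
  · have := (sum_eq_zero_iff_of_nonneg p3).1 (by omega) κ (mem_cs.2 k)
    have := two_wt_cmp hB h k
    omega

/-- the region touches one interface curve only -/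
def Lf (G H X : Set P) : Prop :=
  ∀ c ∈ If G H, ∀ c' ∈ If G H, Mt X c → Mt X c' → Rch (If G H) c c'

/-- **outermost regions** -/
theorem leaves (h : Col B G H) (hc : Conn B) (hG : G.Nonempty) (hH : H.Nonempty)
    (hr : (cs (If G H)).card + 1 ≤ (cs G ∪ cs H).card) :
    ∃ X Y, X ≠ Y ∧ Reg G H X ∧ Reg G H Y ∧ Lf G H X ∧ Lf G H Y := by
  obtain ⟨s, hs⟩ := exists_sd G H
  obtain ⟨t, ht⟩ := exists_sd H G
  rw [if_comm] at ht
  let dg : Set P → ℕ := fun X => ((cs (If G H)).filter fun κ => ∃ c ∈ κ, Mt X c).card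
  have k : ∀ {G' : Set P} {u : Set (Ch P) → Set P},
      (∀ κ, IsCmp (If G H) κ → IsCmp G' (u κ) ∧ ∀ c ∈ κ, Mt (u κ) c) →
      ∑ X ∈ cs G', dg X = (cs (If G H)).card := fun {G' u} hu => by
    rw [card_eq_sum_card_fiberwise (f := u) (t := cs G')
      fun κ k => mem_coe.2 (mem_cs.2 (hu κ (mem_cs.1 k)).1)]
    refine sum_congr rfl fun X hX => ?_
    simp only [dg]
    congr 1
    ext κ
    simp only [mem_filter]
    refine and_congr_right fun k => ?_
    have k := mem_cs.1 k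
    exact ⟨fun ⟨c, a, b⟩ => cmp_uniq (hu κ k).1 (mem_cs.1 hX) ((hu κ k).2 c a) b,
      fun e => let ⟨c, a⟩ := k.ne; ⟨c, a, e ▸ (hu κ k).2 c a⟩⟩
  have s1 : ∑ X ∈ cs G ∪ cs H, dg X = 2 * (cs (If G H)).card := by
    rw [sum_union (cs_disj h), k hs, k ht]; ring
  have s2 : ∑ X ∈ cs G ∪ cs H, 2 ≤
      ∑ X ∈ cs G ∪ cs H, (dg X + if dg X = 1 then 1 else 0) := sum_le_sum fun X hX => by
    obtain ⟨c, a, b⟩ := (mem_reg.1 hX).exists_if h hc hG hH
    have : 0 < dg X := card_pos.2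
      ⟨_, mem_filter.2 ⟨mem_cs.2 (isCmp_cmp a), c, mem_cmp_self a, b⟩⟩
    split_ifs <;> omega
  rw [sum_add_distrib, s1, ← card_filter, sum_const, smul_eq_mul] at s2
  obtain ⟨X, hX, Y, hY, hn⟩ := one_lt_card.1
    (show 1 < ((cs G ∪ cs H).filter fun X => dg X = 1).card by omega)
  have l : ∀ X, dg X = 1 → Lf G H X := fun X e c a c' a' b b' => by
    have := card_le_one.1 e.le _ (mem_filter.2 ⟨mem_cs.2 (isCmp_cmp a), c, mem_cmp_self a, b⟩) _
      (mem_filter.2 ⟨mem_cs.2 (isCmp_cmp a'), c', mem_cmp_self a', b'⟩)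
    exact (this ▸ mem_cmp_self a' : c' ∈ Hp13.cmp _ c).2
  exact ⟨X, Y, hn, mem_reg.1 (mem_filter.1 hX).1, mem_reg.1 (mem_filter.1 hY).1,
    l X (mem_filter.1 hX).2, l Y (mem_filter.1 hY).2⟩

end Crest.Agent.X212.Sf30
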