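import Crest.Agent.X212.Sf30.Eul

/-!
# Row 212, layer H (helper30): components, frontiers, additivity of `chi`
-/

set_option autoImplicit false
set_option linter.unusedSectionVars false

open Finset

namespace Crest.Agent.X212.Sf30

namespace Inc

variable {F E V : Type} [DecidableEq F] [DecidableEq E] [DecidableEq V] (C : Inc F E V)

/-- `v` is a vertex of the 2-cell `f` -/
def fv (f : F) (v : V) : Prop := ∃ e ∈ C.b2 f, v ∈ C.b1 e

/-- the 2-cells at each vertex are connected through edges at the vertex -/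
def Tame (U : Finset F) : Prop :=
  ∀ v, ∀ p : F → Prop,
    (∀ f ∈ U, ∀ f' ∈ U, ∀ e ∈ C.b2 f, e ∈ C.b2 f' → v ∈ C.b1 e → p f → p f') →
    ∀ f ∈ U, ∀ f' ∈ U, C.fv f v → C.fv f' v → p f → p f'

/-- the frontier of `W` in `D`: edges with a 2-cell in `W` and one outside -/
def fr (D W : Finset F) : Finset E := C.ed W ∩ C.ed (D \ W)

/-- adjacency in `U` through an edge outside `Γ` -/
def Adj (U : Finset F) (Γ : Finset E) (f f' : F) : Prop :=
  f ∈ U ∧ f' ∈ U ∧ ∃ e ∈ C.b2 f, e ∈ C.b2 f' ∧ e ∉ Γ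

open Classical in
/-- the piece of `U` cut along `Γ` that contains `f` -/
noncomputable def pc (U : Finset F) (Γ : Finset E) (f : F) : Finset F :=
  U.filter fun g => Relation.ReflTransGen (C.Adj U Γ) f g

/-- adjacency of edges -/
def Adj1 (Z : Finset E) (e e' : E) : Prop := e ∈ Z ∧ e' ∈ Z ∧ ∃ v ∈ C.b1 e, v ∈ C.b1 e'

open Classical in
/-- the component of a graph that contains `e` -/
noncomputable def cp1 (Z : Finset E) (e : E) : Finset E :=
  Z.filter fun g => Relation.ReflTransGen (C.Adj1 Z) e g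

variable {C}

theorem mem_fr {D W : Finset F} {e : E} :
    e ∈ C.fr D W ↔ (∃ f ∈ W, e ∈ C.b2 f) ∧ ∃ f ∈ D, f ∉ W ∧ e ∈ C.b2 f := by
  simp only [fr, mem_inter, mem_ed, mem_sdiff, and_assoc]

theorem fr_sdiff {D W : Finset F} (h : W ⊆ D) : C.fr D (D \ W) = C.fr D W := by
  rw [fr, fr, Finset.sdiff_sdiff_eq_self h, inter_comm]

theorem mem_vs_ed {U : Finset F} {v : V} : v ∈ C.vs (C.ed U) ↔ ∃ f ∈ U, C.fv f v := by
  simp only [mem_vs, mem_ed, fv]
  constructor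
  · rintro ⟨e, ⟨f, hf, he⟩, hv⟩; exact ⟨f, hf, e, he, hv⟩
  · rintro ⟨f, hf, e, he, hv⟩; exact ⟨e, ⟨f, hf, he⟩, hv⟩

theorem Adj.symm {U : Finset F} {Γ : Finset E} {f f' : F} (h : C.Adj U Γ f f') : C.Adj U Γ f' f := by
  obtain ⟨a, b, e, c, d, g⟩ := h
  exact ⟨b, a, e, d, c, g⟩

theorem Adj1.symm {Z : Finset E} {e e' : E} (h : C.Adj1 Z e e') : C.Adj1 Z e' e := by
  obtain ⟨a, b, v, c, d⟩ := h
  exact ⟨b, a, v, d, c⟩

theorem rtg_symm {α : Type} {r : α → α → Prop} (hr : ∀ a b, r a b → r b a) {a b : α}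
    (h : Relation.ReflTransGen r a b) : Relation.ReflTransGen r b a := by
  induction h with
  | refl => exact .refl
  | tail _ h ih => exact .head (hr _ _ h) ih

theorem mem_pc {U : Finset F} {Γ : Finset E} {f g : F} :
    g ∈ C.pc U Γ f ↔ g ∈ U ∧ Relation.ReflTransGen (C.Adj U Γ) f g := by
  simp [pc]

theorem mem_cp1 {Z : Finset E} {e g : E} :
    g ∈ C.cp1 Z e ↔ g ∈ Z ∧ Relation.ReflTransGen (C.Adj1 Z) e g := by
  simp [cp1]

theorem pc_subset (U : Finset F) (Γ : Finset E) (f : F) : C.pc U Γ f ⊆ U :=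
  fun _ h => (mem_pc.1 h).1

theorem cp1_subset (Z : Finset E) (e : E) : C.cp1 Z e ⊆ Z := fun _ h => (mem_cp1.1 h).1

theorem self_mem_pc {U : Finset F} {Γ : Finset E} {f : F} (hf : f ∈ U) : f ∈ C.pc U Γ f :=
  mem_pc.2 ⟨hf, .refl⟩

theorem self_mem_cp1 {Z : Finset E} {e : E} (he : e ∈ Z) : e ∈ C.cp1 Z e := mem_cp1.2 ⟨he, .refl⟩

theorem pc_step {U : Finset F} {Γ : Finset E} {f g g' : F} {e : E} (hg : g ∈ C.pc U Γ f)
    (hg' : g' ∈ U) (he : e ∈ C.b2 g) (he' : e ∈ C.b2 g') (hΓ : e ∉ Γ) : g' ∈ C.pc U Γ f :=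
  mem_pc.2 ⟨hg', (mem_pc.1 hg).2.tail ⟨(mem_pc.1 hg).1, hg', e, he, he', hΓ⟩⟩

theorem cp1_step {Z : Finset E} {e g g' : E} {v : V} (hg : g ∈ C.cp1 Z e) (hg' : g' ∈ Z)
    (hv : v ∈ C.b1 g) (hv' : v ∈ C.b1 g') : g' ∈ C.cp1 Z e :=
  mem_cp1.2 ⟨hg', (mem_cp1.1 hg).2.tail ⟨(mem_cp1.1 hg).1, hg', v, hv, hv'⟩⟩

theorem pc_eq {U : Finset F} {Γ : Finset E} {f g : F} (hg : g ∈ C.pc U Γ f) :
    C.pc U Γ g = C.pc U Γ f := by
  ext a
  simp only [mem_pc]
  exact ⟨fun h => ⟨h.1, (mem_pc.1 hg).2.trans h.2⟩,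
    fun h => ⟨h.1, (rtg_symm (fun _ _ => Adj.symm) (mem_pc.1 hg).2).trans h.2⟩⟩

theorem cp1_eq {Z : Finset E} {e g : E} (hg : g ∈ C.cp1 Z e) : C.cp1 Z g = C.cp1 Z e := by
  ext a
  simp only [mem_cp1]
  exact ⟨fun h => ⟨h.1, (mem_cp1.1 hg).2.trans h.2⟩,
    fun h => ⟨h.1, (rtg_symm (fun _ _ => Adj1.symm) (mem_cp1.1 hg).2).trans h.2⟩⟩

/-- induction along a piece -/
theorem pc_ind {U : Finset F} {Γ : Finset E} {f : F} (p : F → Prop) (h0 : p f)
    (hs : ∀ g ∈ C.pc U Γ f, ∀ g' ∈ C.pc U Γ f, ∀ e ∈ C.b2 g, e ∈ C.b2 g' → e ∉ Γ → p g → p g') :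
    ∀ g ∈ C.pc U Γ f, p g := by
  intro g hg
  obtain ⟨hU, h⟩ := mem_pc.1 hg
  clear hg
  induction h with
  | refl => exact h0
  | tail h1 h2 ih =>
    obtain ⟨a, b, e, c, d, g⟩ := h2
    exact hs _ (mem_pc.2 ⟨a, h1⟩) _ (mem_pc.2 ⟨b, h1.tail ⟨a, b, e, c, d, g⟩⟩) e c d g (ih a)

theorem cp1_ind {Z : Finset E} {e : E} (p : E → Prop) (h0 : p e)
    (hs : ∀ g ∈ C.cp1 Z e, ∀ g' ∈ C.cp1 Z e, ∀ v ∈ C.b1 g, v ∈ C.b1 g' → p g → p g') :
    ∀ g ∈ C.cp1 Z e, p g := by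
  intro g hg
  obtain ⟨hU, h⟩ := mem_cp1.1 hg
  clear hg
  induction h with
  | refl => exact h0
  | tail h1 h2 ih =>
    obtain ⟨a, b, v, c, d⟩ := h2
    exact hs _ (mem_cp1.2 ⟨a, h1⟩) _ (mem_cp1.2 ⟨b, h1.tail ⟨a, b, v, c, d⟩⟩) v c d (ih a)

theorem con_pc (U : Finset F) (Γ : Finset E) (f : F) : C.Con (C.pc U Γ f) := by
  intro p hp g hg g' hg' hpg
  rw [← pc_eq hg] at hp hg'
  exact pc_ind p hpg (fun a ha a' ha' e he he' _ => hp a ha a' ha' e he he') g' hg'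

theorem con1_cp1 (Z : Finset E) (e : E) : C.Con1 (C.cp1 Z e) := by
  intro p hp g hg g' hg' hpg
  rw [← cp1_eq hg] at hp hg'
  exact cp1_ind p hpg hp g' hg'

theorem st_cp1 {Z : Finset E} {e : E} {v : V} (hv : v ∈ C.vs (C.cp1 Z e)) :
    C.st (C.cp1 Z e) v = C.st Z v := by
  obtain ⟨g, hg, hvg⟩ := mem_vs.1 hv
  ext a
  simp only [mem_st]
  exact ⟨fun h => ⟨cp1_subset _ _ h.1, h.2⟩, fun h => ⟨cp1_step hg h.1 hvg h.2, h.2⟩⟩

theorem st_eq_empty {Z : Finset E} {v : V} (hv : v ∉ C.vs Z) : C.st Z v = ∅ := by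
  rw [eq_empty_iff_forall_notMem]
  intro e he
  exact hv (mem_vs.2 ⟨e, (mem_st.1 he).1, (mem_st.1 he).2⟩)

theorem st_mono {Z Z' : Finset E} (h : Z ⊆ Z') (v : V) : C.st Z v ⊆ C.st Z' v :=
  fun _ he => mem_st.2 ⟨h (mem_st.1 he).1, (mem_st.1 he).2⟩

theorem fr_pc (U : Finset F) (Γ : Finset E) (f : F) : C.fr U (C.pc U Γ f) ⊆ Γ := by
  intro e he
  obtain ⟨⟨g, hg, h1⟩, g', hg', hn, h2⟩ := mem_fr.1 he
  by_contra hΓ
  exact hn (pc_step hg hg' h1 h2 hΓ)

/-- a part without frontier of a connected surface is empty or everything -/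
theorem Con.eq_of_fr {D W : Finset F} (hc : C.Con D) (hW : W ⊆ D) (h : C.fr D W = ∅)
    (hne : W.Nonempty) : W = D := by
  obtain ⟨f, hf⟩ := hne
  refine Subset.antisymm hW fun g hg => hc (fun a => a ∈ W) ?_ f (hW hf) g hg hf
  intro a _ a' ha' e he he' haW
  by_contra hn
  have : e ∈ C.fr D W := mem_fr.2 ⟨⟨a, haW, he⟩, a', ha', hn, he'⟩
  rw [h] at this
  exact notMem_empty _ this

/-- off the frontier, all 2-cells at a vertex are on one side -/
theorem Tame.side {D W : Finset F} (ht : C.Tame D) {v : V} (hv : v ∉ C.vs (C.fr D W)) {f f' : F}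
    (hf : f ∈ D) (hf' : f' ∈ D) (h1 : C.fv f v) (h2 : C.fv f' v) (hW : f ∈ W) : f' ∈ W := by
  refine ht v (fun a => a ∈ W) ?_ f hf f' hf' h1 h2 hW
  intro a _ a' ha' e he he' hve haW
  by_contra hn
  exact hv (mem_vs.2 ⟨e, mem_fr.2 ⟨⟨a, haW, he⟩, a', ha', hn, he'⟩, hve⟩)

theorem co_split {D W : Finset F} (hW : W ⊆ D) (e : E) :
    (C.co W e).card + (C.co (D \ W) e).card = (C.co D e).card := by
  rw [← card_union_of_disjoint]
  · congr 1
    ext f
    simp only [mem_union, mem_co, mem_sdiff]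
    constructor
    · rintro (h | h)
      · exact ⟨hW h.1, h.2⟩
      · exact ⟨h.1.1, h.2⟩
    · intro h
      by_cases hf : f ∈ W
      · exact Or.inl ⟨hf, h.2⟩
      · exact Or.inr ⟨⟨h.1, hf⟩, h.2⟩
  · rw [disjoint_left]
    intro f h1 h2
    exact (mem_sdiff.1 (mem_co.1 h2).1).2 (mem_co.1 h1).1

theorem Srf.mem_fr {D W : Finset F} (h : C.Srf D) (hW : W ⊆ D) {e : E} :
    e ∈ C.fr D W ↔ e ∈ C.bd W ∧ e ∉ C.bd D := by
  have h1 := co_split (C := C) hW e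
  have h2 := h.le2 e
  rw [mem_bd, mem_bd, fr, mem_inter]
  constructor
  · rintro ⟨a, b⟩
    have := co_pos a
    have := co_pos b
    omega
  · rintro ⟨a, b⟩
    constructor
    · by_contra hn
      have := co_zero hn
      omega
    · by_contra hn
      have := co_zero hn
      omega

theorem Srf.mem_bd_sub {D W : Finset F} (h : C.Srf D) (hW : W ⊆ D) {e : E} :
    e ∈ C.bd W ↔ e ∈ C.fr D W ∨ (e ∈ C.bd D ∧ e ∈ C.ed W) := by
  rw [h.mem_fr hW]
  have h1 := co_split (C := C) hW e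
  constructor
  · intro a
    by_cases b : e ∈ C.bd D
    · exact Or.inr ⟨b, bd_subset _ a⟩
    · exact Or.inl ⟨a, b⟩
  · rintro (a | ⟨a, b⟩)
    · exact a.1
    · have := co_pos b
      rw [mem_bd] at a ⊢
      omega

/-- the two 2-cells at a frontier edge -/
theorem Srf.fr_unique {D W : Finset F} (h : C.Srf D) (hW : W ⊆ D) {e : E} (he : e ∈ C.fr D W)
    {f f' : F} (hf : f ∈ W) (hf' : f' ∈ W) (h1 : e ∈ C.b2 f) (h2 : e ∈ C.b2 f') : f = f' := by
  have := mem_bd.1 ((h.mem_fr hW).1 he).1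
  exact card_le_one.1 this.le f (mem_co.2 ⟨hf, h1⟩) f' (mem_co.2 ⟨hf', h2⟩)

theorem ed_union (U W : Finset F) : C.ed (U ∪ W) = C.ed U ∪ C.ed W := by
  simp [ed, union_biUnion]

theorem vs_union (Z Z' : Finset E) : C.vs (Z ∪ Z') = C.vs Z ∪ C.vs Z' := by
  simp [vs, union_biUnion]

/-- **additivity** -/
theorem chi_split {D W : Finset F} (ht : C.Tame D) (hW : W ⊆ D) :
    C.chi D + C.chi1 (C.fr D W) = C.chi W + C.chi (D \ W) := by
  have h1 : C.ed D = C.ed W ∪ C.ed (D \ W) := by rw [← ed_union, union_sdiff_of_subset hW]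
  have h2 : C.vs (C.fr D W) = C.vs (C.ed W) ∩ C.vs (C.ed (D \ W)) := by
    apply Subset.antisymm
    · exact subset_inter (vs_mono inter_subset_left) (vs_mono inter_subset_right)
    · intro v hv
      obtain ⟨a, b⟩ := mem_inter.1 hv
      obtain ⟨f, hf, a⟩ := mem_vs_ed.1 a
      obtain ⟨f', hf', b⟩ := mem_vs_ed.1 b
      by_contra hn
      exact (mem_sdiff.1 hf').2 (ht.side hn (hW hf) (mem_sdiff.1 hf').1 a b hf)
  have h3 := card_union_add_card_inter (C.ed W) (C.ed (D \ W))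
  have h4 := card_union_add_card_inter (C.vs (C.ed W)) (C.vs (C.ed (D \ W)))
  have h5 := card_sdiff_add_card_eq_card hW
  unfold chi chi1
  rw [h2, h1, vs_union]
  unfold fr
  omega

theorem sum_st {Z : Finset E} (h2 : ∀ e ∈ Z, (C.b1 e).card = 2) :
    ∑ v ∈ C.vs Z, (C.st Z v).card = 2 * Z.card := by
  simp only [st, card_filter]
  rw [sum_comm, mul_comm, ← smul_eq_mul, ← sum_const]
  refine sum_congr rfl fun e he => ?_
  rw [← card_filter, ← h2 e he]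
  congr 1
  ext v
  simp only [mem_filter, and_iff_right_iff_imp]
  exact fun hv => mem_vs.2 ⟨e, he, hv⟩

theorem st_pos {Z : Finset E} {v : V} (hv : v ∈ C.vs Z) : 0 < (C.st Z v).card := by
  obtain ⟨e, he, hv⟩ := mem_vs.1 hv
  exact card_pos.2 ⟨e, mem_st.2 ⟨he, hv⟩⟩

/-- the ends of a graph -/
def en (C : Inc F E V) (Z : Finset E) : Finset V := (C.vs Z).filter fun v => (C.st Z v).card = 1

theorem mem_en {Z : Finset E} {v : V} : v ∈ C.en Z ↔ (C.st Z v).card = 1 := by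
  simp only [en, mem_filter, and_iff_right_iff_imp]
  intro h
  by_contra hn
  rw [st_eq_empty hn] at h
  simp at h

/-- for a 1-manifold, twice the Euler characteristic is the number of ends -/
theorem chi1_eq {Z : Finset E} (h2 : ∀ e ∈ Z, (C.b1 e).card = 2) (hd : ∀ v, (C.st Z v).card ≤ 2) :
    2 * C.chi1 Z = (C.en Z).card := by
  have h1 := sum_st h2
  have h3 : ∑ v ∈ C.vs Z, ((C.st Z v).card + if (C.st Z v).card = 1 then 1 else 0) =
      ∑ _v ∈ C.vs Z, 2 := by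
    refine sum_congr rfl fun v hv => ?_
    have := st_pos hv
    have := hd v
    split_ifs <;> omega
  rw [sum_add_distrib, ← card_filter, sum_const, smul_eq_mul] at h3
  unfold chi1 en
  omega

theorem chi1_cyc {Z : Finset E} (h2 : ∀ e ∈ Z, (C.b1 e).card = 2) (hd : ∀ v, (C.st Z v).card ≤ 2)
    (hz : C.Cyc Z) : C.chi1 Z = 0 := by
  have h := chi1_eq h2 hd
  have : C.en Z = ∅ := by
    rw [eq_empty_iff_forall_notMem]
    intro v hv
    have := hz v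
    rw [mem_en.1 hv] at this
    exact absurd this (by decide)
  rw [this] at h
  simp only [card_empty, Nat.cast_zero] at h
  omega

theorem chi1_arc {Z : Finset E} (h2 : ∀ e ∈ Z, (C.b1 e).card = 2) (hd : ∀ v, (C.st Z v).card ≤ 2)
    (hc : C.Con1 Z) (hz : ¬ C.Cyc Z) : C.chi1 Z = 1 ∧ (C.en Z).card = 2 := by
  have h := chi1_eq h2 hd
  have h1 := chi1_le h2 hc
  have : (C.en Z).Nonempty := by
    by_contra hn
    apply hz
    intro v
    have h3 : (C.st Z v).card ≠ 1 := fun h => hn ⟨v, mem_en.2 h⟩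
    have := hd v
    have : (C.st Z v).card = 0 ∨ (C.st Z v).card = 2 := by omega
    rcases this with h | h <;> rw [h] <;> decide
  have := card_pos.2 this
  omega

end Inc

end Crest.Agent.X212.Sf30
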