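import Crest.Agent.X212.Sf30.Lin

/-!
# Row 212, layer H (helper30): abstract cell surfaces

A cell surface is a finite set `U` of 2-cells with boundary maps `b2`, `b1`.
-/

set_option autoImplicit false
set_option linter.unusedSectionVars false

open Finset Module

namespace Crest.Agent.X212.Sf30

/-- incidence data: the edges of a 2-cell, the ends of an edge -/
structure Inc (F E V : Type) where
  b2 : F → Finset E
  b1 : E → Finset V

namespace Inc

variable {F E V : Type} [DecidableEq F] [DecidableEq E] [DecidableEq V] (C : Inc F E V)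

/-- the edges of the closure of `U` -/
def ed (U : Finset F) : Finset E := U.biUnion C.b2

/-- the ends of a set of edges -/
def vs (Z : Finset E) : Finset V := Z.biUnion C.b1

/-- the 2-cells of `U` at an edge -/
def co (U : Finset F) (e : E) : Finset F := U.filter fun f => e ∈ C.b2 f

/-- the edges of `Z` at a vertex -/
def st (Z : Finset E) (v : V) : Finset E := Z.filter fun e => v ∈ C.b1 e

/-- the boundary edges of `U` -/
def bd (U : Finset F) : Finset E := (C.ed U).filter fun e => (C.co U e).card = 1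

/-- Euler characteristic of a set of edges with their ends -/
def chi1 (Z : Finset E) : ℤ := ((C.vs Z).card : ℤ) - Z.card

/-- Euler characteristic of the closure of `U` -/
def chi (U : Finset F) : ℤ := (U.card : ℤ) + C.chi1 (C.ed U)

/-- a set of edges is connected through common ends -/
def Con1 (Z : Finset E) : Prop :=
  ∀ p : E → Prop, (∀ e ∈ Z, ∀ e' ∈ Z, ∀ v ∈ C.b1 e, v ∈ C.b1 e' → p e → p e') →
    ∀ e ∈ Z, ∀ e' ∈ Z, p e → p e'

/-- a set of 2-cells is connected through common edges -/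
def Con (U : Finset F) : Prop :=
  ∀ p : F → Prop, (∀ f ∈ U, ∀ f' ∈ U, ∀ e ∈ C.b2 f, e ∈ C.b2 f' → p f → p f') →
    ∀ f ∈ U, ∀ f' ∈ U, p f → p f'

/-- every vertex has even degree -/
def Cyc (Z : Finset E) : Prop := ∀ v, Even (C.st Z v).card

/-- the conditions on a cell surface -/
structure Srf (U : Finset F) : Prop where
  two : ∀ e ∈ C.ed U, (C.b1 e).card = 2
  le2 : ∀ e, (C.co U e).card ≤ 2
  cyc : ∀ f ∈ U, C.Cyc (C.b2 f)
  con : ∀ f ∈ U, C.Con1 (C.b2 f)
  ne : ∀ f ∈ U, (C.b2 f).Nonempty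

variable {C}

theorem mem_ed {U : Finset F} {e : E} : e ∈ C.ed U ↔ ∃ f ∈ U, e ∈ C.b2 f := by simp [ed]

theorem mem_vs {Z : Finset E} {v : V} : v ∈ C.vs Z ↔ ∃ e ∈ Z, v ∈ C.b1 e := by simp [vs]

theorem mem_co {U : Finset F} {e : E} {f : F} : f ∈ C.co U e ↔ f ∈ U ∧ e ∈ C.b2 f := by simp [co]

theorem mem_st {Z : Finset E} {v : V} {e : E} : e ∈ C.st Z v ↔ e ∈ Z ∧ v ∈ C.b1 e := by simp [st]

theorem mem_bd {U : Finset F} {e : E} : e ∈ C.bd U ↔ (C.co U e).card = 1 := by
  simp only [bd, mem_filter, and_iff_right_iff_imp]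
  intro h
  obtain ⟨f, hf⟩ := card_pos.1 (show 0 < (C.co U e).card by omega)
  exact mem_ed.2 ⟨f, (mem_co.1 hf).1, (mem_co.1 hf).2⟩

theorem ed_mono {U W : Finset F} (h : U ⊆ W) : C.ed U ⊆ C.ed W := fun _ he => by
  obtain ⟨f, hf, he⟩ := mem_ed.1 he
  exact mem_ed.2 ⟨f, h hf, he⟩

theorem vs_mono {Z Z' : Finset E} (h : Z ⊆ Z') : C.vs Z ⊆ C.vs Z' := fun _ hv => by
  obtain ⟨e, he, hv⟩ := mem_vs.1 hv
  exact mem_vs.2 ⟨e, h he, hv⟩

theorem co_mono {U W : Finset F} (h : U ⊆ W) (e : E) : C.co U e ⊆ C.co W e := fun _ hf =>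
  mem_co.2 ⟨h (mem_co.1 hf).1, (mem_co.1 hf).2⟩

theorem bd_subset (U : Finset F) : C.bd U ⊆ C.ed U := filter_subset _ _

theorem Srf.mono {U W : Finset F} (h : C.Srf W) (hU : U ⊆ W) : C.Srf U :=
  ⟨fun e he => h.two e (ed_mono hU he), fun e => (card_le_card (co_mono hU e)).trans (h.le2 e),
    fun f hf => h.cyc f (hU hf), fun f hf => h.con f (hU hf), fun f hf => h.ne f (hU hf)⟩

theorem co_pos {U : Finset F} {e : E} (he : e ∈ C.ed U) : 0 < (C.co U e).card := by
  obtain ⟨f, hf, he⟩ := mem_ed.1 he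
  exact card_pos.2 ⟨f, mem_co.2 ⟨hf, he⟩⟩

theorem co_zero {U : Finset F} {e : E} (he : e ∉ C.ed U) : (C.co U e).card = 0 := by
  rw [card_eq_zero, eq_empty_iff_forall_notMem]
  intro f hf
  exact he (mem_ed.2 ⟨f, (mem_co.1 hf).1, (mem_co.1 hf).2⟩)

/-- the parity of the number of 2-cells at an edge -/
theorem Srf.co_cast {U : Finset F} (h : C.Srf U) (e : E) :
    ((C.co U e).card : ZMod 2) = if e ∈ C.bd U then 1 else 0 := by
  have := h.le2 e
  by_cases he : e ∈ C.bd U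
  · rw [if_pos he, mem_bd.1 he]; simp
  · rw [if_neg he]
    rw [mem_bd] at he
    have : (C.co U e).card = 0 ∨ (C.co U e).card = 2 := by omega
    rcases this with h | h <;> rw [h]
    · simp
    · rfl

theorem cyc_iff {Z : Finset E} : C.Cyc Z ↔ ∀ v, ((C.st Z v).card : ZMod 2) = 0 := by
  simp [Cyc, ZMod.natCast_eq_zero_iff_even]

/-- the boundary of a cell surface is a cycle -/
theorem Srf.bd_cyc {U : Finset F} (h : C.Srf U) : C.Cyc (C.bd U) := by
  rw [cyc_iff]
  intro v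
  have h1 : ((C.st (C.bd U) v).card : ZMod 2) =
      ∑ e ∈ C.st (C.ed U) v, ((C.co U e).card : ZMod 2) := by
    simp only [h.co_cast]
    rw [sum_ite, sum_const_zero, add_zero, sum_const, nsmul_eq_mul, mul_one]
    congr 2
    ext e
    simp only [mem_st, mem_filter]
    constructor
    · rintro ⟨h1, h2⟩
      exact ⟨⟨bd_subset U h1, h2⟩, h1⟩
    · rintro ⟨⟨_, h2⟩, h1⟩
      exact ⟨h1, h2⟩
  have h2 : ∑ e ∈ C.st (C.ed U) v, (C.co U e).card = ∑ f ∈ U, (C.st (C.b2 f) v).card := by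
    simp only [co, card_filter]
    rw [sum_comm]
    refine sum_congr rfl fun f hf => ?_
    rw [← card_filter]
    congr 1
    ext e
    simp only [mem_filter, mem_st]
    constructor
    · rintro ⟨⟨_, h2⟩, h3⟩
      exact ⟨h3, h2⟩
    · rintro ⟨h3, h2⟩
      exact ⟨⟨mem_ed.2 ⟨f, hf, h3⟩, h2⟩, h3⟩
  rw [h1, ← Nat.cast_sum, h2, Nat.cast_sum]
  exact sum_eq_zero fun f hf => cyc_iff.1 (h.cyc f hf) v

/-- the edges of a connected cell surface are connected -/
theorem Srf.con1 {U : Finset F} (h : C.Srf U) (hc : C.Con U) : C.Con1 (C.ed U) := by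
  intro p hp e he e' he' hpe
  obtain ⟨f, hf, hef⟩ := mem_ed.1 he
  obtain ⟨f', hf', hef'⟩ := mem_ed.1 he'
  have key : ∀ g ∈ U, ∀ a ∈ C.b2 g, ∀ a' ∈ C.b2 g, p a → p a' := fun g hg =>
    h.con g hg p fun a ha a' ha' => hp a (mem_ed.2 ⟨g, hg, ha⟩) a' (mem_ed.2 ⟨g, hg, ha'⟩)
  have := hc (fun g => ∀ a ∈ C.b2 g, p a)
    (fun g _ g' hg' a ha ha' hq b hb => key g' hg' a ha' b hb (hq a ha)) f hf f' hf'
    (fun a ha => key f hf e hef a ha hpe)
  exact this e' hef'

end Inc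

end Crest.Agent.X212.Sf30
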