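import Crest.Agent.X212.Hp13.Sd
import Crest.Agent.X212.Alg36.Hp3

/-!
# Row 212, layer H (helper30): extension points of a chain, a criterion for `Mf 2`
-/

set_option autoImplicit false
set_option linter.unusedSectionVars false

open Finset Classical

noncomputable section

namespace Crest.Agent.X212.Sf30

open Crest.Agent.X212.Hp13

variable {P : Type} [PartialOrder P] [Fintype P] {A B : Set P} {d : ℕ}

/-- the points that extend a chain -/
def xt (c : Ch P) : Finset P := univ.filter fun x => x ∉ c.1 ∧ ∀ y ∈ c.1, Cm x y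

theorem mem_xt {c : Ch P} {x : P} : x ∈ xt c ↔ x ∉ c.1 ∧ ∀ y ∈ c.1, Cm x y := by simp [xt]

/-- the link of a point -/
def lk (a : P) : Set P := {x | x ≠ a ∧ Cm x a}

theorem lt_ins {c : Ch P} {x : P} (h : x ∈ xt c) : c < c.ins x (mem_xt.1 h).2 :=
  lt_of_le_of_ne (c.le_ins x _) fun e => (mem_xt.1 h).1 (by
    rw [e]; exact mem_insert_self _ _)

theorem card_ins {c : Ch P} {x : P} (h : x ∈ xt c) :
    (c.ins x (mem_xt.1 h).2).1.card = c.1.card + 1 := card_insert_of_notMem (mem_xt.1 h).1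

theorem exists_xt {c c' : Ch P} (h : c < c') : ∃ x ∈ c'.1, x ∈ xt c := by
  obtain ⟨x, hx, hn⟩ := exists_of_ssubset (show c.1 ⊂ c'.1 from h)
  exact ⟨x, hx, mem_xt.2 ⟨hn, fun y hy => c'.cm hx (h.le hy)⟩⟩

theorem eq_ins {c c' : Ch P} (h : c ≤ c') (hc : c'.1.card ≤ c.1.card + 1) {x : P} (hx : x ∈ c'.1)
    (hx' : x ∈ xt c) : c' = c.ins x (mem_xt.1 hx').2 :=
  Ch.ext (eq_of_subset_of_card_le (insert_subset hx h) (by
    rw [card_insert_of_notMem (mem_xt.1 hx').1]; exact hc)).symm

theorem card_xt {c : Ch P} (h : ∀ c', c < c' → c'.1.card ≤ c.1.card + 1) :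
    (xt c).card = (univ.filter (c < ·)).card := by
  refine card_bij (fun x hx => c.ins x (mem_xt.1 hx).2) (fun x hx => by simpa using lt_ins hx)
    (fun x hx y hy e => ?_) fun c' hc' => ?_
  · have : x ∈ (c.ins y (mem_xt.1 hy).2).1 := e ▸ mem_insert_self _ _
    exact (mem_insert.1 this).resolve_right (mem_xt.1 hx).1
  · have hc : c < c' := by simpa using hc'
    obtain ⟨x, hx, hx'⟩ := exists_xt hc
    exact ⟨x, hx', (eq_ins hc.le (h c' hc) hx hx').symm⟩

/-- a facet has two extension points -/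
theorem Mf.xt_two (h : Mf d A) {e : Ch P} (he : Mt A e) (hc : e.1.card = d) : (xt e).card = 2 := by
  rw [card_xt fun c' hc' => hc ▸ h.card_le c' (he.mono hc'.le), Alg36.Mf.card_two h he hc]

theorem conn_of_lk {a : P} (h : Conn (lk a)) : Conn {c' : Ch P | Ch.pt a < c'} := by
  have m : ∀ x ∈ lk a, x ∈ xt (Ch.pt a) := fun x hx => mem_xt.2 ⟨by simpa using hx.1,
    by simpa using hx.2⟩
  let f : P → Ch P := fun x => if hx : x ∈ lk a then (Ch.pt a).ins x (mem_xt.1 (m x hx)).2
    else Ch.pt a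
  have hf : ∀ x (hx : x ∈ lk a), f x = (Ch.pt a).ins x (mem_xt.1 (m x hx)).2 :=
    fun x hx => dif_pos hx
  have k : ∀ c : Ch P, a ∈ c.1 → ∀ x ∈ c.1, x ∈ lk a →
      Rch {c' : Ch P | Ch.pt a < c'} (f x) c := fun c ha x hx hl => by
    have h1 : f x ≤ c := by
      rw [hf x hl]; exact insert_subset hx (singleton_subset_iff.2 ha)
    have h2 : Ch.pt a < f x := hf x hl ▸ lt_ins (m x hl)
    exact Rch.of_cm h2 (h2.trans_le h1) (Or.inl h1)
  intro c hc c' hc'
  obtain ⟨x, hx, hx'⟩ := exists_xt (show Ch.pt a < c from hc)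
  obtain ⟨y, hy, hy'⟩ := exists_xt (show Ch.pt a < c' from hc')
  have l : ∀ x ∈ xt (Ch.pt a), x ∈ lk a := fun x hx =>
    ⟨by simpa using (mem_xt.1 hx).1, (mem_xt.1 hx).2 a (by simp)⟩
  refine (k c (Ch.pt_le.1 hc.le) x hx (l x hx')).symm.trans
    (Rch.trans ?_ (k c' (Ch.pt_le.1 hc'.le) y hy (l y hy')))
  refine (h x (l x hx') y (l y hy')).map fun u hu v hv huv => ?_
  let t : Ch P := (Ch.pr u v huv).ins a fun w hw => by
    rcases (by simpa using hw : w = u ∨ w = v) with rfl | rfl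
    exacts [hu.2.symm, hv.2.symm]
  exact (k t (by simp [t]) u (by simp [t]) hu).trans (k t (by simp [t]) v (by simp [t]) hv).symm

theorem lk_of_conn {a : P} (h : Conn {c' : Ch P | Ch.pt a < c'}) : Conn (lk a) := by
  have key : ∀ c c' : Ch P, Rch {c' : Ch P | Ch.pt a < c'} c c' → Ch.pt a < c →
      ∀ x ∈ c.1, x ≠ a → ∀ y ∈ c'.1, y ≠ a → Rch (lk a) x y := fun c c' hr hc x hx hxa => by
    have k : ∀ e : Ch P, Ch.pt a < e → ∀ u ∈ e.1, u ≠ a → ∀ v ∈ e.1, v ≠ a → Rch (lk a) u v :=
      fun e he u hu hua v hv hva => Rch.of_cm ⟨hua, e.cm hu (Ch.pt_le.1 he.le)⟩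
        ⟨hva, e.cm hv (Ch.pt_le.1 he.le)⟩ (e.cm hu hv)
    refine hr.ind (p := fun e => ∀ y ∈ e.1, y ≠ a → Rch (lk a) x y) (k c hc x hx hxa)
      fun e he e' he' hee => ⟨fun H y hy hya => ?_, fun H y hy => H y (hee hy)⟩
    obtain ⟨u, hu, hu'⟩ := exists_xt (show Ch.pt a < e from he)
    have hua : u ≠ a := by simpa using (mem_xt.1 hu').1
    exact (H u hu hua).trans (k e' he' u (hee hu) hua y hy hya)
  intro x hx y hy
  have m : ∀ x ∈ lk a, x ∈ xt (Ch.pt a) := fun x hx => mem_xt.2 ⟨by simpa using hx.1,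
    by simpa using hx.2⟩
  exact key _ _ (h _ (lt_ins (m x hx)) _ (lt_ins (m y hy))) (lt_ins (m x hx)) x (by simp) hx.1 y
    (by simp) hy.1

theorem Mf.conn_lk (h : Mf d A) (hd : 1 < d) {a : P} (ha : a ∈ A) : Conn (lk a) :=
  lk_of_conn (h.conn _ (mt_pt.2 ha) (by simpa using hd))

theorem eq_pt {c : Ch P} (h : c.1.card ≤ 1) : c = Ch.pt c.top :=
  Ch.ext (eq_of_subset_of_card_le (singleton_subset_iff.2 c.top_mem) (by simpa using h)).symm

/-- the chains between a chain and a chain with two more points -/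
theorem card_between {c t : Ch P} (h : c ≤ t) (hc : t.1.card = c.1.card + 2) :
    (univ.filter fun e => c < e ∧ e < t).card = 2 := by
  have : (t.1 \ c.1).card = 2 := by rw [card_sdiff_of_subset h]; omega
  rw [← this]
  have m : ∀ x ∈ t.1 \ c.1, x ∈ xt c := fun x hx =>
    mem_xt.2 ⟨(mem_sdiff.1 hx).2, fun y hy => t.cm (mem_sdiff.1 hx).1 (h hy)⟩
  symm
  refine card_bij (fun x hx => c.ins x (mem_xt.1 (m x hx)).2) (fun x hx => ?_)
    (fun x hx y hy e => ?_) fun e he => ?_
  · refine mem_filter.2 ⟨mem_univ _, lt_ins (m x hx), lt_of_le_of_ne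
      (insert_subset (mem_sdiff.1 hx).1 h) fun e => ?_⟩
    have := card_ins (m x hx)
    rw [e] at this; omega
  · have : x ∈ (c.ins y (mem_xt.1 (m y hy)).2).1 := e ▸ mem_insert_self _ _
    exact (mem_insert.1 this).resolve_right (mem_sdiff.1 hx).2
  · obtain ⟨h1, h2⟩ := (mem_filter.1 he).2
    obtain ⟨x, hx, hx'⟩ := exists_xt h1
    have := Ch.card_lt h2
    exact ⟨x, mem_sdiff.2 ⟨h2.le hx, (mem_xt.1 hx').1⟩, (eq_ins h1.le (by omega) hx hx').symm⟩

/-- **criterion for a surface** -/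
theorem mf2_of (h1 : ∀ c : Ch P, Mt B c → c.1.card ≤ 3)
    (h2 : ∀ c : Ch P, Mt B c → c.1.card = 2 → (xt c).card = 2)
    (h3 : ∀ a ∈ B, Conn (lk a)) (h4 : ∀ a ∈ B, (lk a).Nonempty) : Mf 2 B := by
  have h2' : ∀ c : Ch P, Mt B c → c.1.card = 2 → (univ.filter (c < ·)).card = 2 :=
    fun c hc e => by rw [← card_xt fun c' hc' => e ▸ h1 c' (hc.mono hc'.le), h2 c hc e]
  have sp : ∀ c : Ch P, univ.filter (c ≤ ·) = insert c (univ.filter (c < ·)) := fun c => by
    ext e
    simp only [mem_filter, mem_univ, true_and, mem_insert]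
    rw [le_iff_eq_or_lt, eq_comm]
  have up : ∀ c : Ch P, Mt B c → c.1.card < 3 → ∃ c', c < c' ∧ c'.1.card = c.1.card + 1 := by
    intro c hc hl
    have : (xt c).Nonempty := by
      by_cases e : c.1.card = 2
      · exact card_pos.1 (by rw [h2 c hc e]; norm_num)
      · have e1 := eq_pt (c := c) (by omega)
        obtain ⟨x, hx⟩ := h4 c.top (by rw [e1] at hc; exact mt_pt.1 hc)
        exact ⟨x, e1 ▸ mem_xt.2 ⟨by simpa using hx.1, by simpa using hx.2⟩⟩
    obtain ⟨x, hx⟩ := this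
    exact ⟨_, lt_ins hx, card_ins hx⟩
  refine ⟨h1, fun c hc => ?_, fun c hc hl => ?_, fun c hc => ?_⟩
  · have hle := h1 c hc
    have hp := c.card_pos
    have hb : ∀ e, c < e → c.1.card < e.1.card ∧ e.1.card ≤ 3 := fun e he =>
      ⟨Ch.card_lt he, h1 e (hc.mono he.le)⟩
    rw [sp, sum_insert (by simp)]
    rcases (by omega : c.1.card = 3 ∨ c.1.card = 2 ∨ c.1.card = 1) with e | e | e
    · rw [sum_eq_zero fun x hx => by have := hb x (by simpa using hx); omega]
      simp [Ch.sg, e]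
    · rw [sum_congr rfl (g := fun _ => -1) fun x hx => by
        have := hb x (by simpa using hx)
        rw [Ch.sg, show x.1.card = 3 by omega]; norm_num, sum_const, h2' c hc e]
      simp [Ch.sg, e]
    · set S := univ.filter (c < ·)
      have hS : ∀ x, x ∈ S ↔ c < x := by simp [S]
      have k : (S.filter fun x => x.1.card = 2).card * 2 =
          (S.filter fun x => ¬ x.1.card = 2).card * 2 := by
        refine card_mul_eq_card_mul (· < ·) (fun x hx => ?_) fun t ht => ?_
        · obtain ⟨a, b⟩ := mem_filter.1 hx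
          rw [hS] at a
          refine Eq.trans ?_ (h2' x (hc.mono a.le) b)
          congr 1
          ext t
          simp only [mem_bipartiteAbove, mem_filter, hS, mem_univ, true_and]
          exact ⟨fun h => h.2, fun h => ⟨⟨a.trans h, by have := Ch.card_lt h; omega⟩, h⟩⟩
        · obtain ⟨a, b⟩ := mem_filter.1 ht
          rw [hS] at a
          have := hb t a
          refine Eq.trans ?_ (card_between a.le (by omega))
          congr 1
          ext x
          simp only [mem_bipartiteBelow, mem_filter, hS, mem_univ, true_and]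
          exact ⟨fun h => ⟨h.1.1, h.2⟩, fun h => ⟨⟨h.1, by
            have := Ch.card_lt h.1; have := Ch.card_lt h.2; omega⟩, h.2⟩⟩
      rw [← sum_filter_add_sum_filter_not S (fun x => x.1.card = 2),
        sum_congr rfl (g := fun _ => 1) fun x hx => by rw [Ch.sg, (mem_filter.1 hx).2]; norm_num,
        sum_congr (s₁ := S.filter fun x => ¬ x.1.card = 2) rfl (g := fun _ => -1) fun x hx => by
          have := hb x ((hS x).1 (mem_filter.1 hx).1)
          have := (mem_filter.1 hx).2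
          rw [Ch.sg, show x.1.card = 3 by omega]; norm_num, sum_const, sum_const,
        Nat.eq_of_mul_eq_mul_right (by norm_num) k]
      simp [Ch.sg, e]
  · have e1 := eq_pt (c := c) (by omega)
    rw [e1] at hc ⊢
    exact conn_of_lk (h3 _ (mt_pt.1 hc))
  · have hle := h1 c hc
    have hp := c.card_pos
    rcases (by omega : c.1.card = 3 ∨ c.1.card = 2 ∨ c.1.card = 1) with e | e | e
    · exact ⟨c, le_rfl, e⟩
    · obtain ⟨c', a, b⟩ := up c hc (by omega)
      exact ⟨c', a.le, by omega⟩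
    · obtain ⟨c', a, b⟩ := up c hc (by omega)
      obtain ⟨c'', a', b'⟩ := up c' (hc.mono a.le) (by omega)
      exact ⟨c'', (a.trans a').le, by omega⟩

/-- the sum of `bet` over an upper cone -/
theorem sum_bet (p : P) : ∑ q ∈ univ.filter (p ≤ ·), bet q = -1 := by
  have h := eu_cone (E := {q | p ≤ q}) (m := p) (le_refl p) fun x hx => Or.inl hx
  have h2 := sum_bot (ind {q | p ≤ q})
  rw [eu, neg_eq_iff_eq_neg] at h
  rw [← h, sum_filter, sum_filter]
  simp only [ind, mul_ite, mul_one, mul_zero, Set.mem_ofPred_eq] at h2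
  rw [← h2]
  exact sum_congr rfl fun c _ => if_congr
    ⟨fun h x hx => h.trans (Ch.bot_le hx), fun h => h _ c.bot_mem⟩ rfl rfl

theorem bet_eq_of {U : Set P} (hU : IsUpperSet U) (F : P → ℤ)
    (hF : ∀ p ∈ U, ∑ q ∈ univ.filter (p ≤ ·), F q = -1) {p : P} (hp : p ∈ U) : bet p = F p := by
  induction p using WellFoundedGT.induction with
  | ind p ih =>
    have h1 := sum_bet p
    have h2 := hF p hp
    have hm : p ∈ univ.filter (p ≤ ·) := by simp
    rw [← add_sum_erase _ _ hm] at h1 h2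
    rw [sum_congr rfl fun q hq => ih q (lt_of_le_of_ne (by simpa using (mem_erase.1 hq).2)
      (mem_erase.1 hq).1.symm) (hU (by simpa using (mem_erase.1 hq).2) hp)] at h1
    exact add_right_cancel (h1.trans h2.symm)

/-- for an upper set `eu` is minus the sum of `bet` -/
theorem eu_upper {U : Set P} (hU : IsUpperSet U) : eu U = -∑ p ∈ univ.filter (· ∈ U), bet p := by
  have h2 := sum_bot (ind U)
  simp only [ind, mul_ite, mul_one, mul_zero] at h2
  rw [eu, sum_filter, sum_filter, ← h2]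
  exact congrArg _ (sum_congr rfl fun c _ => if_congr
    ⟨fun h => h _ c.bot_mem, fun h x hx => hU (Ch.bot_le hx) h⟩ rfl rfl)

end Crest.Agent.X212.Sf30
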