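import Mathlib

/-!
# Row 212, layer H (helper30): the Euler inequality as linear algebra over a field
-/

set_option autoImplicit false
set_option linter.unusedSectionVars false

open Module

namespace Crest.Agent.X212.Sf30

section

variable {k : Type} [Field k] {V E F : Type} [Fintype V] [Fintype E] [Fintype F]

/-- the annihilator of a subspace of `E → k` for the dot product -/
def ann (W : Submodule k (E → k)) : Submodule k (E → k) where
  carrier := {a | ∀ w ∈ W, a ⬝ᵥ w = 0}
  add_mem' := by
    intro a b ha hb w hw
    rw [add_dotProduct, ha w hw, hb w hw, add_zero]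
  zero_mem' := by intro w _; simp
  smul_mem' := by
    intro c a ha w hw
    rw [smul_dotProduct, ha w hw, smul_zero]

theorem finrank_ann (W : Submodule k (E → k)) :
    finrank k (ann W) + finrank k W = Fintype.card E := by
  classical
  let B : LinearMap.BilinForm k (E → k) := Matrix.toBilin' (1 : Matrix E E k)
  have hB : ∀ a b, B a b = a ⬝ᵥ b := by
    intro a b
    simp [B, Matrix.toBilin'_apply']
  have hr : B.IsRefl := by
    intro a b h
    rw [hB] at h ⊢
    rw [dotProduct_comm]; exact h
  have hn : B.Nondegenerate := by
    refine ⟨?_, ?_⟩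
    · intro a ha
      funext e
      have := ha (Pi.single e 1)
      rw [hB] at this
      simpa using this
    · intro a ha
      funext e
      have := ha (Pi.single e 1)
      rw [hB] at this
      simpa using this
  have h1 : ann W = B.orthogonal W := by
    ext a
    constructor
    · intro h w hw
      show B w a = 0
      rw [hB, dotProduct_comm]; exact h w hw
    · intro h w hw
      have : B w a = 0 := h w hw
      rw [hB, dotProduct_comm] at this; exact this
  rw [h1, LinearMap.BilinForm.finrank_orthogonal hn W]
  have : finrank k W ≤ finrank k (E → k) := Submodule.finrank_le W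
  rw [Module.finrank_fintype_fun_eq_card] at this ⊢
  omega

theorem range_le_ann (d : (V → k) →ₗ[k] (E → k)) (b : (F → k) →ₗ[k] (E → k))
    (ho : ∀ f x, d f ⬝ᵥ b x = 0) : LinearMap.range d ≤ ann (LinearMap.range b) := by
  rintro _ ⟨f, rfl⟩ _ ⟨x, rfl⟩
  exact ho f x

/-- the Euler identity -/
theorem euler_eq (d : (V → k) →ₗ[k] (E → k)) (b : (F → k) →ₗ[k] (E → k)) :
    Fintype.card V + Fintype.card F + finrank k (ann (LinearMap.range b)) =
      Fintype.card E + finrank k (LinearMap.ker d) + finrank k (LinearMap.ker b) +
        finrank k (LinearMap.range d) := by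
  have h1 := LinearMap.finrank_range_add_finrank_ker d
  have h2 := LinearMap.finrank_range_add_finrank_ker b
  have h3 := finrank_ann (LinearMap.range b)
  rw [Module.finrank_fintype_fun_eq_card] at h1 h2
  omega

/-- **Euler inequality** -/
theorem euler_le (d : (V → k) →ₗ[k] (E → k)) (b : (F → k) →ₗ[k] (E → k))
    (ho : ∀ f x, d f ⬝ᵥ b x = 0) :
    Fintype.card V + Fintype.card F ≤
      Fintype.card E + finrank k (LinearMap.ker d) + finrank k (LinearMap.ker b) := by
  have h := euler_eq d b
  have := Submodule.finrank_mono (range_le_ann d b ho)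
  omega

/-- in the case of equality every cocycle is a coboundary -/
theorem exact_of_euler (d : (V → k) →ₗ[k] (E → k)) (b : (F → k) →ₗ[k] (E → k))
    (ho : ∀ f x, d f ⬝ᵥ b x = 0)
    (he : Fintype.card E + finrank k (LinearMap.ker d) + finrank k (LinearMap.ker b) ≤
      Fintype.card V + Fintype.card F) (a : E → k) (ha : ∀ x, a ⬝ᵥ b x = 0) : ∃ f, d f = a := by
  have h := euler_eq d b
  have h1 : LinearMap.range d = ann (LinearMap.range b) :=
    Submodule.eq_of_le_of_finrank_le (range_le_ann d b ho) (by omega)
  have : a ∈ LinearMap.range d := by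
    rw [h1]
    rintro _ ⟨x, rfl⟩
    exact ha x
  exact this

/-- a space of constant functions has rank at most one -/
theorem finrank_le_one_of_const (W : Submodule k (V → k))
    (h : ∀ f ∈ W, ∀ u v, f u = f v) : finrank k W ≤ 1 := by
  have : W ≤ Submodule.span k {(fun _ => 1 : V → k)} := by
    intro f hf
    rcases isEmpty_or_nonempty V with hV | ⟨⟨v⟩⟩
    · have : f = 0 := Subsingleton.elim _ _
      rw [this]; exact Submodule.zero_mem _
    · rw [Submodule.mem_span_singleton]
      refine ⟨f v, ?_⟩
      funext u
      simp [h f hf u v]
  refine (Submodule.finrank_mono this).trans ?_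
  simpa using finrank_span_le_card ({(fun _ => 1 : V → k)} : Set (V → k))

end

end Crest.Agent.X212.Sf30
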