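import Crest.Agent.X212.Sf30.Tree2
import Crest.Agent.X212.Sf30.Le
import Crest.Agent.X212.Sup43.In
import Crest.Agent.X212.Ind26.Hb

/-!
# X212 / Sf30 (helper30): P2, definitions and leaves

Everything happens on the UPPER set `M = Inn A`; its boundary is `Om M = Fr A ∪ O₋`.
A disc system is a monotone cocycle with jumps at most one; its cells are the mixed chains.
-/

set_option autoImplicit false
set_option linter.unusedSectionVars false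

open Finset Classical

noncomputable section

namespace Crest.Agent.X212.Pt30

open Crest.Agent.X212.Hp13 Alg36 Cut21 Ind26
open Sf30 hiding Inn
open Sup43 (Inn)
open Kh11 (WS)

section
variable {P : Type} [PartialOrder P]

/-- the mixed chains with top in `U` -/
def Mx (U : Set P) (e : P → P → ℤ) : Set (Ch P) := {c | c.top ∈ U ∧ 0 < e c.bot c.top}

/-- a monotone cocycle with jumps at most one -/
structure Z1 (M : Set P) (e : P → P → ℤ) : Prop where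
  coc : Coc M e
  mono : Mono M e
  le : ∀ x y, Dp M x y → e x y ≤ 1

/-- some cell of `C` has a face on the boundary that sees the level -/
def Tc (M : Set P) (e : P → P → ℤ) (C : Set (Ch P)) : Prop :=
  ∃ c ∈ C, ∃ x ∈ c.1, ∃ y ∈ c.1, x ≤ y ∧ y ∉ M ∧ 0 < e x y

/-- SPAN: every cocycle is exact off the surface -/
def Spn1 (M : Set P) (e : P → P → ℤ) : Prop :=
  ∀ w : P → P → ℤ, Coc M w → ∃ g : P → ℤ, ∀ x y, Dp M x y → e x y = 0 → w x y = g y - g x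

/-- `c = (x < x' < b < i)`: the boundary of the surface crosses a suture -/
def Pat (A : Set P) (e : P → P → ℤ) (c : Ch P) : Prop :=
  ∃ x ∈ c.1, ∃ x' ∈ c.1, ∃ b ∈ c.1, x ≤ x' ∧ x' ∉ A ∧ b ∈ Fr A ∧ 0 < e x x'

/-- the low side of the cutting surface -/
def Kz (A : Set P) (z : P → P → ℤ) : Set P := {a | a ∈ A ∧ ∃ u ∈ A, a ≤ u ∧ 0 < z a u}

/-- the inner part of the cut manifold -/
def Uz (A : Set P) (z : P → P → ℤ) : Set P := Inn A \ Kz A z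

/-- the points of `Uz` of level `j` over `n` -/
def Lz (A : Set P) (z : P → P → ℤ) (n : P) (j : ℤ) : Set P := {u | u ∈ Uz A z ∧ n ≤ u ∧ z n u = j}

/-- the cutting surface is not tangent to a suture -/
def NT (A : Set P) (z : P → P → ℤ) : Prop :=
  ∀ x, x ∉ A → ∀ b ∈ Fr A, x ≤ b → ∀ a ∈ A, x ≤ a → 0 < z x a → ∃ b' ∈ Fr A, x ≤ b' ∧ 0 < z x b'

/-- the open star of a set of boundary points -/
def Sr (M W : Set P) : Set (Ch P) := {c | c.top ∈ M ∧ Mt W c}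

/-- the cells that are removed when `e` is lowered on `E` -/
def NXs (M E : Set P) : Set (Ch P) := {c | c.top ∈ M ∧ Mt E c ∧ c.bot ∉ E}

/-- the cells that are created when `e` is lowered on `E` -/
def NYs (M E : Set P) : Set (Ch P) := {c | c.top ∈ M ∧ Mt E c ∧ c.top ∉ E}

/-- `e` can be lowered on `E` -/
structure Mvs (M E : Set P) (e : P → P → ℤ) : Prop where
  flat : ∀ x ∈ E, ∀ v, Dp M x v → e x v = 0
  lo : ∀ x ∈ E, ∀ y, Dp M y x → y ∉ E → e y x = 1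

/-- all integer cocycles are exact -/
def H1Z (E : Set P) : Prop := ∀ w : P → P → ℤ, CocOn E w → ExOn E w

/-- every point of `Y` is joined inside `Y` to a point that lies over a point off `M` -/
def Out (M Y : Set P) : Prop := ∀ n ∈ Y, ∃ n', Rch Y n n' ∧ ∃ x, x ∉ M ∧ x ≤ n'

variable [Fintype P]

/-- number of crossings with the sutures -/
def ep (A : Set P) (e : P → P → ℤ) (C : Set (Ch P)) : ℕ :=
  (univ.filter fun c => c ∈ C ∧ Pat A e c).card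

/-- all components are discs -/
structure Dsc (M : Set P) (e : P → P → ℤ) : Prop extends Z1 M e where
  disc : ∀ C, IsCmp (Mx M e) C → eu C = 1 ∧ Tc M e C

/-- a complete disc system -/
structure DSys (A : Set P) (e : P → P → ℤ) : Prop extends Dsc (Inn A) e where
  spn : Spn1 (Inn A) e

/-- the index -/
def ix (A : Set P) (e : P → P → ℤ) : ℕ := ∑ C ∈ cs (Mx (Inn A) e), (ep A e C - 2)

/-- `e` is vertical along the boundary -/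
structure Vt (A : Set P) (e : P → P → ℤ) : Prop where
  vert : ∀ n v, n ∉ Inn A → Dp (Inn A) n v → 0 < e n v → ∃ n', n ≤ n' ∧ n' ≤ v ∧ 0 < e n n' ∧
    n' ∉ Inn A ∧ (n' ∈ A → n ∈ A) ∧ ((∃ b ∈ Fr A, n ≤ b) → ∃ b ∈ Fr A, n' ≤ b)
  l0 : ∀ n ∈ Om (Inn A), Ctr {i | i ∈ Inn A ∧ n ≤ i ∧ e n i = 0}

/-- a disc in `R₊` or in `R₋` bounded by a curve of `e` -/
structure Ng (A : Set P) (e : P → P → ℤ) (W : Set P) : Prop where
  sub : W ⊆ Om (Inn A)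
  conn : Conn (Sr (Inn A) W)
  eu : eu (Sr (Inn A) W) = 1
  out : ∀ x ∈ W, ∀ y ∈ Om (Inn A), y ∉ W → (x ≤ y → e x y = 1) ∧ (y ≤ x → e y x = 1)
  ne : ∃ x ∈ W, ∃ y ∈ Om (Inn A), y ∉ W ∧ Cm x y
  side : (∀ x ∈ W, ∀ y ∈ Om (Inn A), Cm x y → y ∈ A) ∨
    ∀ x ∈ W, ∀ y ∈ Om (Inn A), Cm x y → ∀ b ∈ Fr A, ¬ y ≤ b

/-- an innermost disc on the high side of its boundary curve -/
structure Site (A : Set P) (e : P → P → ℤ) (E : Set P) : Prop where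
  sub : E ⊆ Om (Inn A)
  conn : Conn (Sr (Inn A) E)
  eu : eu (Sr (Inn A) E) = 1
  curve : Conn (NXs (Inn A) E)
  flat : ∀ x ∈ E, ∀ v, Dp (Inn A) x v → e x v = 0
  up : ∀ x ∈ E, ∀ v ∈ Om (Inn A), x ≤ v → v ∈ E
  lo : ∀ x ∈ E, ∀ y, y ≤ x → y ∉ E → e y x = 1
  ne : ∃ x ∈ E, ∃ y, y ≤ x ∧ y ∉ E
  side : (∀ x ∈ E, ∀ y, y ≤ x → y ∈ A) ∨ ∀ x ∈ E, ∀ y, y ≤ x → ∀ b ∈ Fr A, ¬ y ≤ b

end

/-- handlebodies of index at most `c` -/
def HBo (s : St) (c : ℕ) : Prop :=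
  ∃ (t : St) (f : t.P → s.P) (e : t.P → t.P → ℤ), Desc s t f ∧ DSys t.A e ∧ ix t.A e ≤ c

/-- what P2 uses of a cut -/
structure Pk (s s' : St) (z : s.P → s.P → ℤ) (π : s'.P → s.P) : Prop where
  st : Stt s
  st' : Stt s'
  cov : Cov s s' z π
  adm : Adm s z
  jk : JK s.A z
  nt : NT s.A z
  inj : ∀ b ∈ s'.A, ∀ b' ∈ s'.A, ∀ q q', q ≤ b → q' ≤ b' → π q = π q' →
    z (π q) (π b) = z (π q') (π b') → q = q'

/-! ### leaves -/

/-- NEG₊: a disc with boundary in `R₊` -/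
def NegPStmt : Prop := ∀ (s : St) (e : s.P → s.P → ℤ) (F : Set (Ch s.P)), Stt s →
  Z1 (Inn s.A) e → Vt s.A e → IsCmp (Mx (Inn s.A) e) F → eu F = 1 → Tc (Inn s.A) e F →
  (∀ c ∈ F, c.bot ∈ s.A) → ∃ W, Ng s.A e W

/-- NEG₋: a disc with boundary in `R₋` -/
def NegMStmt : Prop := ∀ (s : St) (e : s.P → s.P → ℤ) (F : Set (Ch s.P)), Stt s →
  Z1 (Inn s.A) e → Vt s.A e → IsCmp (Mx (Inn s.A) e) F → eu F = 1 → Tc (Inn s.A) e F →
  (∀ c ∈ F, ∀ b ∈ c.1, b ∉ Fr s.A) → ∃ W, Ng s.A e W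

/-- INN: an innermost region -/
def InnStmt : Prop := ∀ (s : St) (e : s.P → s.P → ℤ) (W : Set s.P), Stt s → Z1 (Inn s.A) e →
  Vt s.A e → Ng s.A e W → (∃ E, Site s.A e E) ∨ ∃ E, Site s.sd.A (rev e) E

/-- DISCARD: a component whose two sides are separated by `h` -/
def DiscStmt : Prop := ∀ (s : St) (e : s.P → s.P → ℤ) (F : Set (Ch s.P)) (h : s.P → ℤ), Good s →
  IsUpperSet s.A → Z1 s.A e → IsCmp (Mx s.A e) F →
  (∀ x y, Dp s.A x y → e x y = 0 → h x = h y) → (∀ c ∈ F, h c.bot ≠ h c.top) →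
    ∃ e', Z1 s.A e' ∧ Mx s.A e' = Mx s.A e \ F ∧ (Spn1 s.A e → Spn1 s.A e') ∧
      ∀ c ∈ Mx s.A e', ∀ x ∈ c.1, ∀ y ∈ c.1, x ≤ y → e' x y = e x y

/-- MOVE: lower `e` on `E` and drop the closed components -/
def AmStmt : Prop := ∀ (s : St) (e : s.P → s.P → ℤ) (E : Set s.P) (D : Set (Ch s.P)), Good s →
  IsUpperSet s.A → Dsc s.A e → Mvs s.A E e → Conn (NXs s.A E) → (NXs s.A E).Nonempty →
  IsCmp (Mx s.A e) D → NXs s.A E ⊆ D → (∀ C, IsCmp (NYs s.A E) C → eu C = 1) →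
    ∃ e', Dsc s.A e' ∧ (Spn1 s.A e → Spn1 s.A e') ∧ (∃ h, EqD s.A (e - e') (cb h)) ∧
      (∀ x y, Dp s.A x y → e' x y ≤ (e - cb (ind E)) x y) ∧
      (∀ c ∈ Mx s.A e', ∀ x ∈ c.1, ∀ y ∈ c.1, x ≤ y → e' x y = (e - cb (ind E)) x y) ∧
      Mx s.A e \ D ⊆ Mx s.A e' ∧
      (eu (NXs s.A E) ≤ 0 → Conn (NYs s.A E) → Mx s.A e' = Mx s.A e \ D)

/-- TRANS: a site of the cut manifold seen in the manifold -/
def TransStmt : Prop := ∀ (s s' : St) (z : s.P → s.P → ℤ) (π : s'.P → s.P) (e : s.P → s.P → ℤ)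
  (E' : Set s'.P), Pk s s' z π → Z1 (Inn s.A) e → Site s'.A (pb π e) E' →
  (∀ x ∈ E', ∀ v, Dp (Inn s.A) (π x) v → e (π x) v = 0) →
    Mvs (Inn s.A) (π '' E') e ∧ Conn (NXs (Inn s.A) (π '' E')) ∧
    (NXs (Inn s.A) (π '' E')).Nonempty ∧ (∀ C, IsCmp (NYs (Inn s.A) (π '' E')) C → eu C = 1) ∧
    (∀ x ∈ π '' E', x ∉ s.A → ∀ b ∈ Fr s.A, ¬ x ≤ b) ∧ (∀ x ∈ π '' E', x ∉ Uz s.A z) ∧
    (∀ x ∈ π '' E', ∀ k ∈ Inn s.A \ Uz s.A z, x ≤ k → k ∈ π '' E') ∧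
    ((∃ c ∈ Mx (Inn s.A \ Uz s.A z) e, c.top ∈ π '' E') ∨ ∀ D, IsCmp (Mx (Inn s.A) e) D →
      eu D = 1 → NXs (Inn s.A) (π '' E') ⊆ D → ep s.A e D = 0)

/-- FINAL: without negative piece the discs are cut along arcs -/
def FinStmt : Prop := ∀ (s s' : St) (z : s.P → s.P → ℤ) (π : s'.P → s.P) (e : s.P → s.P → ℤ)
  (h : Pk s s' z π), Dsc (Inn s.A) e →
  (∀ F, IsCmp (Mx (Inn s'.A) (pb π e)) F → eu F = 1 → Tc (Inn s'.A) (pb π e) F →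
    ep s'.A (pb π e) F ≠ 0) →
    Dsc (Inn s'.A) (pb π e) ∧ (∀ F, IsCmp (Mx (Inn s'.A) (pb π e)) F → 2 ≤ ep s'.A (pb π e) F) ∧
    (∀ D, IsCmp (Mx (Inn s.A) e) D →
      ∑ F ∈ (cs (Mx (Inn s'.A) (pb π e))).filter (fun F => ∀ c ∈ F, h.cov.toLift.im c ∈ D),
        ((ep s'.A (pb π e) F : ℤ) - 2) ≤ (ep s.A e D : ℤ) - 2) ∧
    ∀ C, IsCmp (Mx (Inn s.A \ Uz s.A z) e) C → Tc (Inn s.A) e C

/-- EXTD: cocycles extend over a two sided part without cohomology -/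
def ExtdStmt : Prop := ∀ (P : Type) [PartialOrder P] [Fintype P] (V Y : Set P) (σ : P → P → Prop),
  Y ⊆ V → (∀ y ∈ Y, ∀ x ∈ V, x ≤ y → x ∈ Y) →
  (∀ y ∈ Y, ∀ y' ∈ Y, ∀ v ∈ V \ Y, y' ≤ y → y ≤ v → (σ y' v ↔ σ y v)) →
  (∀ y ∈ Y, ∀ v ∈ V \ Y, ∀ v' ∈ V \ Y, y ≤ v → v ≤ v' → (σ y v ↔ σ y v')) →
  (∀ y ∈ Y, Ctr {v | v ∈ V \ Y ∧ y ≤ v ∧ σ y v} ∧ Ctr {v | v ∈ V \ Y ∧ y ≤ v ∧ ¬ σ y v}) →
  H1Z Y → ∀ w : P → P → ℤ, CocOn (V \ Y) w →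
    ∃ w' : P → P → ℤ, CocOn V w' ∧ ∀ x ∈ V \ Y, ∀ y ∈ V \ Y, x ≤ y → w' x y = w x y

/-- (M): the pieces of the cutting surface in the balls are discs -/
def McStmt : Prop := ∀ (s s' : St) (z : s.P → s.P → ℤ) (π : s'.P → s.P) (Z : Set s.P),
  Pk s s' z π → IsLowerSet Z → H1Z (Inn s.A \ Z) → Out (Inn s.A) (Inn s.A ∩ Z) →
  Out (Inn s.A) ((Inn s.A \ Uz s.A z) ∩ Z) → H1Z (Uz s.A z \ Z)

/-- THICK: SPAN for the cut system -/
def GoodStmt : Prop := ∀ (s s' : St) (z : s.P → s.P → ℤ) (π : s'.P → s.P) (e : s.P → s.P → ℤ),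
  Pk s s' z π → DSys s.A e → (∀ C, IsCmp (Mx (Inn s.A \ Uz s.A z) e) C → Tc (Inn s.A) e C) →
    Spn1 (Inn s'.A) (pb π e)

/-- CONV -/
def ConvStmt : Prop := ∀ s, Stt s → HBo s 0 → Ind26.HB s 0

end Crest.Agent.X212.Pt30
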