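import Crest.Agent.X212.Sf30.P2Mv

/-!
# X212 / Sf30 (helper30): P2 from its leaves
-/

set_option autoImplicit false
set_option linter.unusedSectionVars false

open Finset Classical

noncomputable section

namespace Crest.Agent.X212.Pt30

open Crest.Agent.X212.Hp13 Alg36 Cut21 Ind26
open Sf30 hiding Inn
open Sup43 (Inn inn_sub inn_up good_inn)
open Kh11 (WS clo_cmp sctr_min sctr_max)
open Am43 (Fl)

theorem ixp_erase {P : Type} [PartialOrder P] [Fintype P] {A : Set P} {e : P → P → ℤ}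
    {p : Set (Ch P) → Prop} {D : Set (Ch P)} (hD : IsCmp (Mx (Inn A) e) D) (h : ¬ p D) :
    ep A e D - 2 + ixp A e p ≤ ix A e := by
  rw [ix, ← add_sum_erase _ _ (mem_cs.2 hD)]
  exact Nat.add_le_add_left (sum_le_sum_of_subset fun C r =>
    mem_erase.2 ⟨fun o : C = D => h (o ▸ (mem_filter.1 r).2), (mem_filter.1 r).1⟩) _

/-- DISCARD a marked piece, or all marked pieces are products -/
theorem discard (hd : DiscStmt) {s : St} {e m : s.P → s.P → ℤ} {g : s.P → ℤ} {n : ℕ} (st : Stt s)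
    (ds : DSys s.A e) (cm : Coc (Inn s.A) m) (fm : Fl (Inn s.A) e m) (hg : EqD (Inn s.A) m (cb g))
    (hx : Ix s.A e m n) : HBo s n := by
  have gd := good_inn st.toGood st.thick
  have sp := ds.spn
  have k1 := hx.all
  have k2 := hx.um
  by_cases k : ∃ F, IsCmp (Mx (Inn s.A) e) F ∧ ¬ Um m F ∧ 2 < ep s.A e F
  · obtain ⟨F, hF, u, lt⟩ := k
    obtain ⟨e', z, mx, sp', ag⟩ : ∃ e' : s.P → s.P → ℤ, Z1 (Inn s.A) e' ∧
        Mx (Inn s.A) e' = Mx (Inn s.A) e \ F ∧ (Spn1 (Inn s.A) e → Spn1 (Inn s.A) e') ∧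
        ∀ c ∈ Mx (Inn s.A) e', ∀ x ∈ c.1, ∀ y ∈ c.1, x ≤ y → e' x y = e x y :=
      hd (s.at (Inn s.A)) e F g gd inn_up ds.toZ1 hF
        (fun x y r o => (sub_eq_zero.1 ((hg x y r).symm.trans (fm x y r o))).symm) fun c r o =>
          u (um_of ds.toZ1 cm fm hF r ((hg _ _ (dom_top (hF.sub r).1).bt).trans (sub_eq_zero.2 o.symm)))
    have cl : ∀ C, IsCmp (Mx (Inn s.A) e') C → IsCmp (Mx (Inn s.A) e) C := fun C r =>
      clo_isCmp (clo_diff (clo_cmp hF)) (mx ▸ r)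
    refine ⟨s, id, e', Desc.refl, ⟨⟨z, fun C r => ⟨(ds.disc C (cl C r)).1, ?_⟩⟩, sp' sp⟩, ?_⟩
    · obtain ⟨c, b, x, hx, y, hy, l, o, t⟩ := (ds.disc C (cl C r)).2
      exact ⟨c, b, x, hx, y, hy, l, o, (ag c (r.sub b) x hx y hy l).symm ▸ t⟩
    have := ixp_le (A := s.A) (e := e) (A' := s.A) (e' := e') (p := (· ≠ F)) (p' := fun _ => True)
      id (fun _ _ _ _ _ _ l => l) fun C r _ => ⟨C, cl C r,
        fun o => let ⟨c, b⟩ := r.ne; (mx ▸ r.sub b :).2 (o ▸ b),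
        fun c b ⟨x, hx, y, hy, w, hw, l, o, f, t⟩ =>
          ⟨b, x, hx, y, hy, w, hw, l, o, f, ag c (r.sub b) x hx y hy l ▸ t⟩⟩
    have := ixp_erase (p := (· ≠ F)) hF fun o => o rfl
    rw [ix_eq] at this ⊢
    omega
  · refine ⟨s, id, e, Desc.refl, ds, le_of_eq_of_le (sum_filter_of_ne fun F r o => ?_).symm k2⟩
    exact by_contra fun u => k ⟨F, mem_cs.1 r, u, by omega⟩

/-- a cut, a marked disc system, the marked part does not meet the cut manifold essentially -/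
structure Sg (n : ℕ) where
  s : St
  s' : St
  z : s.P → s.P → ℤ
  π : s'.P → s.P
  e : s.P → s.P → ℤ
  m : s.P → s.P → ℤ
  pk : Pk s s' z π
  ds : DSys s.A e
  coc : Coc (Inn s.A) m
  fl : Fl (Inn s.A) e m
  ex : ExOn (Uz s.A z) m
  ix : Ix s.A e m n

namespace Sg

variable {n : ℕ} (a : Sg n)

/-- the curves of intersection -/
def mu : ℕ := (cs (Mx (Inn a.s.A \ Uz a.s.A a.z) a.e)).card

/-- the discs -/
def nu : ℕ := (cs (Mx (Inn a.s.A) a.e)).card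

/-- one level up -/
def rv : Sg n where
  s := a.s.sd
  s' := a.s'.sd
  z := pb Ch.top a.z
  π := a.pk.im
  e := rev a.e
  m := rev a.m
  pk := a.pk.sd
  ds := ⟨inn_sd (A := a.s.A) ▸ a.ds.toDsc.rev, inn_sd (A := a.s.A) ▸ a.ds.spn.rev inn_up a.pk.nice⟩
  coc := inn_sd (A := a.s.A) ▸ a.coc.rev
  fl := inn_sd (A := a.s.A) ▸ fl_rev a.fl
  ex := uz_sd (A := a.s.A) ▸ exOn_rev a.coc uz_sub a.ex
  ix := a.ix.rev a.pk.st.conv a.pk.st.mf a.ds.toZ1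

theorem rv_mu : a.rv.mu = a.mu := by
  have : Inn a.s.sd.A \ Uz a.s.sd.A (pb Ch.top a.z) = Ch.top ⁻¹' (Inn a.s.A \ Uz a.s.A a.z) :=
    Set.ext fun _ => and_congr mem_inn_sd (not_congr mem_uz_sd)
  exact (congrArg (fun X => (cs (Mx X (rev a.e))).card) this).trans
    (card_ws (ws_rev a.ds.toZ1 Set.sdiff_subset))

theorem rv_nu : a.rv.nu = a.nu :=
  (congrArg (fun X => (cs (Mx X (rev a.e))).card) (inn_sd (A := a.s.A))).trans
    (card_ws (ws_rev a.ds.toZ1 subset_rfl))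

theorem rv_pb : pb a.rv.π a.rv.e = rev (pb a.π a.e) :=
  funext fun _ => funext fun _ => congrArg₂ a.e (a.pk.bot_im _) (a.pk.bot_im _)

/-- `b` is smaller -/
def Lt (b a : Sg n) : Prop :=
  (∃ g, Desc a.s' b.s' g) ∧ (b.mu < a.mu ∨ b.mu ≤ a.mu ∧ b.nu < a.nu)

theorem Lt.rv {a b : Sg n} (h : Lt b a.rv) : Lt b a :=
  ⟨let ⟨_, d⟩ := h.1; ⟨_, (Desc.sd _).trans d⟩, a.rv_mu ▸ a.rv_nu ▸ h.2⟩

/-- a site in the manifold removes a disc -/
theorem drop (ha : AmStmt) {E : Set a.s.P} (h : Site a.s.A a.e E) : ∃ b, Lt b a := by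
  obtain ⟨e', m', D, cD, ds, c, f, x, i, -, k⟩ := move ha a.pk.st a.ds a.coc a.fl uz_sub a.ex a.ix
    h.mvs h.curve h.nx_ne h.ny h.off
  have k := k (h.eu_nx a.pk.mf a.ds.toZ1) (h.ny_eq ▸ h.conn)
  have l : ∀ {c}, c ∈ Mx (Inn a.s.A) e' ↔ c ∈ Mx (Inn a.s.A) a.e ∧ c ∉ D := by rw [k]; rfl
  obtain ⟨d, hd⟩ := cD.ne
  refine ⟨⟨a.s, a.s', a.z, a.π, e', m', a.pk, ds, c, f, x, i⟩, ⟨_, Desc.refl⟩, Or.inr
    ⟨card_clo ⟨fun c r => ⟨r.1, (l.1 ⟨r.1.1, r.2⟩).1.2⟩, fun c r d o t => ⟨o.1, (l.2 ⟨⟨o.1.1, o.2⟩,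
      fun u => (l.1 ⟨r.1.1, r.2⟩).2 (cD.clopen u (l.1 ⟨r.1.1, r.2⟩).1 t.symm)⟩).2⟩⟩,
    card_clo_lt (T := Mx (Inn a.s.A) e') (k ▸ clo_diff (clo_cmp cD)) (cD.sub hd)
      fun u => (l.1 u).2 hd⟩⟩

theorem up {E : Set a.rv.s'.P} (h : Site a.rv.s'.A (rev (pb a.π a.e)) E) (X : Ch a.s'.P)
    (hX : X ∈ E) (V : Ch a.s.P) (l : a.pk.im X ≤ V) : rev a.e (a.pk.im X) V = 0 := by
  obtain ⟨-, I, hI, k⟩ := h.sub hX
  have t : Ch.top I ∈ Inn a.s'.A := mem_inn_sd.1 hI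
  have b : X.bot ≤ Ch.top I := X.bot_le_top.trans (Ch.top_mono k)
  have l' : V.bot ≤ a.π X.bot := a.pk.bot_im X ▸ Ch.bot_anti l
  obtain ⟨q, q1, q2⟩ := a.pk.ex_dn t.1 (l'.trans (a.pk.mon b))
  have q3 := a.pk.le_dn t.1 q1 b (q2 ▸ l')
  have := h.flat X hX (bt X q q3) (dp_hi (a := tp (bt X q q3) (Ch.top I)
    (by simpa using Ch.top_mono k)) (mem_inn_sd.2 (by simpa using t)) (le_bt _ _ _) (le_tp _ _ _))
  simpa [rev, pb, q2, a.pk.bot_im] using this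

variable (hp : NegPStmt) (hm : NegMStmt) (hi : InnStmt) (ha : AmStmt)
include hp hm hi ha

/-- a disc without crossing is removed -/
theorem dropD {D : Set (Ch a.s.P)} (hD : IsCmp (Mx (Inn a.s.A) a.e) D) (h0 : ep a.s.A a.e D = 0) :
    ∃ b, Lt b a := by
  obtain ⟨E, h⟩ | ⟨E, h⟩ := site hp hm hi a.pk.st a.ds.toZ1 hD (a.ds.disc D hD).1
    (a.ds.disc D hD).2 h0
  · obtain ⟨b, k⟩ := a.rv.drop ha h
    exact ⟨b, k.rv⟩
  · obtain ⟨b, k⟩ := a.rv.rv.drop ha h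
    exact ⟨b, k.rv.rv⟩

/-- a site in the cut manifold -/
theorem step (ht : TransStmt) {E : Set a.rv.s'.P} (h : Site a.rv.s'.A (rev (pb a.π a.e)) E) :
    ∃ b, Lt b a := by
  suffices ∃ b, Lt b a.rv from let ⟨b, k⟩ := this; ⟨b, k.rv⟩
  obtain ⟨mv, cn, ne, ny, off, -, up, alt⟩ := ht _ _ _ _ _ E a.rv.pk a.rv.ds.toZ1 (a.rv_pb ▸ h)
    fun X hX V l => a.up h X hX V l.1
  generalize a.rv.π '' E = E at mv cn ne ny off up alt
  generalize a.rv = a at E mv cn ne ny off up alt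
  rcases alt with ⟨c, hc, t⟩ | alt
  · obtain ⟨e', m', D, -, ds, c', f, x, i, ag, -⟩ := move ha a.pk.st a.ds a.coc a.fl uz_sub a.ex
      a.ix mv cn ne ny off
    have k := clo_trace ds.toZ1 a.ds.toZ1 mv Set.sdiff_subset ag up
    exact ⟨⟨a.s, a.s', a.z, a.π, e', m', a.pk, ds, c', f, x, i⟩, ⟨_, Desc.refl⟩,
      Or.inl (card_clo_lt k.1 hc fun u => k.2 c u t)⟩
  · obtain ⟨D, cD, sub⟩ := ex_cmp (f := id) cn ne
      (fun _ k => ((Am43.nx_iff a.ds.toZ1 mv).1 k).1) fun _ _ _ _ l => l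
    exact a.dropD hp hm hi ha cD (alt D cD (a.ds.disc D cD).1 sub)

omit hp hm hi ha in
/-- no negative piece -/
theorem last (hd : DiscStmt) (hf : FinStmt) (hg : GoodStmt)
    (h : ∀ F, IsCmp (Mx (Inn a.s'.A) (pb a.π a.e)) F → eu F = 1 →
      Tc (Inn a.s'.A) (pb a.π a.e) F → ep a.s'.A (pb a.π a.e) F ≠ 0) : HBo a.s' n := by
  obtain ⟨ds, two, sm, tc⟩ := hf _ _ _ _ _ a.pk a.ds.toDsc h
  have sp := hg _ _ _ _ _ a.pk a.ds tc
  have key : ∀ (p : Set (Ch a.s.P) → Prop) (p' : Set (Ch a.s'.P) → Prop),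
      (∀ F D, IsCmp (Mx (Inn a.s'.A) (pb a.π a.e)) F → IsCmp (Mx (Inn a.s.A) a.e) D →
        (∀ c ∈ F, a.pk.im c ∈ D) → p' F → p D) → ixp a.s'.A (pb a.π a.e) p' ≤ ixp a.s.A a.e p :=
    fun p p' k => by
      refine rel_sum (fun D => (cs (Mx (Inn a.s'.A) (pb a.π a.e))).filter
        fun F => ∀ c ∈ F, a.pk.im c ∈ D) (fun F l => ?_) fun D l => ?_
      · have hF := mem_cs.1 (mem_filter.1 l).1
        obtain ⟨D, b, c⟩ := ex_cmp (B := Mx (Inn a.s.A) a.e) (f := a.pk.im) hF.conn hF.ne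
          (fun c r => mx_mono uz_sub (a.pk.mem_mx.1 (hF.sub r)).2)
          fun _ _ _ _ r => a.pk.cov.toLift.im_mono r
        exact ⟨D, mem_filter.2 ⟨mem_cs.2 b, k F D hF b c (mem_filter.1 l).2⟩,
          mem_filter.2 ⟨(mem_filter.1 l).1, c⟩⟩
      · have := sm D (mem_cs.1 (mem_filter.1 l).1)
        refine (Nat.cast_le (α := ℤ)).1 (le_of_eq_of_le ?_ (this.trans (by omega)))
        rw [Nat.cast_sum]
        exact sum_congr rfl fun F r => Nat.cast_sub (two F (mem_cs.1 (mem_filter.1 r).1))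
  have k1 := (key _ (fun _ => True) fun _ _ _ _ _ _ => trivial).trans a.ix.all
  have k2 := (key _ (Um (pb a.π a.m)) fun F D b c d u => by
    obtain ⟨x, hx⟩ := b.ne
    exact um_of a.ds.toZ1 a.coc a.fl c (d x hx)
      (by rw [a.pk.bot_im, a.pk.top_im]; exact u x hx)).trans a.ix.um
  have sb : Inn a.s'.A ⊆ a.π ⁻¹' Inn a.s.A := fun _ r => (a.pk.uz_of r).1
  have cm : Coc (Inn a.s'.A) (pb a.π a.m) := (a.coc.pb a.pk.mon).mono sb
  have fm : Fl (Inn a.s'.A) (pb a.π a.e) (pb a.π a.m) := fun _ _ r =>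
    a.fl _ _ ((r.mono sb).map a.pk.mon)
  obtain ⟨g, hg⟩ := Nice.eqD_cb a.pk.nice' cm (let ⟨g, hg⟩ := a.ex
    ⟨g ∘ a.π, fun _ b _ c l => hg _ (a.pk.uz_of b) _ (a.pk.uz_of c) (a.pk.mon l)⟩)
  exact discard hd a.pk.st' ⟨ds, sp⟩ cm fm hg ⟨k1, k2⟩

theorem hbo (hd : DiscStmt) (ht : TransStmt) (hf : FinStmt) (hg : GoodStmt) : HBo a.s' n := by
  suffices ∀ μ ν, ∀ a : Sg n, a.mu = μ → a.nu = ν → HBo a.s' n from this _ _ a rfl rfl
  intro μ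
  induction μ using Nat.strong_induction_on with | _ μ ih =>
  intro ν
  induction ν using Nat.strong_induction_on with | _ ν ih' =>
  rintro a rfl rfl
  by_cases h : ∃ F, IsCmp (Mx (Inn a.s'.A) (pb a.π a.e)) F ∧ eu F = 1 ∧
      Tc (Inn a.s'.A) (pb a.π a.e) F ∧ ep a.s'.A (pb a.π a.e) F = 0
  · obtain ⟨F, a1, a2, a3, a4⟩ := h
    obtain ⟨b, ⟨g, d⟩, k⟩ : ∃ b, Lt b a := by
      obtain ⟨E, h⟩ | ⟨E, h⟩ := site hp hm hi a.pk.st' (a.pk.z1_pb a.ds.toZ1) a1 a2 a3 a4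
      · exact a.step hp hm hi ha ht h
      · obtain ⟨b, k⟩ := a.rv.step hp hm hi ha ht (E := E) (a.rv_pb ▸ h)
        exact ⟨b, k.rv⟩
    obtain ⟨t, f, e, d', r⟩ : HBo b.s' n := k.elim (fun l => ih _ l _ b rfl rfl) fun l =>
      l.1.lt_or_eq.elim (fun l => ih _ l _ b rfl rfl) fun o => ih' _ l.2 b o rfl
    exact ⟨t, _, e, d.trans d', r⟩
  · exact a.last hd hf hg fun F a1 a2 a3 a4 => h ⟨F, a1, a2, a3, a4⟩

end Sg

theorem ws_inn {P : Type} [PartialOrder P] [Fintype P] {A : Set P} (hT : Thick A) :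
    WS (Inn A) A id :=
  WS.of_ge (fun _ k => k.1) (fun _ _ _ _ l => l) fun y hy => by
    by_cases k : y ∈ Fr A
    · convert hT.inn y k using 1
      exact Set.ext fun _ => ⟨fun l => ⟨l.1.1, l.2, l.1.2⟩, fun l => ⟨⟨l.1, l.2.2⟩, l.2.1⟩⟩
    · exact sctr_min (m := y) ⟨⟨hy, k⟩, le_rfl⟩ fun _ l => l.2

/-- P2 -/
theorem p2_of (hp : NegPStmt) (hm : NegMStmt) (hi : InnStmt) (ha : AmStmt) (hd : DiscStmt)
    (ht : TransStmt) (hf : FinStmt) (hg : GoodStmt) : P2Stmt (par' HBo) := by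
  rintro s n hs ⟨t, f, e, d, ds, ie⟩
  by_cases k : ix t.A e ≤ n
  · exact Or.inl ⟨t, f, e, d, ds, k⟩
  have st : Stt t := stt_desc hs d
  have gd := good_inn st.toGood st.thick
  obtain ⟨D, hD, lt⟩ : ∃ D ∈ cs (Mx (Inn t.A) e), ep t.A e D - 2 ≠ 0 :=
    exists_ne_zero_of_sum_ne_zero fun o : ix t.A e = 0 => k (o ▸ Nat.zero_le _)
  have cD := mem_cs.1 hD
  have cl := Am43.clo_cmp cD
  have f0 : Fl (Inn t.A) e e := fun _ _ _ o => o
  have cm : Coc (Inn t.A) (Am43.on e D e) := Am43.coc_on ds.toZ1 inn_up gd.nice cl f0 ds.coc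
  have fm : Fl (Inn t.A) e (Am43.on e D e) := fun x y _ o => by
    rw [Am43.on, o, ite_self]
  have hx : Ix t.A e (Am43.on e D e) n := ⟨ix_eq (A := t.A) ▸ ie, by
    have := ixp_erase (p := Um (Am43.on e D e)) cD fun o =>
      let ⟨c, hc⟩ := cD.ne
      (cD.sub hc).2.ne' (((Am43.on_eq ds.toZ1 inn_up gd.nice cl f0 (cD.sub hc).1 c.bot_mem c.top_mem
        c.bot_le_top).trans (if_pos hc)).symm.trans (o c hc))
    omega⟩
  generalize Am43.on e D e = m at cm fm hx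
  obtain ⟨w, cw, g, hg'⟩ := (ws_inn st.thick).onto (Coc.cocOn cm)
  obtain ⟨ζ, cζ, eζ⟩ := Nice.exists_coc st.nice cw
  refine Or.inr ⟨t, f, ζ, d, cζ, fun s' ⟨t', f', z, π, d', ⟨g', co⟩, _, ad, ps, cv, s2⟩ => ?_⟩
  have pk := pk_of (stt_desc st d') s2 cv ad ps
  have e1 := Sup43.inn_desc d'
  refine Sg.hbo ⟨t', s', z, π, pb f' e, pb f' m, pk, ds.desc d' st, e1 ▸ cm.pb d'.mono,
    fun x y r o => fm _ _ (Dp.map d'.mono (e1 ▸ r)) o,
    ⟨fun x => g (f' x) - g' x, fun x a y b l => ?_⟩, hx.desc d' st ds.toZ1 cm fm⟩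
    hp hm hi ha hd ht hf hg
  have a' : f' x ∈ Inn t.A := by have := a.1; rwa [e1] at this
  have b' : f' y ∈ Inn t.A := by have := b.1; rwa [e1] at this
  have h1 : m (f' x) (f' y) - w (f' x) (f' y) = _ := hg' _ a' _ b' (d'.mono l)
  have h2 := eζ _ a'.1 _ b'.1 (d'.mono l)
  have h3 : z x y = ζ (f' x) (f' y) + (g' y - g' x) := co x y (dp_hi b.1.1 l le_rfl)
  rw [pk.z_uz a l] at h3
  show m (f' x) (f' y) = g (f' y) - g' y - (g (f' x) - g' x)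
  omega

/-- BASE for `HBo` -/
theorem base_of (hc : ConvStmt) (hb : BaseStmt Ind26.par) : BaseStmt (par' HBo) :=
  fun s hs h => hb s hs (hc s hs h)

end Crest.Agent.X212.Pt30
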