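import Crest.Agent.X212.Sf30.P2Sum

/-!
# X212 / Sf30 (helper30): P2, sites and moves
-/

set_option autoImplicit false
set_option linter.unusedSectionVars false

open Finset Classical

noncomputable section

namespace Crest.Agent.X212.Pt30

open Crest.Agent.X212.Hp13 Alg36 Cut21 Ind26
open Sf30 hiding Inn
open Sup43 (Inn inn_sub inn_up good_inn)
open Kh11 (WS clo_cmp sctr_min sctr_max)
open Am43 (Fl)

section
variable {P : Type} [PartialOrder P] [Fintype P] {A M E K : Set P} {e e' m : P → P → ℤ}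
  {F : Set (Ch P)}

theorem not_pat (h : ep A e F = 0) {c : Ch P} (hc : c ∈ F) : ¬ Pat A e c := fun k =>
  notMem_empty c (card_eq_zero.1 h ▸ mem_filter.2 ⟨mem_univ _, hc, k⟩)

theorem rim_wit (hN : Nice (Inn A)) (h : Z1 (Inn A) e) (hv : Vt A e) (hF : IsCmp (Mx (Inn A) e) F)
    {c : Ch P} (hc : c ∈ F) {n : P} (hn : n ∈ c.1) (h1 : n ∉ Inn A) (h2 : 0 < e n c.top) :
    ∃ q ∈ Qe (Inn A) e, q ∉ F ∧ (∃ c' ∈ F, q ≤ c') ∧ n ≤ q.top ∧ q.top ≤ c.top ∧ q.top ∉ Inn A ∧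
      (q.top ∈ A → n ∈ A) := by
  have t := (hF.sub hc).1
  have l := Ch.le_top hn
  obtain ⟨n', a1, a2, a3, a4, a5, -⟩ := hv.vert n _ h1 (dp_hi t l le_rfl) h2
  refine ⟨Ch.pr n n' a1, ⟨(dom_pr a1).2 (dp_hi t a1 a2), by simpa using a3⟩,
    fun k => a4 (by simpa using (hF.sub k).1), ⟨tp _ c.top (by simpa using a2), ?_, le_tp _ _ _⟩,
    by simpa using a1, by simpa using a2, by simpa using a4, by simpa using a5⟩
  exact h.cmp_over inn_up hN hF (q := Ch.pr n c.top l) (by simpa using h2) hc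
    (Cut21.pr_le hn c.top_mem) (Cut21.pr_le (by simp) (by simp)) (by simpa using t)

/-- a disc without crossing has its boundary in `R₊` or in `R₋` -/
theorem side_cases (hA : A.OrdConnected) (hM : Mf 3 (Inn A)) (hN : Nice (Inn A))
    (h : Z1 (Inn A) e) (hv : Vt A e) (hF : IsCmp (Mx (Inn A) e) F) (he : eu F = 1)
    (h0 : ep A e F = 0) : (∀ c ∈ F, c.bot ∈ A) ∨ ∀ c ∈ F, ∀ b ∈ c.1, b ∉ Fr A := by
  by_contra k
  simp only [not_or, not_forall, not_not] at k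
  obtain ⟨⟨c, hc, n⟩, d, hd, b, hb, f⟩ := k
  have up : IsUpperSet F := (clo_cmp hF).upper (mx_upper h inn_up subset_rfl)
  have key : ∀ q ∈ Qe (Inn A) e, q ∉ F → (∃ c' ∈ F, q ≤ c') → q.top ∉ Fr A →
      ∀ q' ∈ Qe (Inn A) e, q' ∉ F → (∃ c' ∈ F, q' ≤ c') → q'.top ∉ Fr A :=
    fun q a1 a2 ⟨c, a3, a4⟩ a5 q' b1 b2 ⟨c', b3, b4⟩ => by
      refine h.rim hM hF.sub up hF.conn he.ge (fun q _ => q.top ∈ Fr A) (fun _ _ _ _ _ _ _ _ => rfl)
        (fun q a1 a2 c a3 q' a4 a5 a6 => propext ?_) a1 a2 a3 a4 b1 b2 b3 b4 ▸ a5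
      have t := (hF.sub a3).1
      have n : q.top ∉ Inn A := fun m => a2 (hF.clopen a3 ⟨m, a1.2⟩ (Or.inr a6))
      refine ⟨fun m => by_contra fun m' => not_pat h0 a3 ⟨_, a6 (a5 q'.bot_mem), _,
        a6 (a5 q'.top_mem), _, a6 q.top_mem, q'.bot_le_top,
        fun o => m' (fr_dn m o (Ch.top_mono a5)), m, a4.2⟩,
        fun m => fr_of (hA.out m.1 t.1 ⟨Ch.top_mono a5, Ch.top_mono a6⟩) n⟩
  obtain ⟨q, a1, a2, a3, -, -, -, a4⟩ :=
    rim_wit hN h hv hF hc c.bot_mem (fun m => n m.1) (hF.sub hc).2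
  have t := hF.sub hd
  by_cases m : 0 < e d.bot b
  · have l := Ch.bot_le hb
    exact key q a1 a2 a3 (fun o => n (a4 o.1)) (Ch.pr _ _ l)
      ⟨(dom_pr l).2 (dp_hi t.1 l (Ch.le_top hb)), by simpa using m⟩
      (fun o => (hF.sub o).1.2 (by simpa using f)) ⟨d, hd, Cut21.pr_le d.bot_mem hb⟩
      (by simpa using f)
  · have := h.add t.1 (Ch.bot_le hb) (Ch.le_top hb) le_rfl
    have := t.2
    obtain ⟨q', b1, b2, b3, b4, b5, b6, -⟩ := rim_wit hN h hv hF hd hb (fun o => o.2 f) (by omega)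
    exact key q a1 a2 a3 (fun o => n (a4 o.1)) q' b1 b2 b3 (fr_of (hA.out f.1 t.1.1 ⟨b4, b5⟩) b6)

/-! ### a site in the manifold itself -/

namespace Site

variable (h : Site A e E)
include h

theorem mvs : Mvs (Inn A) E e := ⟨h.flat, fun x hx y hp => h.lo x hx y hp.1⟩

theorem wit : ∃ x ∈ E, ∃ y, ∃ l : y ≤ x, y ∉ E ∧ ∃ i ∈ Inn A, ∃ k : (Ch.pr y x l).top ≤ i,
    tp _ i k ∈ NXs (Inn A) E :=
  let ⟨x, hx, y, l, n⟩ := h.ne
  let ⟨_, i, hi, k⟩ := h.sub hx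
  ⟨x, hx, y, l, n, i, hi, by simpa using k, by simpa using hi, ⟨x, by simp, hx⟩, by simpa using n⟩

theorem nx_ne : (NXs (Inn A) E).Nonempty := let ⟨_, _, _, _, _, _, _, _, k⟩ := h.wit; ⟨_, k⟩

theorem ny_eq : NYs (Inn A) E = Sr (Inn A) E :=
  Set.ext fun _ => ⟨fun k => ⟨k.1, k.2.1⟩, fun k => ⟨k.1, k.2, fun l => (h.sub l).1 k.1⟩⟩

theorem ny (C : Set (Ch P)) (hC : IsCmp (NYs (Inn A) E) C) : Hp13.eu C = 1 := by
  rw [h.ny_eq] at hC
  obtain ⟨c, hc, rfl⟩ := hC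
  rw [← h.eu]
  exact congrArg _ (Set.ext fun d => ⟨fun k => k.1, fun k => ⟨k, h.conn c hc d k⟩⟩)

theorem off (x : P) (hx : x ∈ E) (n : x ∉ A) (b : P) (hb : b ∈ Fr A) : ¬ x ≤ b :=
  h.side.elim (fun k => absurd (k x hx x le_rfl) n) fun k => k x hx x le_rfl b hb

theorem eu_nx (hM : Mf 3 (Inn A)) (he : Z1 (Inn A) e) : Hp13.eu (NXs (Inn A) E) ≤ 0 := by
  have nx : ∀ {c}, c ∈ NXs (Inn A) E ↔ c ∈ Mx (Inn A) e ∧ Mt E c := Am43.nx_iff he h.mvs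
  obtain ⟨x, hx, y, l, n, i, hi, k, w⟩ := h.wit
  have k' : x ≤ i := by simpa using k
  have e1 := h.lo x hx y l n
  have := he.eu_add_le hM (fun _ a => (nx.1 a).1)
    (fun _ _ a b => nx.2 ⟨mx_upper he inn_up subset_rfl a (nx.1 b).1, b.2.1.mono a⟩) h.curve
    (fun q _ => Mt E q) (fun _ _ _ _ _ _ _ _ => rfl)
    (fun q a1 a2 c a3 q' a4 a5 a6 => propext ⟨fun ⟨t, t1, t2⟩ => ?_, fun m => m.mono a5⟩)
    {True, False} fun j hj => ?_
  · rw [card_pair (by simp)] at this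
    omega
  · have n : q.top ∉ Inn A := fun m => a2 (nx.2 ⟨⟨m, a1.2⟩, t, t1, t2⟩)
    have o : q'.top ∈ Om (Inn A) := ⟨fun m => n (inn_up (Ch.top_mono a5) m), _, a3.1,
      Ch.top_mono (a5.trans a6)⟩
    refine ⟨_, q'.top_mem, (q.total t1 (a5 q'.top_mem)).elim (h.up t t2 _ o) fun m =>
      by_contra fun m' => ?_⟩
    have := h.lo t t2 _ m m'
    have := he.top_top a1.1 a5 a4.2
    have := he.add a3.1 m (Ch.le_top t1) (Ch.top_mono a6)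
    have := he.nn a3.1 (Ch.le_top t1) (Ch.top_mono a6)
    omega
  · rcases mem_insert.1 hj with rfl | hj
    · exact ⟨Ch.pr y x l, ⟨(dom_pr l).2 (dp_hi hi l k'), by simp [e1]⟩,
        fun m => (h.sub hx).1 (by simpa using m.1), _, w, le_tp _ _ _, eq_true ⟨x, by simp, hx⟩⟩
    · have m : ¬ Mt E (Ch.pr y i (l.trans k')) := fun ⟨t, t1, t2⟩ =>
        (Cut21.mem_pr.1 t1).elim (fun o => n (o ▸ t2)) fun o => (h.sub t2).1 (o ▸ hi)
      exact ⟨Ch.pr y i (l.trans k'), ⟨dom_top (by simpa using hi), by simpa using (nx.1 w).1.2⟩,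
        fun o => m o.2.1, _, w, Cut21.pr_le (by simp) (by simp), mem_singleton.1 hj ▸ eq_false m⟩

end Site

/-- the trace on `K` after a move -/
theorem clo_trace (h' : Z1 M e') (h : Z1 M e) (mv : Mvs M E e) (hK : K ⊆ M)
    (ag : ∀ c ∈ Mx M e', ∀ x ∈ c.1, ∀ y ∈ c.1, x ≤ y → e' x y = (e - cb (ind E)) x y)
    (up : ∀ x ∈ E, ∀ k ∈ K, x ≤ k → k ∈ E) :
    Kh11.Clo (Mx K e) (Mx K e') ∧ ∀ c ∈ Mx K e', c.top ∉ E := by
  have k : ∀ c ∈ Mx K e', c ∈ Mx K e ∧ c.top ∉ E := fun c hc => by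
    have a := ag c (mx_mono hK hc) _ c.bot_mem _ c.top_mem c.bot_le_top
    have b := hc.2
    have d := h.le1 (hK hc.1) c.bot_le_top le_rfl
    simp only [Pi.sub_apply, cb] at a
    by_cases l : c.bot ∈ E
    · rw [mv.flat _ l _ (dom_top (hK hc.1)).bt, ind_of_mem l,
        ind_of_mem (up _ l _ hc.1 c.bot_le_top)] at a
      omega
    rw [ind_of_not l] at a
    have n : c.top ∉ E := fun o => by rw [ind_of_mem o] at a; omega
    rw [ind_of_not n] at a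
    exact ⟨⟨hc.1, by omega⟩, n⟩
  refine ⟨⟨fun c hc => (k c hc).1, fun c hc d hd l => ⟨hd.1, l.elim
    (fun l => h'.up (dom_top (hK hd.1)) l hc.2) fun l => ?_⟩⟩, fun c hc => (k c hc).2⟩
  have a := ag c (mx_mono hK hc) _ (l d.bot_mem) _ (l d.top_mem) d.bot_le_top
  have b := hd.2
  simp only [Pi.sub_apply, cb] at a
  rw [ind_of_not fun o => (k c hc).2 (up _ o _ hc.1 (Ch.top_mono l))] at a
  have : 0 ≤ ind E d.bot := by unfold ind; split_ifs <;> simp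
  omega

end

/-- SITE -/
theorem site (hp : NegPStmt) (hm : NegMStmt) (hi : InnStmt) {s : St} {e : s.P → s.P → ℤ}
    {F : Set (Ch s.P)} (hs : Stt s) (h : Z1 (Inn s.A) e) (hF : IsCmp (Mx (Inn s.A) e) F)
    (he : eu F = 1) (ht : Tc (Inn s.A) e F) (h0 : ep s.A e F = 0) :
    (∃ E, Site s.sd.A (rev e) E) ∨ ∃ E, Site s.sd.sd.A (rev (rev e)) E := by
  have s1 := stt_sd hs
  have g := good_inn s1.toGood s1.thick
  have e1 : Inn s.sd.A = Ch.top ⁻¹' Inn s.A := inn_sd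
  have z : Z1 (Inn s.sd.A) (rev e) := e1 ▸ h.rev
  have v : Vt s.sd.A (rev e) := vt_rev (good_inn hs.toGood hs.thick).nice h.coc
  have c : IsCmp (Mx (Inn s.sd.A) (rev e)) (rv (Inn s.A) e F) := e1 ▸ rv_cmp h subset_rfl hF
  have u := (rv_eu h subset_rfl hF).trans he
  have t : Tc (Inn s.sd.A) (rev e) (rv (Inn s.A) e F) := e1 ▸ rv_tc h subset_rfl hF ht
  obtain ⟨W, k⟩ := (side_cases s1.conv g.mf g.nice z v c u
    (Nat.le_zero.1 (h0 ▸ ep_rv hs.conv hs.mf h F))).elim (hp _ _ _ s1 z v c u t)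
    (hm _ _ _ s1 z v c u t)
  exact hi _ _ W s1 z v k

/-- MOVE with the marking and the index -/
theorem move (ha : AmStmt) {s : St} {e m : s.P → s.P → ℤ} {E U : Set s.P} {n : ℕ} (hs : Stt s)
    (ds : DSys s.A e) (hm : Coc (Inn s.A) m) (fl : Fl (Inn s.A) e m) (hU : U ⊆ Inn s.A)
    (ex : ExOn U m) (hx : Ix s.A e m n) (mv : Mvs (Inn s.A) E e) (cn : Conn (NXs (Inn s.A) E))
    (ne : (NXs (Inn s.A) E).Nonempty) (ny : ∀ C, IsCmp (NYs (Inn s.A) E) C → eu C = 1)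
    (off : ∀ x ∈ E, x ∉ s.A → ∀ b ∈ Fr s.A, ¬ x ≤ b) :
    ∃ e' m' D, IsCmp (Mx (Inn s.A) e) D ∧ DSys s.A e' ∧ Coc (Inn s.A) m' ∧ Fl (Inn s.A) e' m' ∧
      ExOn U m' ∧ Ix s.A e' m' n ∧
      (∀ c ∈ Mx (Inn s.A) e', ∀ x ∈ c.1, ∀ y ∈ c.1, x ≤ y → e' x y = (e - cb (ind E)) x y) ∧
      (eu (NXs (Inn s.A) E) ≤ 0 → Conn (NYs (Inn s.A) E) →
        Mx (Inn s.A) e' = Mx (Inn s.A) e \ D) := by
  have z := ds.toZ1
  have nx : ∀ {c}, c ∈ NXs (Inn s.A) E ↔ c ∈ Mx (Inn s.A) e ∧ Mt E c := Am43.nx_iff z mv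
  obtain ⟨D, cD, sub⟩ := ex_cmp (f := id) cn ne (fun _ k => (nx.1 k).1) fun _ _ _ _ l => l
  obtain ⟨e', d', sp, ⟨g, hg⟩, le, ag, kp, fin⟩ : ∃ e' : s.P → s.P → ℤ, Dsc (Inn s.A) e' ∧
      (Spn1 (Inn s.A) e → Spn1 (Inn s.A) e') ∧ (∃ h, EqD (Inn s.A) (e - e') (cb h)) ∧
      (∀ x y, Dp (Inn s.A) x y → e' x y ≤ (e - cb (ind E)) x y) ∧
      (∀ c ∈ Mx (Inn s.A) e', ∀ x ∈ c.1, ∀ y ∈ c.1, x ≤ y → e' x y = (e - cb (ind E)) x y) ∧
      Mx (Inn s.A) e \ D ⊆ Mx (Inn s.A) e' ∧ (eu (NXs (Inn s.A) E) ≤ 0 → Conn (NYs (Inn s.A) E) →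
        Mx (Inn s.A) e' = Mx (Inn s.A) e \ D) := ha (s.at (Inn s.A)) e E D
    (good_inn hs.toGood hs.thick) inn_up ds.toDsc mv cn ne cD sub ny
  have z' : Z1 (Inn s.A) e' := d'.toZ1
  obtain ⟨k, hk⟩ := Am43.const_jump z fl hm cD.sub cD.conn
  have keep : ∀ c ∈ Mx (Inn s.A) e \ D, ∀ x ∈ c.1, ∀ y ∈ c.1, x ≤ y → e' x y = e x y :=
    fun c hc x a y b l => by
      have n : ¬ Mt E c := fun o => hc.2 (sub c (nx.2 ⟨hc.1, o⟩))
      exact (ag c (kp hc) x a y b l).trans (Am43.lw_ch n a b)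
  have pt : ∀ c ∈ Mx (Inn s.A) e', Pat s.A e' c → c ∈ Mx (Inn s.A) e ∧ Pat s.A e c :=
    fun c hc ⟨x, a, x', a', b, a'', l, n, f, p⟩ => by
      have t : c.top ∈ Inn s.A := hc.1
      have n' := not_dn hs.conv t.1 (Ch.le_top a') n l
      have := le x x' (dp_hi t l (Ch.le_top a'))
      simp only [Pi.sub_apply, cb] at this
      rw [ind_of_not fun o => off x o n' b f ((c.total a a'').resolve_right fun r =>
        n' (hs.conv.out f.1 t.1 ⟨r, Ch.le_top a⟩))] at this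
      have : 0 ≤ ind E x' := by unfold ind; split_ifs <;> simp
      have q : 0 < e x x' := by omega
      exact ⟨⟨t, z.pos (dom_top t) a a' l q⟩, x, a, x', a', b, a'', l, n, f, q⟩
  have clo : Kh11.Clo (Mx (Inn s.A) e') (Mx (Inn s.A) e \ D) := ⟨kp, fun c hc d hd l => by
    have o : d ∈ Mx (Inn s.A) e := ⟨hd.1, l.elim (fun l => z.up (dom_top hd.1) l hc.1.2) fun l =>
      keep c hc _ (l d.bot_mem) _ (l d.top_mem) d.bot_le_top ▸ hd.2⟩
    exact ⟨o, fun r => hc.2 (cD.clopen r hc.1 l.symm)⟩⟩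
  refine ⟨e', m - k • (e - e'), D, cD, ⟨d', sp ds.spn⟩, hm.sub ((z.coc.sub z'.coc).zsmul k),
    fun x y hp o => ?_, ?_, hx.of id (fun _ _ _ _ _ _ l => l) fun C' hC => ?_, ag, fin⟩
  · simp only [Pi.sub_apply, Pi.smul_apply, smul_eq_mul, o, sub_zero]
    by_cases r : e x y = 0
    · rw [fl x y hp r, r]; simp
    obtain ⟨c, t, a, b⟩ := Am43.dp_ch inn_up hp
    have p : 0 < e x y := (z.mono x y hp).lt_of_ne' r
    have hc : c ∈ D := by_contra fun n =>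
      r ((keep c ⟨⟨t, z.pos (dom_top t) a b hp.1 p⟩, n⟩ x a y b hp.1).symm.trans o)
    rw [hk c hc x a y b hp.1 p, le_antisymm (z.le x y hp) p]; simp
  · obtain ⟨g', hg'⟩ := ex
    refine ⟨fun x => g' x - k * g x, fun x a y b l => ?_⟩
    have := hg x y (dp_hi (hU b) l le_rfl)
    simp only [Pi.sub_apply, Pi.smul_apply, smul_eq_mul, cb] at this ⊢
    rw [hg' x a y b l, this]; ring
  obtain ⟨c, hc⟩ := hC.ne
  by_cases o : c ∈ Mx (Inn s.A) e \ D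
  · have sb := clo_sub clo hC hc o
    obtain ⟨C, a, b⟩ := ex_cmp (f := id) hC.conn hC.ne (fun _ r => (sb r).1) fun _ _ _ _ l => l
    refine ⟨C, a, fun u => um_of z hm fl a (b c hc) ?_,
      fun d hd p => ⟨b d hd, (pt d (hC.sub hd) p).2⟩⟩
    simpa [keep c o _ c.bot_mem _ c.top_mem c.bot_le_top] using u c hc
  have sb : ∀ d ∈ C', d ∈ Mx (Inn s.A) e → d ∈ D := fun d hd r =>
    by_contra fun n => o (clo_sub clo hC hd ⟨r, n⟩ hc)
  refine ⟨D, cD, fun u d hd => ?_, fun d hd p => ⟨sb d hd (pt d (hC.sub hd) p).1,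
    (pt d (hC.sub hd) p).2⟩⟩
  rw [hk d hd _ d.bot_mem _ d.top_mem d.bot_le_top (cD.sub hd).2]
  have t := hC.sub hc
  have u := u c hc
  have dp := (dom_top t.1).bt
  simp only [Pi.sub_apply, Pi.smul_apply, smul_eq_mul, le_antisymm (z'.le _ _ dp) t.2] at u
  by_cases r : e c.bot c.top = 0
  · rw [fl _ _ dp r, r] at u; simpa using u
  · have p := (z.mono _ _ dp).lt_of_ne' r
    rw [hk c (sb c hc ⟨t.1, p⟩) _ c.bot_mem _ c.top_mem c.bot_le_top p,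
      le_antisymm (z.le _ _ dp) p] at u
    simpa using u

end Crest.Agent.X212.Pt30
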