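import Crest.Agent.X212.Sf30.P2Rev
import Crest.Agent.X212.Am43.Am

/-!
# X212 / Sf30 (helper30): P2, counting components and crossings; refinement
-/

set_option autoImplicit false
set_option linter.unusedSectionVars false

open Finset Classical

noncomputable section

namespace Crest.Agent.X212.Pt30

open Crest.Agent.X212.Hp13 Alg36 Cut21 Ind26
open Sf30 hiding Inn
open Sup43 (Inn inn_sub inn_up good_inn)
open Kh11 (WS clo_cmp sctr_min sctr_max)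
open Am43 (Fl)

theorem rel_sum {ι κ : Type} {g : Finset ι} {G : Finset κ} {a : ι → ℕ} {b : κ → ℕ}
    (R : κ → Finset ι) (h1 : ∀ i ∈ g, ∃ k ∈ G, i ∈ R k)
    (h2 : ∀ k ∈ G, ∑ i ∈ R k, a i ≤ b k) : ∑ i ∈ g, a i ≤ ∑ k ∈ G, b k := by
  refine le_trans ?_ (sum_le_sum (f := fun k => ∑ i ∈ g, if i ∈ R k then a i else 0) fun k hk => by
    rw [sum_ite_mem]; exact (sum_le_sum_of_subset inter_subset_right).trans (h2 k hk))
  rw [sum_comm]
  refine sum_le_sum fun i hi => ?_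
  obtain ⟨k, hk, r⟩ := h1 i hi
  exact (if_pos r).ge.trans (single_le_sum (f := fun k => if i ∈ R k then a i else 0)
    (fun _ _ => Nat.zero_le _) hk)

theorem sum_sub_two {ι : Type} (g : Finset ι) (a : ι → ℕ) :
    ∑ i ∈ g, (a i - 2) ≤ ∑ i ∈ g, a i - 2 := by
  induction g using Finset.induction_on with
  | empty => simp
  | insert i g hi ih => rw [sum_insert hi, sum_insert hi]; omega

variable {P Q : Type} [PartialOrder P] [Fintype P] [PartialOrder Q] [Fintype Q]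

section cmp

variable {S T C D : Set P}

theorem cmp_eq_of (h : IsCmp S C) (h' : IsCmp S D) {x : P} (h1 : x ∈ C) (h2 : x ∈ D) : C = D :=
  (h.eq h1).trans (h'.eq h2).symm

theorem clo_isCmp (h : Kh11.Clo S T) (k : IsCmp T C) : IsCmp S C := by
  obtain ⟨x, hx, rfl⟩ := k
  exact ⟨x, h.1 hx, Set.ext fun _ => ⟨fun k => ⟨h.1 k.1, k.2.mono h.1⟩,
    fun k => have r := Rch.in_clopen h.2 hx k.2; ⟨r.mem hx, r⟩⟩⟩

theorem clo_diff (h : Kh11.Clo S T) : Kh11.Clo S (S \ T) :=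
  ⟨Set.sdiff_subset, fun _ a _ b k => ⟨b, fun j => a.2 (h.2 _ j _ a.1 k.symm)⟩⟩

theorem clo_sub (h : Kh11.Clo S T) (k : IsCmp S C) {x : P} (h1 : x ∈ C) (h2 : x ∈ T) : C ⊆ T :=
  fun _ l => (Rch.in_clopen h.2 h2 (k.eq h1 ▸ l :).2).mem h2

theorem card_clo (h : Kh11.Clo S T) : (cs T).card ≤ (cs S).card :=
  card_le_card fun _ k => mem_cs.2 (clo_isCmp h (mem_cs.1 k))

theorem card_clo_lt (h : Kh11.Clo S T) {x : P} (h1 : x ∈ S) (h2 : x ∉ T) : (cs T).card < (cs S).card :=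
  card_lt_card ⟨fun _ k => mem_cs.2 (clo_isCmp h (mem_cs.1 k)), fun k =>
    h2 ((mem_cs.1 (k (mem_cs.2 (isCmp_cmp h1)))).sub (mem_cmp_self h1))⟩

theorem card_ws {B : Set Q} {f : P → Q} (h : WS S B f) : (cs S).card = (cs B).card := by
  refine (card_bij (fun D _ => {t | t ∈ S ∧ f t ∈ D}) (fun D k => mem_cs.2 (h.isCmp_pre (mem_cs.1 k)))
    (fun D k D' k' e => ?_) fun C k => ?_).symm
  · obtain ⟨x, hx⟩ := (h.isCmp_pre (mem_cs.1 k)).ne
    exact cmp_eq_of (mem_cs.1 k) (mem_cs.1 k') hx.2 (e ▸ hx :).2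
  · obtain ⟨D, a, b⟩ := h.isCmp_ex (mem_cs.1 k)
    exact ⟨D, mem_cs.2 a, b.symm⟩

/-- a connected set is mapped into one component -/
theorem ex_cmp {B : Set Q} {f : P → Q} (hc : Conn C) (hn : C.Nonempty) (hm : ∀ x ∈ C, f x ∈ B)
    (hf : ∀ x ∈ C, ∀ y ∈ C, x ≤ y → f x ≤ f y) : ∃ D, IsCmp B D ∧ ∀ x ∈ C, f x ∈ D :=
  let ⟨x, hx⟩ := hn
  ⟨_, isCmp_cmp (hm x hx), fun y hy => ⟨hm y hy, (hc x hx y hy).ind (p := fun t => Rch B (f x) (f t))
    Rch.rfl fun a ha b hb l =>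
      have r := Rch.of_cm (hm a ha) (hm b hb) (Or.inl (hf a ha b hb l))
      ⟨fun k => k.trans r, fun k => k.trans r.symm⟩⟩⟩

end cmp

variable {A M V : Set P} {A' : Set Q} {e m : P → P → ℤ} {e' m' : Q → Q → ℤ}

/-- the index of the components with property `p` -/
def ixp (A : Set P) (e : P → P → ℤ) (p : Set (Ch P) → Prop) : ℕ :=
  ∑ C ∈ (cs (Mx (Inn A) e)).filter p, (ep A e C - 2)

theorem ix_eq : ix A e = ixp A e fun _ => True := by rw [ixp, filter_true]; rfl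

theorem ixp_le {p : Set (Ch P) → Prop} {p' : Set (Ch Q) → Prop} (ψ : Ch Q → Ch P)
    (inj : ∀ c d, c.top ∈ Inn A' → d.top ∈ Inn A' → Pat A' e' c → Pat A' e' d → ψ c = ψ d → c = d)
    (h : ∀ C', IsCmp (Mx (Inn A') e') C' → p' C' → ∃ C, IsCmp (Mx (Inn A) e) C ∧ p C ∧
      ∀ c ∈ C', Pat A' e' c → ψ c ∈ C ∧ Pat A e (ψ c)) : ixp A' e' p' ≤ ixp A e p := by
  refine rel_sum (fun C => (cs (Mx (Inn A') e')).filter fun C' =>
    ∀ c ∈ C', Pat A' e' c → ψ c ∈ C ∧ Pat A e (ψ c)) (fun C' k => ?_)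
    fun C _ => (sum_sub_two _ _).trans (Nat.sub_le_sub_right ?_ 2)
  · obtain ⟨C, a, b, c⟩ := h C' (mem_cs.1 (mem_filter.1 k).1) (mem_filter.1 k).2
    exact ⟨C, mem_filter.2 ⟨mem_cs.2 a, b⟩, mem_filter.2 ⟨(mem_filter.1 k).1, c⟩⟩
  unfold ep
  rw [← card_biUnion fun X a Y b n => disjoint_left.2 fun c k l => n (cmp_eq_of
    (mem_cs.1 (mem_filter.1 a).1) (mem_cs.1 (mem_filter.1 b).1)
    (mem_filter.1 k).2.1 (mem_filter.1 l).2.1)]
  refine card_le_card_of_injOn ψ (fun c k => ?_) fun c k d l => ?_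
  · obtain ⟨X, a, b⟩ := mem_biUnion.1 k
    exact mem_filter.2 ⟨mem_univ _, (mem_filter.1 a).2 c (mem_filter.1 b).2.1 (mem_filter.1 b).2.2⟩
  · obtain ⟨X, a, b⟩ := mem_biUnion.1 k
    obtain ⟨Y, a', b'⟩ := mem_biUnion.1 l
    exact inj c d ((mem_cs.1 (mem_filter.1 a).1).sub (mem_filter.1 b).2.1).1
      ((mem_cs.1 (mem_filter.1 a').1).sub (mem_filter.1 b').2.1).1
      (mem_filter.1 b).2.2 (mem_filter.1 b').2.2

/-- unmarked -/
def Um (m : P → P → ℤ) (C : Set (Ch P)) : Prop := ∀ c ∈ C, m c.bot c.top = 0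

/-- the bounds on the index -/
structure Ix (A : Set P) (e m : P → P → ℤ) (n : ℕ) : Prop where
  all : ixp A e (fun _ => True) ≤ n + 1
  um : ixp A e (Um m) ≤ n

theorem Ix.of {n : ℕ} (k : Ix A e m n) (ψ : Ch Q → Ch P)
    (inj : ∀ c d, c.top ∈ Inn A' → d.top ∈ Inn A' → Pat A' e' c → Pat A' e' d → ψ c = ψ d → c = d)
    (h : ∀ C', IsCmp (Mx (Inn A') e') C' → ∃ C, IsCmp (Mx (Inn A) e) C ∧ (Um m' C' → Um m C) ∧
      ∀ c ∈ C', Pat A' e' c → ψ c ∈ C ∧ Pat A e (ψ c)) : Ix A' e' m' n :=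
  ⟨(ixp_le ψ inj fun C' a _ => let ⟨C, b, _, d⟩ := h C' a; ⟨C, b, trivial, d⟩).trans k.all,
    (ixp_le ψ inj fun C' a u => let ⟨C, b, c, d⟩ := h C' a; ⟨C, b, c u, d⟩).trans k.um⟩

theorem mark_const (he : Z1 M e) (hm : Coc M m) (hf : Fl M e m) {C : Set (Ch P)}
    (hC : IsCmp (Mx M e) C) {c d : Ch P} (hc : c ∈ C) (hd : d ∈ C) :
    m c.bot c.top = m d.bot d.top :=
  let ⟨_, h⟩ := Am43.const_jump he hf hm hC.sub hC.conn
  (h c hc _ c.bot_mem _ c.top_mem c.bot_le_top (hC.sub hc).2).trans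
    (h d hd _ d.bot_mem _ d.top_mem d.bot_le_top (hC.sub hd).2).symm

theorem um_of (he : Z1 M e) (hm : Coc M m) (hf : Fl M e m) {C : Set (Ch P)}
    (hC : IsCmp (Mx M e) C) {c : Ch P} (hc : c ∈ C) (k : m c.bot c.top = 0) : Um m C :=
  fun _ l => (mark_const he hm hf hC l hc).trans k

/-! ### the reversed system -/

theorem fl_rev (h : Fl M e m) : Fl (Ch.top ⁻¹' M) (rev e) (rev m) := fun c d hp =>
  h _ _ (hp.dom_top.dp d.bot_mem (hp.1 c.bot_mem) (Ch.bot_anti hp.1))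

theorem Ix.rev {n : ℕ} (k : Ix A e m n) (hA : A.OrdConnected) (hM : Mf 3 A) (h : Z1 (Inn A) e) :
    Ix (Ch.top ⁻¹' A) (rev e) (rev m) n := by
  refine k.of Ch.top (fun C D a b p q l => Ch.ext (Finset.ext fun Y => ?_)) fun G hG => ?_
  · rw [(pat_shape hA hM h (mem_inn_sd.1 a) p).2, (pat_shape hA hM h (mem_inn_sd.1 b) q).2, l]
  rw [inn_sd] at hG
  obtain ⟨F, a, rfl⟩ := rv_ex h subset_rfl hG
  refine ⟨F, a, fun u c hc => ?_, fun C hC p => ⟨hC.2, (pat_shape hA hM h hC.1.1 p).1⟩⟩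
  have l : Ch.pt c.top ≤ c := Ch.pt_le.2 c.top_mem
  simpa [Hp13.rev] using u (Ch.pr _ _ l) ⟨mem_rev.2 (by simpa [Mx] using a.sub hc), by simpa using hc⟩

/-! ### refinement -/

theorem pat_card (hA : A.OrdConnected) (h : Coc (Inn A) e) {c : Ch P} (hc : c.top ∈ Inn A)
    (hp : Pat A e c) : 4 ≤ c.1.card := by
  obtain ⟨x, hx, x', hx', b, hb, l, n, f, k⟩ := hp
  have n' : x ∉ A := not_dn hA hc.1 (Ch.le_top hx') n l
  have ne : x ≠ x' := fun o => by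
    rw [o, h.self hc (Or.inr (Ch.le_top hx'))] at k; exact lt_irrefl _ k
  have : ({x, x', b, c.top} : Finset P) ⊆ c.1 := by
    simp only [insert_subset_iff, singleton_subset_iff]; exact ⟨hx, hx', hb, c.top_mem⟩
  refine le_of_eq_of_le (card_eq_four.2 ⟨_, _, _, _, ne, ?_, ?_, ?_, ?_, ?_, rfl⟩).symm
    (card_le_card this)
  exacts [fun o => n' (o ▸ f.1), fun o => n' (o ▸ hc.1), fun o => n (o ▸ f.1), fun o => n (o ▸ hc.1),
    fun o => hc.2 (o ▸ f)]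

section desc

variable {s t : St} {f : t.P → s.P} (d : Desc s t f) {e m : s.P → s.P → ℤ}
include d

theorem ws_desc {M V : Set s.P} (h : Z1 M e) (hV : IsUpperSet V) (k : V ⊆ M) :
    WS (Mx (f ⁻¹' V) (pb f e)) (Mx V e) (Ch.img f d.mono) := by
  convert d.ce.ws (mx_upper h hV k).ordConnected using 1
  ext c
  simp only [Mx, Set.mem_preimage, Set.mem_ofPred_eq, Ch.top_img, Ch.bot_img, pb]

theorem Dsc.desc {M : Set s.P} (h : Dsc M e) (hM : IsUpperSet M) : Dsc (f ⁻¹' M) (pb f e) := by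
  refine ⟨h.toZ1.pb d.mono, fun G hG => ?_⟩
  have w := ws_desc d h.toZ1 hM subset_rfl
  obtain ⟨F, a, rfl⟩ := w.isCmp_ex hG
  refine ⟨(w.restr (clo_cmp a)).eu_eq.trans (h.disc F a).1, ?_⟩
  obtain ⟨c, hc, x, hx, y, hy, l, n, k⟩ := (h.disc F a).2
  obtain ⟨c', rfl⟩ := d.ce.lift c
  obtain ⟨x', hx', rfl⟩ := Ch.mem_img.1 hx
  obtain ⟨y', hy', rfl⟩ := Ch.mem_img.1 hy
  have t := a.sub hc
  refine ⟨c', ⟨by simpa only [Mx, Set.mem_preimage, Set.mem_ofPred_eq, Ch.top_img, Ch.bot_img, pb]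
    using t, hc⟩, x', hx', y', hy', (c'.total hx' hy').resolve_right fun o => ?_, n, k⟩
  rw [le_antisymm l (d.mono o), h.toZ1.self t.1 (Ch.le_top hy)] at k
  exact lt_irrefl _ k

theorem Spn1.desc {M : Set s.P} (h : Spn1 M e) (hM : IsUpperSet M) (hN : Nice M) :
    Spn1 (f ⁻¹' M) (pb f e) := fun w' hw => by
  obtain ⟨w, g', h1, h2⟩ := Nice.exists_pb_desc (s := s.at M) hM.ordConnected hN (d.at M) hw
  obtain ⟨g, hg⟩ := h w h1
  refine ⟨fun x => g (f x) + g' x, fun x y hp k => ?_⟩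
  have := hg _ _ (hp.map d.mono) k
  have : w' x y = w (f x) (f y) + (g' y - g' x) := h2 x y hp
  beta_reduce
  omega

theorem DSys.desc (hs : Stt s) (h : DSys s.A e) : DSys t.A (pb f e) :=
  ⟨Sup43.inn_desc d ▸ h.toDsc.desc d inn_up,
    Sup43.inn_desc d ▸ h.spn.desc d inn_up (good_inn hs.toGood hs.thick).nice⟩

theorem Ix.desc {n : ℕ} (k : Ix s.A e m n) (hs : Stt s) (h : Z1 (Inn s.A) e) (hm : Coc (Inn s.A) m)
    (hf : Fl (Inn s.A) e m) : Ix t.A (pb f e) (pb f m) n := by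
  have pt : ∀ c, Pat t.A (pb f e) c → Pat s.A e (Ch.img f d.mono c) :=
    fun c ⟨x, hx, x', hx', b, hb, l, n, r, k⟩ => ⟨_, Ch.mem_img.2 ⟨x, hx, rfl⟩, _,
      Ch.mem_img.2 ⟨x', hx', rfl⟩, _, Ch.mem_img.2 ⟨b, hb, rfl⟩, d.mono l,
      by rwa [d.A_eq] at n, by rwa [fr_desc d] at r, k⟩
  refine k.of (Ch.img f d.mono) (fun c c' a _ p _ l => ?_) fun G hG => ?_
  · have a' : (Ch.img f d.mono c).top ∈ Inn s.A := by rwa [Sup43.inn_desc d, Set.mem_preimage,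
      ← Ch.top_img d.mono] at a
    have c4 := pat_card hs.conv h.coc a' (pt c p)
    have c5 := hs.mf.card_le _ ⟨_, Ch.top_mem _, a'.1⟩
    have := d.acyc.fib d.mono (Ch.img f d.mono c)
    rw [sum_congr rfl (g := fun _ => 1) fun x hx => ?_, sum_const, Ch.sg,
      show (Ch.img f d.mono c).1.card = 4 by omega] at this
    · exact card_le_one.1 (by simpa using this.le) c (by simp) c' (by simp [l])
    have e := (mem_filter.1 hx).2
    have := (stt_desc hs d).mf.card_le x ⟨_, x.top_mem, by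
      rw [d.A_eq, Set.mem_preimage, ← Ch.top_img d.mono, e]; exact a'.1⟩
    have : (Ch.img f d.mono x).1.card ≤ x.1.card := card_image_le
    rw [Ch.sg, show x.1.card = 4 by rw [e] at this; omega]
    rfl
  rw [Sup43.inn_desc d] at hG
  obtain ⟨F, a, rfl⟩ := (ws_desc d h inn_up subset_rfl).isCmp_ex hG
  obtain ⟨c, hc⟩ := hG.ne
  exact ⟨F, a, fun u => um_of h hm hf a hc.2 (by simpa only [Ch.top_img, Ch.bot_img, pb] using u c hc),
    fun c hc p => ⟨hc.2, pt c p⟩⟩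

end desc

end Crest.Agent.X212.Pt30
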